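import Claimed.Agent.R286.Rig.Pot

/-!
# Row 286, unit RIG, file 9: endpoint slopes on a gap, bounded strength          (architect helper24)

Paper: PE `profile.tex` l.462-481, l.524-545.   `s t = lim s_n t` on the gap, `F = h1 ((2-p) t - 2 (1-p) s - p s^2/t) = h1 (t - s)(2 - p + p s/t)`.
* `rg_bdd_s_lim`: `raw` on the band of the gap + `rg_ulim`.   `rg_bdd_s_mem`: `s_n` monotone, good references `τ_n → a1`, `σ_n → a2` with `|s_n - id| ≤ ε` (`rg_ref_left/right`).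
* `s_n → s` in `L^1[t',t'']` by `rg_mono_L1`.  NO dominated convergence along an ultrafilter: everything below is Lipschitz in `s_n`.
* `rg_bdd_closure`: `m_n := e_n (s_n - t)/T_n - g_n(k_n t) = rho_n + z_n/T_n`;  `k_n - s_n = x^2 e_n (t - s_n)/T_n + x^2 z_n/T_n → 0` uniformly;  `m_n → h1 (s-t)/T - G(s)` in `L^1` (`G` Lipschitz on compacts, `rg_g_lim`),
  while `∫ |m_n| ≤ ∫_band |rho_n| + (t''-t') sup |z_n|/T_n → 0`.  So `∫_{t'}^{t''} |h1 (s-t)/T - G(s)| = 0`.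
* `rg_bdd_gam`: first three terms Lipschitz in `s_n` and uniformly convergent coefficients; last term `e_n p_n dl_n^2/t ≤ Ce dl_n^2/t'`, `dl_rad`.
* `rg_gap_bdd`: `G a1 = G a2 = 0`.  If `G1 a1 > 0`: `G > 0` on `(a1,b]`.  For a.e. `t ∈ (a1,b)`: `s ≤ t` would give `s ∈ [a1,t]`, `G s ≥ 0 ≥ h1 (s-t)/T`, hence `s = t`, `G t = 0`: impossible.  So `s > t`, `F < 0` a.e.: against `rg_pot_left`.
  If `G1 a2 > 0`: `G < 0` on `[b,a2)`; `s ≥ t` would give `G s ≤ 0 ≤ h1 (s-t)/T`, `s = t`, `G t = 0`.  So `s < t`, `F > 0` a.e.: against `rg_pot_right`.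
-/

set_option autoImplicit false

namespace Claimed.Agent.R286

open MeasureTheory Filter Set Topology

variable {𝒰 : Ultrafilter ℕ} {D : ℕ → RgDat} {T A B : ℝ}

/-- limit of the virtual values `S(x t)/x` -/
noncomputable def rgS (l : Filter ℕ) (D : ℕ → RgDat) (t : ℝ) : ℝ := limUnder l (fun n => (D n).s t)

/-- limit of the stationarity quantity, bounded strength -/
noncomputable def rgF (h1 pin s : ℝ → ℝ) (t : ℝ) : ℝ :=
  h1 t * ((2 - pin t) * t - 2 * (1 - pin t) * s t - pin t * s t ^ 2 / t)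

theorem rg_bdd_eqns_cite : True := by
  have := @rgS.eq_1
  have := @rgF.eq_1
  trivial

theorem rg_bdd_s_lim (h : RgHyp (𝒰 : Filter ℕ) D T A B) {a1 a2 U0 : ℝ}
    (G : RgGap (rgU (𝒰 : Filter ℕ) D) a1 a2 U0) (t : ℝ) (ht : t ∈ Ioo a1 a2) :
    Tendsto (fun n => (D n).s t) (𝒰 : Filter ℕ) (𝓝 (rgS (𝒰 : Filter ℕ) D t)) := by
  obtain ⟨C', hC'⟩ := h.raw (U0 / 2) (rgGC (rgU (𝒰 : Filter ℕ) D) a2) (half_pos G.pos)
  obtain ⟨c1, C1, t1, Cth, -, -, -, -, hok⟩ := h.ok
  refine rg_ulim 𝒰 _ C' ?_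
  filter_upwards [hC', hok, rg_gap_band h G t t ht.1 le_rfl ht.2] with n h1 ok hb
  have htb := hb ⟨le_rfl, le_rfl⟩
  rw [abs_of_nonneg (ok.s_nn t)]
  exact (h1 t htb).1

theorem rg_bdd_s_mem (h : RgHyp (𝒰 : Filter ℕ) D T A B) {a1 a2 U0 : ℝ}
    (G : RgGap (rgU (𝒰 : Filter ℕ) D) a1 a2 U0) (t : ℝ) (ht : t ∈ Ioo a1 a2) :
    rgS (𝒰 : Filter ℕ) D t ∈ Icc a1 a2 := by
  have hl := rg_bdd_s_lim h G t ht
  obtain ⟨c1, C1, t1, Cth, -, -, -, -, hok⟩ := h.ok
  constructor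
  · refine le_of_forall_pos_le_add fun ε hε => ?_
    set ε' := min (ε / 2) ((t - a1) / 2) with hε'
    have h0 : 0 < ε' := lt_min (by positivity) (by linarith [ht.1])
    have h1 : ε' ≤ ε / 2 := min_le_left _ _
    have h2 : ε' ≤ (t - a1) / 2 := min_le_right _ _
    have : a1 - ε ≤ rgS (𝒰 : Filter ℕ) D t := by
      refine ge_of_tendsto hl ?_
      filter_upwards [hok, rg_ref_left h G ε' h0] with n ok hr
      obtain ⟨τ, hτ1, hτ2, hg, -⟩ := hr
      have hm := ok.s_mono (show τ ≤ t by linarith)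
      have := (abs_le.1 hg.2.2.2.1).1
      linarith
    linarith
  · refine le_of_forall_pos_le_add fun ε hε => ?_
    set ε' := min (ε / 2) ((a2 - t) / 2) with hε'
    have h0 : 0 < ε' := lt_min (by positivity) (by linarith [ht.2])
    have h1 : ε' ≤ ε / 2 := min_le_left _ _
    have h2 : ε' ≤ (a2 - t) / 2 := min_le_right _ _
    refine le_of_tendsto hl ?_
    filter_upwards [hok, rg_ref_right h G ε' h0] with n ok hr
    obtain ⟨σ, hσ1, hσ2, hg, -⟩ := hr
    have hm := ok.s_mono (show t ≤ σ by linarith)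
    have := (abs_le.1 hg.2.2.2.1).2
    linarith

/-- measurability of a band -/
theorem rg_bdd_band_meas {d : RgDat} (ha : Monotone d.a) (c C : ℝ) : MeasurableSet (d.band c C) := by
  have : d.band c C = Icc 0 C ∩ d.a ⁻¹' Icc c C := by
    ext t
    simp only [RgDat.band, mem_ofPred_eq, mem_inter_iff, mem_Icc, mem_preimage]
    tauto
  rw [this]
  exact measurableSet_Icc.inter (ha.measurable measurableSet_Icc)

theorem rg_bdd_g_cont {d : RgDat} {c1 C1 t1 Cth : ℝ} (ht1 : 0 < t1) (ok : d.Ok c1 C1 t1 Cth) :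
    ContinuousOn d.g (Icc 0 d.R) := by
  have hR : 0 ≤ d.R := ht1.le.trans ok.R_ge
  have hφ : IntegrableOn (fun τ => d.P τ - d.Bc τ * d.aK τ) (uIcc 0 d.R) := by
    rw [uIcc_of_le hR]
    refine (ok.P_cont.integrableOn_Icc).sub ?_
    exact ((ok.aK_mono.monotoneOn _).integrableOn_isCompact isCompact_Icc).continuousOn_mul
      ok.Bc_cont isCompact_Icc
  have hg1 : ContinuousOn d.g1 (Icc 0 d.R) := by
    have := intervalIntegral.continuousOn_primitive_interval hφ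
    rw [uIcc_of_le hR] at this
    exact (continuousOn_const.add this).congr fun t ht => ok.g1_eq t ht.1 ht.2
  have := intervalIntegral.continuousOn_primitive_interval (a := 0) (b := d.R) (f := d.g1)
    (μ := volume) (by rw [uIcc_of_le hR]; exact hg1.integrableOn_Icc)
  rw [uIcc_of_le hR] at this
  exact this.congr fun t ht => ok.g_eq t ht.1 ht.2

theorem rg_bdd_rho_meas {d : RgDat} {c1 C1 t1 Cth : ℝ} (ht1 : 0 < t1) (ok : d.Ok c1 C1 t1 Cth)
    (c C : ℝ) (hk : ∀ t ∈ d.band c C, d.k t ≤ d.R) :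
    AEStronglyMeasurable d.rho (volume.restrict (d.band c C)) := by
  have hR : 0 ≤ d.R := ht1.le.trans ok.R_ge
  have hgc := rg_bdd_g_cont ht1 ok
  set gt : ℝ → ℝ := IccExtend hR (fun u : Icc 0 d.R => d.g u) with hgt
  have hgtc : Continuous gt := (continuousOn_iff_continuous_domRestrict.1 hgc).Icc_extend'
  have hm : Measurable (fun t => d.e t * (d.s t - t) / d.T - gt (d.k t) - d.z t / d.T) := by
    have m1 := ok.e_meas
    have m2 := ok.s_mono.measurable
    have m3 := ok.k_mono.measurable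
    have m4 := ok.z_meas
    have m5 := hgtc.measurable
    fun_prop
  refine hm.aestronglyMeasurable.congr ?_
  filter_upwards [ae_restrict_mem (rg_bdd_band_meas ok.a_mono c C)] with t ht
  simp only [RgDat.rho, hgt]
  rw [IccExtend_of_mem _ _ ⟨ok.k_nn t, hk t ht⟩]

/-- the eventual bounds on a band, bounded strength -/
theorem rg_bdd_ev (h : RgHyp (𝒰 : Filter ℕ) D T A B) (c C : ℝ) (hc : 0 < c) (h1 : ℝ → ℝ) (hh1 : Continuous h1)
    (he : ∀ C : ℝ, TendstoUniformlyOn (fun n => (D n).e) h1 (𝒰 : Filter ℕ) (Icc 0 C)) :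
    ∃ M : ℝ, 1 ≤ M ∧ ∀ᶠ n in (𝒰 : Filter ℕ),
      (∃ c1 C1 t1 Cth : ℝ, 0 < t1 ∧ (D n).Ok c1 C1 t1 Cth) ∧ 0 < (D n).T⁻¹ ∧ (D n).T⁻¹ ≤ M ∧ M ≤ (D n).R ∧
      ∀ t ∈ (D n).band c C, t ≤ M ∧ (D n).s t ≤ M ∧ (D n).dl t ≤ M ∧ 0 < (D n).e t ∧ (D n).e t ≤ M ∧ |h1 t| ≤ M ∧
        (D n).k t ≤ M ∧ |(D n).rho t| ≤ M ∧ |(D n).z t| ≤ 1 ∧
        (D n).k t - (D n).s t = (D n).x ^ 2 * (((D n).e t * (t - (D n).s t) + (D n).z t) * (D n).T⁻¹) := by
  obtain ⟨c1, C1, t1, Cth, hc1, hC1, ht1, hCth, hok⟩ := h.ok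
  obtain ⟨Cr, hCr⟩ := h.raw c C hc
  obtain ⟨Cρ, hCρ⟩ := h.rho_bd c C hc
  obtain ⟨E, hE⟩ := isCompact_Icc.exists_bound_of_continuousOn (hh1.continuousOn (s := Icc 0 C))
  have hz := h.z_lim c C 1 hc one_pos
  have hec := Metric.tendstoUniformlyOn_iff.1 (he C) 1 one_pos
  have hTi : ∀ᶠ n in (𝒰 : Filter ℕ), (D n).T⁻¹ < T⁻¹ + 1 :=
    (h.T_lim.inv₀ h.T_pos.ne').eventually (gt_mem_nhds (by linarith))
  have hx : ∀ᶠ n in (𝒰 : Filter ℕ), |(D n).x| < 1 := by
    have := h.x_lim.abs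
    rw [abs_zero] at this
    exact this.eventually (gt_mem_nhds one_pos)
  have ha0 : ∀ᶠ n in (𝒰 : Filter ℕ), (D n).a 0 < c := h.a0_lim.eventually (gt_mem_nhds hc)
  have hTp : 0 < T⁻¹ := inv_pos.2 h.T_pos
  obtain ⟨M0, hM0⟩ : ∃ M0 : ℝ, M0 = 1 + |C| + |Cr| + (|E| + 1) + (T⁻¹ + 1) + |Cρ| := ⟨_, rfl⟩
  have hM01 : 1 ≤ M0 := by
    have := abs_nonneg C; have := abs_nonneg Cr; have := abs_nonneg E; have := abs_nonneg Cρ
    linarith
  obtain ⟨M, hM⟩ : ∃ M : ℝ, M = M0 + (M0 * M0 + 1) * M0 := ⟨_, rfl⟩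
  have hMM0 : M0 ≤ M := by
    have : 0 ≤ (M0 * M0 + 1) * M0 := by positivity
    linarith
  have hR : ∀ᶠ n in (𝒰 : Filter ℕ), M ≤ (D n).R := h.R_lim.eventually (eventually_ge_atTop _)
  refine ⟨M, hM01.trans hMM0, ?_⟩
  filter_upwards [hok, hCr, hCρ, hz, hec, hTi, hx, ha0, hR] with n ok hCr hCρ hz hec hTi hx ha0 hR
  have hri : 0 < (D n).T⁻¹ := inv_pos.2 ok.T_pos
  have hrM0 : (D n).T⁻¹ ≤ M0 := by
    have := abs_nonneg C; have := abs_nonneg Cr; have := abs_nonneg E; have := abs_nonneg Cρ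
    linarith
  refine ⟨⟨c1, C1, t1, Cth, ht1, ok⟩, hri, hrM0.trans hMM0, hR, ?_⟩
  intro t ht
  obtain ⟨ht0, htC, hta, hta2⟩ := ht
  have htb : t ∈ (D n).band c C := ⟨ht0, htC, hta, hta2⟩
  have b1 : t ≤ M0 := by
    have := le_abs_self C; have := abs_nonneg Cr; have := abs_nonneg E; have := abs_nonneg Cρ
    linarith
  have b2 : (D n).s t ≤ M0 := by
    have := (hCr t htb).1
    have := le_abs_self Cr; have := abs_nonneg C; have := abs_nonneg E; have := abs_nonneg Cρ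
    linarith
  have b3 : (D n).dl t ≤ M0 := by
    have := (hCr t htb).2
    have := le_abs_self Cr; have := abs_nonneg C; have := abs_nonneg E; have := abs_nonneg Cρ
    linarith
  have hh : |h1 t| ≤ E := hE t ⟨ht0, htC⟩
  have b5 : |h1 t| ≤ M0 := by
    have := le_abs_self E; have := abs_nonneg C; have := abs_nonneg Cr; have := abs_nonneg Cρ
    linarith
  have htR : t ≤ (D n).R := (b1.trans hMM0).trans hR
  have b4p : 0 < (D n).e t := ok.e_pos t ht0 htR
  have b4 : (D n).e t ≤ M0 := by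
    have h3 := hec t ⟨ht0, htC⟩
    rw [Real.dist_eq] at h3
    have h4 := (abs_lt.1 h3).1
    have := le_abs_self (h1 t)
    have := le_abs_self E; have := abs_nonneg C; have := abs_nonneg Cr; have := abs_nonneg Cρ
    linarith
  have b7 : |(D n).rho t| ≤ M0 := by
    have := hCρ t htb
    have := le_abs_self Cρ; have := abs_nonneg C; have := abs_nonneg Cr; have := abs_nonneg E
    linarith
  have b8 : |(D n).z t| ≤ 1 := hz t htb
  have hk : (D n).k t - (D n).s t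
      = (D n).x ^ 2 * (((D n).e t * (t - (D n).s t) + (D n).z t) * (D n).T⁻¹) := by
    rw [ok.k_eq t ht0 htR (lt_of_lt_of_le ha0 hta), div_eq_mul_inv, div_eq_mul_inv]
    ring
  have hs0 := ok.s_nn t
  have b6 : (D n).k t ≤ M := by
    have hx2 : (D n).x ^ 2 ≤ 1 := by
      rw [← sq_abs]
      exact pow_le_one₀ (abs_nonneg _) hx.le
    have hx20 : 0 ≤ (D n).x ^ 2 := sq_nonneg _
    have hts : |t - (D n).s t| ≤ M0 := by
      rw [abs_le]; constructor <;> linarith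
    have h5 : |(D n).e t * (t - (D n).s t) + (D n).z t| ≤ M0 * M0 + 1 := by
      refine (abs_add_le _ _).trans ?_
      rw [abs_mul, abs_of_pos b4p]
      have : (D n).e t * |t - (D n).s t| ≤ M0 * M0 :=
        mul_le_mul b4 hts (abs_nonneg _) (by linarith)
      linarith
    have h6 : |((D n).e t * (t - (D n).s t) + (D n).z t) * (D n).T⁻¹| ≤ (M0 * M0 + 1) * M0 := by
      rw [abs_mul, abs_of_pos hri]
      exact mul_le_mul h5 hrM0 hri.le (by positivity)
    have h7 : (D n).x ^ 2 * (((D n).e t * (t - (D n).s t) + (D n).z t) * (D n).T⁻¹) ≤ (M0 * M0 + 1) * M0 := by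
      have h8 := (le_abs_self _).trans h6
      have h9 : 0 ≤ (M0 * M0 + 1) * M0 := by positivity
      calc _ ≤ (D n).x ^ 2 * ((M0 * M0 + 1) * M0) := mul_le_mul_of_nonneg_left h8 hx20
        _ ≤ 1 * ((M0 * M0 + 1) * M0) := mul_le_mul_of_nonneg_right hx2 h9
        _ = _ := one_mul _
    linarith
  exact ⟨b1.trans hMM0, b2.trans hMM0, b3.trans hMM0, b4p, b4.trans hMM0, b5.trans hMM0, b6, b7.trans hMM0, b8, hk⟩


theorem rg_bdd_s_L1 (h : RgHyp (𝒰 : Filter ℕ) D T A B) {a1 a2 U0 : ℝ}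
    (G : RgGap (rgU (𝒰 : Filter ℕ) D) a1 a2 U0) (t' t'' : ℝ) (h1 : a1 < t') (h2 : t' ≤ t'') (h3 : t'' < a2) :
    MonotoneOn (rgS (𝒰 : Filter ℕ) D) (Icc t' t'') ∧
      Tendsto (fun n => ∫ t in t'..t'', |(D n).s t - rgS (𝒰 : Filter ℕ) D t|) (𝒰 : Filter ℕ) (𝓝 0) := by
  obtain ⟨c1, C1, t1, Cth, -, -, -, -, hok⟩ := h.ok
  have hm : ∀ᶠ n in (𝒰 : Filter ℕ), MonotoneOn (D n).s (Icc t' t'') :=
    hok.mono fun n ok => ok.s_mono.monotoneOn _
  have hlim : ∀ t ∈ Icc t' t'', Tendsto (fun n => (D n).s t) (𝒰 : Filter ℕ) (𝓝 (rgS (𝒰 : Filter ℕ) D t)) :=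
    fun t ht => rg_bdd_s_lim h G t ⟨lt_of_lt_of_le h1 ht.1, lt_of_le_of_lt ht.2 h3⟩
  exact ⟨rg_lim_mono _ _ _ _ hm hlim, rg_mono_L1 _ _ _ t' t'' h2 hm hlim⟩

theorem rg_bdd_G_lip (A B γ0 : ℝ) (U : ℝ → ℝ) (hU : Monotone U) (M : ℝ) :
    ∃ L : ℝ, 0 ≤ L ∧ ∀ u ∈ Icc 0 M, ∀ v ∈ Icc 0 M,
      |rgG A B γ0 U u - rgG A B γ0 U v| ≤ L * |u - v| := by
  obtain ⟨L0, hL0⟩ := isCompact_Icc.exists_bound_of_continuousOn
    ((rg_G1_cont A B γ0 U hU).continuousOn (s := Icc 0 M))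
  refine ⟨|L0|, abs_nonneg _, fun u hu v hv => ?_⟩
  have := Convex.norm_image_sub_le_of_norm_hasDerivWithin_le (f := rgG A B γ0 U)
    (f' := rgG1 A B γ0 U) (C := |L0|) (s := Icc 0 M)
    (fun x _ => (rg_G_deriv A B γ0 U hU x).hasDerivWithinAt)
    (fun x hx => (hL0 x hx).trans (le_abs_self _)) (convex_Icc _ _) hv hu
  simpa [Real.norm_eq_abs] using this

theorem rg_bdd_intOn {f : ℝ → ℝ} {s : Set ℝ} (hs : volume s ≠ ⊤)
    (hf : AEStronglyMeasurable f (volume.restrict s)) {M : ℝ}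
    (hb : ∀ᵐ a ∂(volume.restrict s), ‖f a‖ ≤ M) : IntegrableOn f s :=
  ⟨hf, .restrict_of_bounded (C := M) hs.lt_top hb⟩

theorem rg_bdd_comp_int {g S : ℝ → ℝ} (hg : Continuous g) {t' t'' : ℝ} (hle : t' ≤ t'')
    (hS : MonotoneOn S (Icc t' t'')) : IntervalIntegrable (fun t => g (S t)) volume t' t'' := by
  have hSi : IntervalIntegrable S volume t' t'' :=
    MonotoneOn.intervalIntegrable (by rwa [uIcc_of_le hle])
  obtain ⟨Cg, hCg⟩ := isCompact_Icc.exists_bound_of_continuousOn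
    (hg.continuousOn (s := Icc (S t') (S t'')))
  rw [intervalIntegrable_iff_integrableOn_Ioc_of_le hle]
  refine rg_bdd_intOn (M := Cg) (by simp)
    (hg.comp_aestronglyMeasurable hSi.1.aestronglyMeasurable) ?_
  filter_upwards [ae_restrict_mem measurableSet_Ioc] with t ht
  have htI : t ∈ Icc t' t'' := ⟨ht.1.le, ht.2⟩
  exact hCg _ ⟨hS (left_mem_Icc.2 hle) htI ht.1.le, hS htI (right_mem_Icc.2 hle) ht.2⟩

theorem rg_bdd_ae_zero {Φ : ℝ → ℝ} {a1 a2 : ℝ}
    (hint : ∀ t' t'', a1 < t' → t' ≤ t'' → t'' < a2 → IntervalIntegrable Φ volume t' t'')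
    (h0 : ∀ t' t'', a1 < t' → t' ≤ t'' → t'' < a2 → ∫ t in t'..t'', |Φ t| ≤ 0) :
    ∀ᵐ t, t ∈ Ioo a1 a2 → Φ t = 0 := by
  rcases le_or_gt a2 a1 with hle | hlt
  · exact Eventually.of_forall fun t ht => absurd (ht.1.trans ht.2) (not_lt.2 hle)
  have hd : 0 < a2 - a1 := by linarith
  have hk : ∀ k : ℕ, ∀ᵐ t, t ∈ Ioc (a1 + (a2 - a1) / ((k : ℝ) + 2)) (a2 - (a2 - a1) / ((k : ℝ) + 2)) → Φ t = 0 := by
    intro k
    have hk2 : (0 : ℝ) < (k : ℝ) + 2 := by positivity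
    have hq : 0 < (a2 - a1) / ((k : ℝ) + 2) := by positivity
    have hq2 : (a2 - a1) / ((k : ℝ) + 2) ≤ (a2 - a1) / 2 := by
      apply div_le_div_of_nonneg_left hd.le (by norm_num)
      have : (0 : ℝ) ≤ k := Nat.cast_nonneg k
      linarith
    have hle : a1 + (a2 - a1) / ((k : ℝ) + 2) ≤ a2 - (a2 - a1) / ((k : ℝ) + 2) := by linarith
    have hi := hint _ _ (by linarith) hle (by linarith)
    have hz := h0 _ _ (by linarith) hle (by linarith)
    rw [intervalIntegral.integral_of_le hle] at hz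
    have hz' : ∫ t in Ioc (a1 + (a2 - a1) / ((k : ℝ) + 2)) (a2 - (a2 - a1) / ((k : ℝ) + 2)), |Φ t| = 0 :=
      le_antisymm hz (integral_nonneg fun t => abs_nonneg _)
    rw [setIntegral_eq_zero_iff_of_nonneg_ae (Eventually.of_forall fun t => abs_nonneg _)
      ((intervalIntegrable_iff_integrableOn_Ioc_of_le hle).1 hi).abs] at hz'
    rw [Filter.EventuallyEq, ae_restrict_iff' measurableSet_Ioc] at hz'
    filter_upwards [hz'] with t ht htm
    exact abs_eq_zero.1 (ht htm)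
  rw [← ae_all_iff] at hk
  filter_upwards [hk] with t ht htI
  set δ := min (t - a1) (a2 - t) with hδ
  have hδ0 : 0 < δ := lt_min (by linarith [htI.1]) (by linarith [htI.2])
  obtain ⟨k, hkk⟩ := exists_nat_gt ((a2 - a1) / δ)
  have hk2 : (0 : ℝ) < (k : ℝ) + 2 := by positivity
  have hq : (a2 - a1) / ((k : ℝ) + 2) < δ := by
    rw [div_lt_iff₀ hk2]
    rw [div_lt_iff₀ hδ0] at hkk
    nlinarith
  have h1 : δ ≤ t - a1 := min_le_left _ _
  have h2 : δ ≤ a2 - t := min_le_right _ _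
  exact ht k ⟨by linarith, by linarith⟩


theorem rg_bdd_closure_pt {M L η r Ti h e s S t z x2 k gk Gk Gs GS rho : ℝ}
    (hM : 1 ≤ M) (hL : 0 ≤ L) (hη : 0 ≤ η) (hr0 : 0 < r) (hrM : r ≤ M) (hrT : |r - Ti| ≤ η) (hTi : |Ti| ≤ M)
    (ht0 : 0 ≤ t) (htM : t ≤ M) (hs0 : 0 ≤ s) (hsM : s ≤ M) (he0 : 0 < e) (heM : e ≤ M) (hhM : |h| ≤ M)
    (heh : |e - h| ≤ η) (hz : |z| ≤ η) (hz1 : |z| ≤ 1) (hx2 : 0 ≤ x2) (hx2η : x2 ≤ η)
    (hk : k - s = x2 * ((e * (t - s) + z) * r))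
    (hg : |gk - Gk| ≤ η) (hGks : |Gk - Gs| ≤ L * |k - s|) (hGsS : |Gs - GS| ≤ L * |s - S|)
    (hrho : rho = e * (s - t) * r - gk - z * r) :
    |GS - h * (S - t) * Ti| ≤ |rho| + (M * M + L) * |s - S|
      + (2 * (M * M) + 1 + L * ((M * M + 1) * M) + M) * η := by
  have hM0 : 0 ≤ M := by linarith
  have hts : |s - t| ≤ M := abs_le.2 ⟨by linarith, by linarith⟩
  have hts' : |t - s| ≤ M := abs_le.2 ⟨by linarith, by linarith⟩
  have B1 : |h * Ti * (S - s)| ≤ M * M * |s - S| := by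
    rw [abs_mul, abs_mul, abs_sub_comm S s]
    exact mul_le_mul_of_nonneg_right (mul_le_mul hhM hTi (abs_nonneg _) hM0) (abs_nonneg _)
  have B2a : |h * (Ti - r) + (h - e) * r| ≤ 2 * M * η := by
    have h1 : |h * (Ti - r)| ≤ M * η := by
      rw [abs_mul, abs_sub_comm Ti r]; exact mul_le_mul hhM hrT (abs_nonneg _) hM0
    have h2 : |(h - e) * r| ≤ η * M := by
      rw [abs_mul, abs_sub_comm h e, abs_of_pos hr0]; exact mul_le_mul heh hrM hr0.le hη
    have := abs_add_le (h * (Ti - r)) ((h - e) * r)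
    linarith
  have B2 : |(s - t) * (h * (Ti - r) + (h - e) * r)| ≤ M * (2 * M * η) := by
    rw [abs_mul]; exact mul_le_mul hts B2a (abs_nonneg _) hM0
  have B4a : |k - s| ≤ η * ((M * M + 1) * M) := by
    rw [hk, abs_mul, abs_of_nonneg hx2, abs_mul, abs_of_pos hr0]
    have h3 : |e * (t - s) + z| ≤ M * M + 1 := by
      have h4 : |e * (t - s)| ≤ M * M := by
        rw [abs_mul, abs_of_pos he0]; exact mul_le_mul heM hts' (abs_nonneg _) hM0
      have := abs_add_le (e * (t - s)) z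
      linarith
    exact mul_le_mul hx2η (mul_le_mul h3 hrM hr0.le (by positivity)) (by positivity) hη
  have B4 : |Gk - Gs| ≤ L * (η * ((M * M + 1) * M)) := hGks.trans (mul_le_mul_of_nonneg_left B4a hL)
  have B6 : |z * r| ≤ η * M := by
    rw [abs_mul, abs_of_pos hr0]; exact mul_le_mul hz hrM hr0.le hη
  have e0 : GS - h * (S - t) * Ti = -(rho + h * Ti * (S - s) + (s - t) * (h * (Ti - r) + (h - e) * r)
      + (gk - Gk) + (Gk - Gs) + (Gs - GS) + z * r) := by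
    rw [hrho]; ring
  rw [e0, abs_neg]
  have a1 := abs_add_le rho (h * Ti * (S - s))
  have a2 := abs_add_le (rho + h * Ti * (S - s)) ((s - t) * (h * (Ti - r) + (h - e) * r))
  have a3 := abs_add_le (rho + h * Ti * (S - s) + (s - t) * (h * (Ti - r) + (h - e) * r)) (gk - Gk)
  have a4 := abs_add_le (rho + h * Ti * (S - s) + (s - t) * (h * (Ti - r) + (h - e) * r) + (gk - Gk)) (Gk - Gs)
  have a5 := abs_add_le (rho + h * Ti * (S - s) + (s - t) * (h * (Ti - r) + (h - e) * r) + (gk - Gk)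
    + (Gk - Gs)) (Gs - GS)
  have a6 := abs_add_le (rho + h * Ti * (S - s) + (s - t) * (h * (Ti - r) + (h - e) * r) + (gk - Gk)
    + (Gk - Gs) + (Gs - GS)) (z * r)
  linarith


/-- from `I ≤ K η` for all small `η` to `I ≤ 0` -/
theorem rg_bdd_le_zero {I K : ℝ} (hK : 0 ≤ K) (h : ∀ η : ℝ, 0 < η → I ≤ K * η) : I ≤ 0 := by
  refine le_of_forall_pos_le_add fun ε hε => ?_
  have h1 := h (ε / (K + 1)) (by positivity)
  have h2 : K * (ε / (K + 1)) ≤ ε := by
    rw [mul_div_assoc', div_le_iff₀ (by positivity)]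
    nlinarith
  linarith

theorem rg_bdd_band_fin (d : RgDat) (c C : ℝ) : volume (d.band c C) ≠ ⊤ := by
  have hsub : d.band c C ⊆ Icc 0 C := fun t ht => ⟨ht.1, ht.2.1⟩
  exact (lt_of_le_of_lt (measure_mono hsub) measure_Icc_lt_top).ne

theorem rg_bdd_closure (h : RgHyp (𝒰 : Filter ℕ) D T A B) {a1 a2 U0 : ℝ}
    (G : RgGap (rgU (𝒰 : Filter ℕ) D) a1 a2 U0) (h1 : ℝ → ℝ) (hh1 : Continuous h1)
    (he : ∀ C : ℝ, TendstoUniformlyOn (fun n => (D n).e) h1 (𝒰 : Filter ℕ) (Icc 0 C)) :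
    ∀ᵐ t, t ∈ Ioo a1 a2 → rgG A B (rgG0 (𝒰 : Filter ℕ) D) (rgU (𝒰 : Filter ℕ) D) (rgS (𝒰 : Filter ℕ) D t)
      = h1 t * (rgS (𝒰 : Filter ℕ) D t - t) / T := by
  have hUm := rg_U_mono h
  obtain ⟨Gf, hGf⟩ : ∃ Gf : ℝ → ℝ, Gf = rgG A B (rgG0 (𝒰 : Filter ℕ) D) (rgU (𝒰 : Filter ℕ) D) := ⟨_, rfl⟩
  obtain ⟨S, hS⟩ : ∃ S : ℝ → ℝ, S = rgS (𝒰 : Filter ℕ) D := ⟨_, rfl⟩
  rw [← hGf, ← hS]
  have hGc : Continuous Gf := by
    rw [hGf]
    exact continuous_iff_continuousAt.2 fun t => (rg_G_deriv A B _ _ hUm t).continuousAt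
  have hΦi : ∀ t' t'', a1 < t' → t' ≤ t'' → t'' < a2 →
      IntervalIntegrable (fun t => Gf (S t) - h1 t * (S t - t) / T) volume t' t'' := by
    intro t' t'' h1' h2' h3'
    obtain ⟨hSm, -⟩ := rg_bdd_s_L1 h G t' t'' h1' h2' h3'
    rw [← hS] at hSm
    have hSi : IntervalIntegrable S volume t' t'' :=
      MonotoneOn.intervalIntegrable (by rwa [uIcc_of_le h2'])
    refine (rg_bdd_comp_int hGc h2' hSm).sub ?_
    have h4 : IntervalIntegrable (fun t => S t - t) volume t' t'' :=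
      hSi.sub (continuous_id.intervalIntegrable _ _)
    exact (h4.continuousOn_mul hh1.continuousOn).div_const T
  have hmain : ∀ᵐ t, t ∈ Ioo a1 a2 → (fun t => Gf (S t) - h1 t * (S t - t) / T) t = 0 := by
    refine rg_bdd_ae_zero hΦi ?_
    intro t' t'' h1' h2' h3'
    obtain ⟨hSm, hSL⟩ := rg_bdd_s_L1 h G t' t'' h1' h2' h3'
    rw [← hS] at hSm hSL
    have hSi : IntervalIntegrable S volume t' t'' :=
      MonotoneOn.intervalIntegrable (by rwa [uIcc_of_le h2'])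
    have hc : 0 < U0 / 2 := half_pos G.pos
    obtain ⟨C, hC⟩ : ∃ C : ℝ, C = rgGC (rgU (𝒰 : Filter ℕ) D) a2 := ⟨_, rfl⟩
    obtain ⟨M0, hM01, hev⟩ := rg_bdd_ev h (U0 / 2) C hc h1 hh1 he
    have hTp : 0 < T⁻¹ := inv_pos.2 h.T_pos
    obtain ⟨M, hM⟩ : ∃ M : ℝ, M = M0 + |a2| + T⁻¹ := ⟨_, rfl⟩
    have hMM0 : M0 ≤ M := by have := abs_nonneg a2; linarith
    have hMa2 : a2 ≤ M := by have := le_abs_self a2; linarith
    have hMT : |T⁻¹| ≤ M := by rw [abs_of_pos hTp]; have := abs_nonneg a2; linarith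
    obtain ⟨L, hL0, hL⟩ := rg_bdd_G_lip A B (rgG0 (𝒰 : Filter ℕ) D) (rgU (𝒰 : Filter ℕ) D) hUm M
    rw [← hGf] at hL
    obtain ⟨K, hK⟩ : ∃ K : ℝ, K = 2 * (M * M) + 1 + L * ((M * M + 1) * M) + M := ⟨_, rfl⟩
    have hM1 : 1 ≤ M := hM01.trans hMM0
    have hK0 : 0 ≤ K := by rw [hK]; positivity
    have hK' : 0 ≤ K * (t'' - t') := mul_nonneg hK0 (by linarith)
    refine rg_bdd_le_zero hK' fun η hη => ?_
    have hlimit : Tendsto (fun n => (∫ t in (D n).band (U0 / 2) C, |(D n).rho t|)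
        + (M * M + L) * (∫ t in t'..t'', |(D n).s t - S t|) + K * (t'' - t') * η) (𝒰 : Filter ℕ)
        (𝓝 (0 + (M * M + L) * 0 + K * (t'' - t') * η)) :=
      ((h.rho_rad (U0 / 2) C hc).add (hSL.const_mul _)).add_const _
    rw [mul_zero, add_zero, zero_add] at hlimit
    refine ge_of_tendsto hlimit ?_
    have hx : ∀ᶠ n in (𝒰 : Filter ℕ), (D n).x ^ 2 < η := by
      have := h.x_lim.pow 2
      rw [zero_pow two_ne_zero] at this
      exact this.eventually (gt_mem_nhds hη)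
    have hT := Metric.tendsto_nhds.1 (h.T_lim.inv₀ h.T_pos.ne') η hη
    have hz := h.z_lim (U0 / 2) C η hc hη
    have hee := Metric.tendstoUniformlyOn_iff.1 (he M) η hη
    have hgg := Metric.tendstoUniformlyOn_iff.1 (rg_g_lim h M) η hη
    rw [← hGf] at hgg
    have hband := rg_gap_band h G t' t'' h1' h2' h3'
    rw [← hC] at hband
    filter_upwards [hev, hx, hT, hz, hee, hgg, hband] with n hev hx hT hz hee hgg hband
    obtain ⟨⟨c1, C1, t1, Cth, ht1, ok⟩, hr0, hrM, hMR, hev⟩ := hev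
    have hpt : ∀ t ∈ Icc t' t'', |Gf (S t) - h1 t * (S t - t) / T| ≤ |(D n).rho t|
        + (M * M + L) * |(D n).s t - S t| + K * η := by
      intro t ht
      have htb := hband ht
      obtain ⟨b1, b2, b3, b4p, b4, b5, b6, b7, b8, hk⟩ := hev t htb
      have htI : t ∈ Ioo a1 a2 := ⟨lt_of_lt_of_le h1' ht.1, lt_of_le_of_lt ht.2 h3'⟩
      have hSt := rg_bdd_s_mem h G t htI
      rw [← hS] at hSt
      have ha10 : 0 ≤ a1 := G.m1.1
      have hs0 := ok.s_nn t
      have hk0 := ok.k_nn t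
      have ht0 : 0 ≤ t := htb.1
      rw [hK, div_eq_mul_inv]
      refine rg_bdd_closure_pt (r := (D n).T⁻¹) (e := (D n).e t) (z := (D n).z t) (x2 := (D n).x ^ 2)
        (k := (D n).k t) (gk := (D n).g ((D n).k t)) (Gk := Gf ((D n).k t)) (Gs := Gf ((D n).s t))
        hM1 hL0 hη.le hr0 (hrM.trans hMM0) ?_ hMT ht0 (b1.trans hMM0) hs0 (b2.trans hMM0) b4p
        (b4.trans hMM0) (b5.trans hMM0) ?_ (hz t htb) b8 (sq_nonneg _) hx.le hk ?_ ?_ ?_ ?_
      · rw [← Real.dist_eq]; exact hT.le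
      · have := hee t ⟨ht0, b1.trans hMM0⟩
        rw [Real.dist_eq, abs_sub_comm] at this
        exact this.le
      · have := hgg ((D n).k t) ⟨hk0, b6.trans hMM0⟩
        rw [Real.dist_eq, abs_sub_comm] at this
        exact this.le
      · exact hL _ ⟨hk0, b6.trans hMM0⟩ _ ⟨hs0, b2.trans hMM0⟩
      · exact hL _ ⟨hs0, b2.trans hMM0⟩ _ ⟨ha10.trans hSt.1, hSt.2.trans hMa2⟩
      · simp only [RgDat.rho, div_eq_mul_inv]
    have hbm := rg_bdd_band_meas ok.a_mono (U0 / 2) C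
    have hρi : IntegrableOn (fun t => |(D n).rho t|) ((D n).band (U0 / 2) C) := by
      refine (rg_bdd_intOn (M := M0) (rg_bdd_band_fin _ _ _)
        (rg_bdd_rho_meas ht1 ok _ _ fun t ht => ((hev t ht).2.2.2.2.2.2.1).trans hMR) ?_).abs
      filter_upwards [ae_restrict_mem hbm] with t ht
      exact (hev t ht).2.2.2.2.2.2.2.1
    have hsub : Ioc t' t'' ⊆ (D n).band (U0 / 2) C := fun t ht => hband ⟨ht.1.le, ht.2⟩
    have hρI : IntervalIntegrable (fun t => |(D n).rho t|) volume t' t'' := by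
      rw [intervalIntegrable_iff_integrableOn_Ioc_of_le h2']
      exact hρi.mono_set hsub
    have hsI : IntervalIntegrable (fun t => |(D n).s t - S t|) volume t' t'' :=
      ((ok.s_mono.monotoneOn _).intervalIntegrable.sub hSi).abs
    calc ∫ t in t'..t'', |Gf (S t) - h1 t * (S t - t) / T|
        ≤ ∫ t in t'..t'', (|(D n).rho t| + (M * M + L) * |(D n).s t - S t| + K * η) :=
          intervalIntegral.integral_mono_on h2' (hΦi t' t'' h1' h2' h3').abs
            ((hρI.add (hsI.const_mul _)).add intervalIntegrable_const) hpt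
      _ = (∫ t in t'..t'', |(D n).rho t|) + (M * M + L) * (∫ t in t'..t'', |(D n).s t - S t|)
          + K * (t'' - t') * η := by
          rw [intervalIntegral.integral_add (hρI.add (hsI.const_mul _)) intervalIntegrable_const,
            intervalIntegral.integral_add hρI (hsI.const_mul _), intervalIntegral.integral_const_mul,
            intervalIntegral.integral_const, smul_eq_mul]
          ring
      _ ≤ _ := by
          have : ∫ t in t'..t'', |(D n).rho t| ≤ ∫ t in (D n).band (U0 / 2) C, |(D n).rho t| := by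
            rw [intervalIntegral.integral_of_le h2']
            exact setIntegral_mono_set hρi (Eventually.of_forall fun t => abs_nonneg _)
              hsub.eventuallyLE
          linarith
  filter_upwards [hmain] with t ht htI
  exact sub_eq_zero.1 (ht htI)

/-- pointwise comparison of the stationarity quantity with its limit -/
theorem rg_bdd_gam_pt {e p σ δ eb pb sb t t' t'' η Ch Cs a2 : ℝ} (ht' : 0 < t') (h1 : t' ≤ t)
    (h2 : t ≤ t'') (he : |e - eb| ≤ η) (hp : |p - pb| ≤ η) (hη1 : η ≤ 1) (hp0 : 0 ≤ p) (hp1 : p ≤ 1)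
    (hq0 : 0 ≤ pb) (hq1 : pb ≤ 1) (hs0 : 0 ≤ σ) (hs1 : σ ≤ Cs) (hr0 : 0 ≤ sb) (hr1 : sb ≤ a2)
    (heb : |eb| ≤ Ch) :
    |e * ((2 - p) * t - 2 * (1 - p) * σ - p * (σ ^ 2 + δ ^ 2) / t)
        - eb * ((2 - pb) * t - 2 * (1 - pb) * sb - pb * sb ^ 2 / t)|
      ≤ η * (2 * t'' + 2 * Cs + Cs ^ 2 / t') + Ch * (η * (t'' + 2 * Cs + Cs ^ 2 / t'))
        + Ch * (2 + (Cs + a2) / t') * |σ - sb| + (Ch + 1) / t' * δ ^ 2 := by
  have ht : 0 < t := lt_of_lt_of_le ht' h1
  have hη0 : 0 ≤ η := (abs_nonneg _).trans he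
  have hCh0 : 0 ≤ Ch := (abs_nonneg _).trans heb
  have hCs0 : 0 ≤ Cs := hs0.trans hs1
  have hsq : σ ^ 2 / t ≤ Cs ^ 2 / t' :=
    div_le_div₀ (by positivity) (pow_le_pow_left₀ hs0 hs1 2) ht' h1
  have hsq0 : 0 ≤ σ ^ 2 / t := by positivity
  have hid : e * ((2 - p) * t - 2 * (1 - p) * σ - p * (σ ^ 2 + δ ^ 2) / t)
        - eb * ((2 - pb) * t - 2 * (1 - pb) * sb - pb * sb ^ 2 / t)
      = (e - eb) * ((2 - p) * t - 2 * (1 - p) * σ - p * (σ ^ 2 / t))
        + eb * ((pb - p) * (t - 2 * σ + σ ^ 2 / t))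
        + eb * ((sb - σ) * (2 * (1 - pb) + pb * ((σ + sb) / t)))
        + -(e * p * (δ ^ 2 / t)) := by
    field_simp
    ring
  rw [hid]
  have b1 : |(e - eb) * ((2 - p) * t - 2 * (1 - p) * σ - p * (σ ^ 2 / t))|
      ≤ η * (2 * t'' + 2 * Cs + Cs ^ 2 / t') := by
    rw [abs_mul]
    refine mul_le_mul he ?_ (abs_nonneg _) hη0
    have q1 : 0 ≤ (2 - p) * t := mul_nonneg (by linarith) ht.le
    have q2 : (2 - p) * t ≤ 2 * t'' := by nlinarith
    have q3 : 0 ≤ 2 * (1 - p) * σ := mul_nonneg (by linarith) hs0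
    have q4 : 2 * (1 - p) * σ ≤ 2 * Cs := by nlinarith
    have q5 : 0 ≤ p * (σ ^ 2 / t) := mul_nonneg hp0 hsq0
    have q6 : p * (σ ^ 2 / t) ≤ Cs ^ 2 / t' := by nlinarith
    exact abs_le.mpr ⟨by linarith, by linarith⟩
  have b2 : |eb * ((pb - p) * (t - 2 * σ + σ ^ 2 / t))|
      ≤ Ch * (η * (t'' + 2 * Cs + Cs ^ 2 / t')) := by
    rw [abs_mul, abs_mul]
    refine mul_le_mul heb ?_ (by positivity) hCh0
    refine mul_le_mul (by rwa [abs_sub_comm]) ?_ (abs_nonneg _) hη0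
    exact abs_le.mpr ⟨by linarith, by linarith⟩
  have b3 : |eb * ((sb - σ) * (2 * (1 - pb) + pb * ((σ + sb) / t)))|
      ≤ Ch * (2 + (Cs + a2) / t') * |σ - sb| := by
    rw [abs_mul, abs_mul, abs_sub_comm sb σ]
    have q0 : 0 ≤ (σ + sb) / t := by positivity
    have q1 : (σ + sb) / t ≤ (Cs + a2) / t' :=
      div_le_div₀ (by linarith) (by linarith) ht' h1
    have q2 : |2 * (1 - pb) + pb * ((σ + sb) / t)| ≤ 2 + (Cs + a2) / t' := by
      have r1 : 0 ≤ pb * ((σ + sb) / t) := mul_nonneg hq0 q0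
      have r2 : pb * ((σ + sb) / t) ≤ (Cs + a2) / t' := by nlinarith
      exact abs_le.mpr ⟨by linarith, by linarith⟩
    have q3 : 0 ≤ 2 + (Cs + a2) / t' := (abs_nonneg _).trans q2
    calc |eb| * (|σ - sb| * |2 * (1 - pb) + pb * ((σ + sb) / t)|)
        ≤ Ch * (|σ - sb| * (2 + (Cs + a2) / t')) :=
          mul_le_mul heb (mul_le_mul_of_nonneg_left q2 (abs_nonneg _)) (by positivity) hCh0
      _ = Ch * (2 + (Cs + a2) / t') * |σ - sb| := by ring
  have b4 : |-(e * p * (δ ^ 2 / t))| ≤ (Ch + 1) / t' * δ ^ 2 := by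
    rw [abs_neg, abs_mul, abs_mul]
    have q1 : |e| ≤ Ch + 1 := by
      have : |e| ≤ |e - eb| + |eb| := by
        have := abs_add_le (e - eb) eb
        simpa using this
      linarith
    have q2 : |p| ≤ 1 := by rw [abs_of_nonneg hp0]; exact hp1
    have q3 : |δ ^ 2 / t| ≤ δ ^ 2 / t' := by
      rw [abs_of_nonneg (by positivity)]
      exact div_le_div_of_nonneg_left (by positivity) ht' h1
    calc |e| * |p| * |δ ^ 2 / t| ≤ (Ch + 1) * 1 * (δ ^ 2 / t') :=
          mul_le_mul (mul_le_mul q1 q2 (abs_nonneg _) (by linarith)) q3 (abs_nonneg _)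
            (by nlinarith)
      _ = (Ch + 1) / t' * δ ^ 2 := by ring
  calc _ ≤ |(e - eb) * ((2 - p) * t - 2 * (1 - p) * σ - p * (σ ^ 2 / t))
        + eb * ((pb - p) * (t - 2 * σ + σ ^ 2 / t))
        + eb * ((sb - σ) * (2 * (1 - pb) + pb * ((σ + sb) / t)))| + |-(e * p * (δ ^ 2 / t))| :=
        abs_add_le _ _
    _ ≤ |(e - eb) * ((2 - p) * t - 2 * (1 - p) * σ - p * (σ ^ 2 / t))
        + eb * ((pb - p) * (t - 2 * σ + σ ^ 2 / t))|
        + |eb * ((sb - σ) * (2 * (1 - pb) + pb * ((σ + sb) / t)))| + |-(e * p * (δ ^ 2 / t))| := by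
        gcongr; exact abs_add_le _ _
    _ ≤ |(e - eb) * ((2 - p) * t - 2 * (1 - p) * σ - p * (σ ^ 2 / t))|
        + |eb * ((pb - p) * (t - 2 * σ + σ ^ 2 / t))|
        + |eb * ((sb - σ) * (2 * (1 - pb) + pb * ((σ + sb) / t)))| + |-(e * p * (δ ^ 2 / t))| := by
        gcongr; exact abs_add_le _ _
    _ ≤ _ := by linarith

theorem rg_bdd_gam (h : RgHyp (𝒰 : Filter ℕ) D T A B) {a1 a2 U0 : ℝ}
    (G : RgGap (rgU (𝒰 : Filter ℕ) D) a1 a2 U0) (h1 pin : ℝ → ℝ) (hh1 : Continuous h1) (hpin : Continuous pin)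
    (he : ∀ C : ℝ, TendstoUniformlyOn (fun n => (D n).e) h1 (𝒰 : Filter ℕ) (Icc 0 C))
    (hp : ∀ C : ℝ, TendstoUniformlyOn (fun n => (D n).p) pin (𝒰 : Filter ℕ) (Icc 0 C))
    (t' t'' : ℝ) (ht1 : a1 < t') (ht2 : t' ≤ t'') (ht3 : t'' < a2) :
    Tendsto (fun n => ∫ t in t'..t'', |(D n).gam t - rgF h1 pin (rgS (𝒰 : Filter ℕ) D) t|) (𝒰 : Filter ℕ) (𝓝 0) := by
  obtain ⟨c1, C1, t1, Cth, hc1, hC1, htt1, hCth, hok⟩ := h.ok
  have ha1 : 0 ≤ a1 := G.m1.1
  have ht'0 : 0 < t' := lt_of_le_of_lt ha1 ht1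
  set s := rgS (𝒰 : Filter ℕ) D with hs
  set GC := rgGC (rgU (𝒰 : Filter ℕ) D) a2 with hGC
  have hU0 : 0 < U0 / 2 := by have := G.pos; positivity
  have hIsub : ∀ t ∈ Icc t' t'', t ∈ Ioo a1 a2 := fun t ht =>
    ⟨lt_of_lt_of_le ht1 ht.1, lt_of_le_of_lt ht.2 ht3⟩
  have hsmem : ∀ t ∈ Ioo a1 a2, s t ∈ Icc a1 a2 := fun t ht => rg_bdd_s_mem h G t ht
  have hsmono : MonotoneOn s (Ioo a1 a2) := fun x hx y hy hxy =>
    le_of_tendsto_of_tendsto (rg_bdd_s_lim h G x hx) (rg_bdd_s_lim h G y hy)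
      (hok.mono fun n hn => hn.s_mono hxy)
  have hpin01 : ∀ t, 0 ≤ t → 0 ≤ pin t ∧ pin t ≤ 1 := by
    intro t ht
    have hl : Tendsto (fun n => (D n).p t) (𝒰 : Filter ℕ) (𝓝 (pin t)) :=
      (hp t).tendsto_at ⟨ht, le_rfl⟩
    exact ⟨ge_of_tendsto hl (hok.mono fun n hn => hn.p_nn t),
      le_of_tendsto hl (hok.mono fun n hn => hn.p_le t)⟩
  obtain ⟨C', hraw⟩ := h.raw (U0 / 2) GC hU0
  set Cs := max C' 0 with hCs
  obtain ⟨Ch, hCh⟩ := isCompact_Icc.exists_bound_of_continuousOn (hh1.continuousOn (s := Icc t' t''))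
  have hCh0 : 0 ≤ Ch := (norm_nonneg _).trans (hCh t' ⟨le_rfl, ht2⟩)
  have hCs0 : 0 ≤ Cs := le_max_right _ _
  have ha20 : 0 ≤ a2 := ha1.trans G.lt.le
  set MQ := 2 * t'' + 2 * Cs + Cs ^ 2 / t' with hMQ
  set M2 := t'' + 2 * Cs + Cs ^ 2 / t' with hM2
  set M3 := 2 + (Cs + a2) / t' with hM3
  have ht''0 : 0 ≤ t'' := ht'0.le.trans ht2
  have hMQ0 : 0 ≤ MQ := by positivity
  have hM20 : 0 ≤ M2 := by positivity
  have hM30 : 0 ≤ M3 := by positivity
  set K := (MQ + Ch * M2) * (t'' - t') + Ch * M3 + (Ch + 1) / t' + 1 with hK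
  have hK0 : 0 < K := by
    have : 0 ≤ t'' - t' := by linarith
    positivity
  rw [tendsto_order]
  constructor
  · intro c hc
    exact Eventually.of_forall fun n => hc.trans_le
      (intervalIntegral.integral_nonneg ht2 fun t _ => abs_nonneg _)
  · intro ε hε
    set η := min 1 (ε / (2 * K)) with hη
    have hη0 : 0 < η := lt_min one_pos (by positivity)
    have hη1 : η ≤ 1 := min_le_left _ _
    have hηK : η * K ≤ ε / 2 := by
      have : η ≤ ε / (2 * K) := min_le_right _ _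
      calc η * K ≤ ε / (2 * K) * K := mul_le_mul_of_nonneg_right this hK0.le
        _ = ε / 2 := by field_simp
    have e1 := Metric.tendstoUniformlyOn_iff.mp (he t'') η hη0
    have e2 := Metric.tendstoUniformlyOn_iff.mp (hp t'') η hη0
    have e3 : ∀ᶠ n in (𝒰 : Filter ℕ), ∫ t in t'..t'', |(D n).s t - s t| < η :=
      (rg_mono_L1 (𝒰 : Filter ℕ) (fun n => (D n).s) s t' t'' ht2
        (hok.mono fun n hn => hn.s_mono.monotoneOn _)
        (fun t ht => rg_bdd_s_lim h G t (hIsub t ht))).eventually (gt_mem_nhds hη0)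
    have e4 : ∀ᶠ n in (𝒰 : Filter ℕ), ∫ t in (D n).band (U0 / 2) GC, (D n).dl t ^ 2 < η :=
      (h.dl_rad (U0 / 2) GC hU0).eventually (gt_mem_nhds hη0)
    filter_upwards [hok, rg_gap_band h G t' t'' ht1 ht2 ht3, hraw, e1, e2, e3, e4] with
      n ok hband hrw he' hp' hs' hd'
    -- integrability of the pieces of the majorant
    have hbm : MeasurableSet ((D n).band (U0 / 2) GC) := rg_bdd_band_meas ok.a_mono _ _
    have hbfin : volume ((D n).band (U0 / 2) GC) ≠ ⊤ := by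
      have : (D n).band (U0 / 2) GC ⊆ Icc 0 GC := fun t ht => ⟨ht.1, ht.2.1⟩
      exact ((measure_mono this).trans_lt (by simp)).ne
    have hdlint : IntegrableOn (fun t => (D n).dl t ^ 2) ((D n).band (U0 / 2) GC) := by
      refine Measure.integrableOn_of_bounded (M := Cs ^ 2) hbfin
        (ok.dl_meas.pow_const 2).aestronglyMeasurable ?_
      filter_upwards [ae_restrict_mem hbm] with t ht
      rw [Real.norm_eq_abs, abs_of_nonneg (by positivity)]
      exact pow_le_pow_left₀ (ok.dl_nn t) ((hrw t ht).2.trans (le_max_left _ _)) 2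
    have hIocsub : Ioc t' t'' ⊆ (D n).band (U0 / 2) GC := fun t ht => hband ⟨ht.1.le, ht.2⟩
    have i3 : IntervalIntegrable (fun t => (D n).dl t ^ 2) volume t' t'' :=
      (intervalIntegrable_iff_integrableOn_Ioc_of_le ht2).mpr (hdlint.mono_set hIocsub)
    have i2 : IntervalIntegrable (fun t => |(D n).s t - s t|) volume t' t'' := by
      have j1 : IntervalIntegrable (D n).s volume t' t'' := ok.s_mono.intervalIntegrable
      have j2 : IntervalIntegrable s volume t' t'' :=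
        (hsmono.mono (by rw [uIcc_of_le ht2]; exact hIsub)).intervalIntegrable
      exact (j1.sub j2).abs
    have i23 : IntervalIntegrable (fun t => (η * MQ + Ch * (η * M2)) + Ch * M3 * |(D n).s t - s t|
        + (Ch + 1) / t' * (D n).dl t ^ 2) volume t' t'' :=
      ((intervalIntegrable_const).add (i2.const_mul _)).add (i3.const_mul _)
    have step1 : ∫ t in t'..t'', |(D n).gam t - rgF h1 pin s t|
        ≤ ∫ t in t'..t'', ((η * MQ + Ch * (η * M2)) + Ch * M3 * |(D n).s t - s t|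
          + (Ch + 1) / t' * (D n).dl t ^ 2) := by
      rw [intervalIntegral.integral_of_le ht2, intervalIntegral.integral_of_le ht2]
      refine integral_mono_of_nonneg (Eventually.of_forall fun t => abs_nonneg _)
        ((intervalIntegrable_iff_integrableOn_Ioc_of_le ht2).mp i23) ?_
      filter_upwards [ae_restrict_mem measurableSet_Ioc] with t ht
      have htI : t ∈ Icc t' t'' := ⟨ht.1.le, ht.2⟩
      have ht0 : t ∈ Icc 0 t'' := ⟨ht'0.le.trans htI.1, htI.2⟩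
      have q1 := he' t ht0
      have q2 := hp' t ht0
      rw [Real.dist_eq, abs_sub_comm] at q1 q2
      have q3 := hsmem t (hIsub t htI)
      have q4 := hpin01 t ht0.1
      have q5 := hCh t htI
      rw [Real.norm_eq_abs] at q5
      exact rg_bdd_gam_pt ht'0 htI.1 htI.2 q1.le q2.le hη1 (ok.p_nn t) (ok.p_le t) q4.1 q4.2
        (ok.s_nn t) ((hrw t (hband htI)).1.trans (le_max_left _ _)) (ha1.trans q3.1) q3.2 q5
    have step2 : ∫ t in t'..t'', ((η * MQ + Ch * (η * M2)) + Ch * M3 * |(D n).s t - s t|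
          + (Ch + 1) / t' * (D n).dl t ^ 2)
        = (η * MQ + Ch * (η * M2)) * (t'' - t') + Ch * M3 * (∫ t in t'..t'', |(D n).s t - s t|)
          + (Ch + 1) / t' * ∫ t in t'..t'', (D n).dl t ^ 2 := by
      rw [intervalIntegral.integral_add ((intervalIntegrable_const).add (i2.const_mul _))
        (i3.const_mul _), intervalIntegral.integral_add intervalIntegrable_const (i2.const_mul _),
        intervalIntegral.integral_const, intervalIntegral.integral_const_mul,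
        intervalIntegral.integral_const_mul, smul_eq_mul]
      ring
    have step3 : ∫ t in t'..t'', (D n).dl t ^ 2 ≤ ∫ t in (D n).band (U0 / 2) GC, (D n).dl t ^ 2 := by
      rw [intervalIntegral.integral_of_le ht2]
      exact setIntegral_mono_set hdlint (Eventually.of_forall fun t => by positivity)
        (HasSubset.Subset.eventuallyLE hIocsub)
    have hfin : (η * MQ + Ch * (η * M2)) * (t'' - t') + Ch * M3 * (∫ t in t'..t'', |(D n).s t - s t|)
          + (Ch + 1) / t' * ∫ t in t'..t'', (D n).dl t ^ 2 ≤ η * K := by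
      have r1 : Ch * M3 * (∫ t in t'..t'', |(D n).s t - s t|) ≤ Ch * M3 * η :=
        mul_le_mul_of_nonneg_left hs'.le (by positivity)
      have r2 : (Ch + 1) / t' * ∫ t in t'..t'', (D n).dl t ^ 2 ≤ (Ch + 1) / t' * η :=
        mul_le_mul_of_nonneg_left (step3.trans hd'.le) (by positivity)
      have r3 : η * K = (η * MQ + Ch * (η * M2)) * (t'' - t') + Ch * M3 * η + (Ch + 1) / t' * η + η := by
        rw [hK]; ring
      linarith
    calc _ ≤ _ := step1
      _ = _ := step2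
      _ ≤ η * K := hfin
      _ ≤ ε / 2 := hηK
      _ < ε := by linarith

-- helpers of `rg_gap_bdd` (helper13)

/-- positive slope at a zero: positive immediately to the right -/
theorem rgb_pos_right {f : ℝ → ℝ} {d a c : ℝ} (hd : HasDerivAt f d a) (hpos : 0 < d) (hf : f a = 0)
    (hac : a < c) : ∃ b ∈ Ioo a c, ∀ x ∈ Ioc a b, 0 < f x := by
  have h1 := (hasDerivAt_iff_tendsto_slope.1 hd).eventually (lt_mem_nhds hpos)
  rw [eventually_nhdsWithin_iff, Metric.eventually_nhds_iff] at h1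
  obtain ⟨ε, hε, h1⟩ := h1
  refine ⟨min (a + ε / 2) ((a + c) / 2), ⟨lt_min (by linarith) (by linarith),
    (min_le_right _ _).trans_lt (by linarith)⟩, fun x hx => ?_⟩
  have hx2 : x ≤ a + ε / 2 := hx.2.trans (min_le_left _ _)
  have h2 := h1 (y := x) (by rw [Real.dist_eq, abs_of_pos (by linarith [hx.1])]; linarith) (ne_of_gt hx.1)
  rw [slope_def_field, hf, sub_zero] at h2
  have h3 : 0 < x - a := by linarith [hx.1]
  exact (div_pos_iff_of_pos_right h3).1 h2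

/-- positive slope at a zero: negative immediately to the left -/
theorem rgb_neg_left {f : ℝ → ℝ} {d a c : ℝ} (hd : HasDerivAt f d a) (hpos : 0 < d) (hf : f a = 0)
    (hca : c < a) : ∃ b ∈ Ioo c a, ∀ x ∈ Ico b a, f x < 0 := by
  have h1 := (hasDerivAt_iff_tendsto_slope.1 hd).eventually (lt_mem_nhds hpos)
  rw [eventually_nhdsWithin_iff, Metric.eventually_nhds_iff] at h1
  obtain ⟨ε, hε, h1⟩ := h1
  refine ⟨max (a - ε / 2) ((a + c) / 2), ⟨(by linarith : c < (a + c) / 2).trans_le (le_max_right _ _),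
    max_lt (by linarith) (by linarith)⟩, fun x hx => ?_⟩
  have hx2 : a - ε / 2 ≤ x := (le_max_left _ _).trans hx.1
  have h2 := h1 (y := x) (by rw [Real.dist_eq, abs_of_neg (by linarith [hx.2])]; linarith) (ne_of_lt hx.2)
  rw [slope_def_field, hf, sub_zero] at h2
  have h3 : x - a < 0 := by linarith [hx.2]
  by_contra hc
  have h4 : f x / (x - a) ≤ 0 := div_nonpos_of_nonneg_of_nonpos (not_lt.1 hc) h3.le
  linarith

/-- an integrable function that is a.e. nonzero on an interval has positive `L^1` norm there -/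
theorem rgb_int_pos {f : ℝ → ℝ} {a b : ℝ} (hab : a < b) (hfi : IntervalIntegrable f volume a b)
    (hne : ∀ᵐ t, t ∈ Ioo a b → f t ≠ 0) : 0 < ∫ t in a..b, |f t| := by
  rw [intervalIntegral.integral_pos_iff_support_of_nonneg_ae (Eventually.of_forall fun t => abs_nonneg _) hfi.abs]
  refine ⟨hab, ?_⟩
  have h1 : volume (Ioo a b) ≤ volume (Function.support (fun t => |f t|) ∩ Ioc a b) := by
    apply measure_mono_ae
    filter_upwards [hne] with t ht hmem
    exact ⟨by simpa using ht hmem, Ioo_subset_Ioc_self hmem⟩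
  refine lt_of_lt_of_le ?_ h1
  simp [hab]

theorem rgF_factor (h1 pin s : ℝ → ℝ) (t : ℝ) (ht : t ≠ 0) :
    rgF h1 pin s t = h1 t * ((t - s t) * (2 - pin t + pin t * s t / t)) := by
  unfold rgF
  field_simp
  ring

theorem rg_bdd_s_monoOn (h : RgHyp (𝒰 : Filter ℕ) D T A B) {a1 a2 U0 : ℝ}
    (G : RgGap (rgU (𝒰 : Filter ℕ) D) a1 a2 U0) : MonotoneOn (rgS (𝒰 : Filter ℕ) D) (Ioo a1 a2) := by
  obtain ⟨c1, C1, t1, Cth, hc1, hC1, ht1, hCth, hok⟩ := h.ok
  intro t ht t' ht' hle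
  refine le_of_tendsto_of_tendsto (rg_bdd_s_lim h G t ht) (rg_bdd_s_lim h G t' ht') ?_
  filter_upwards [hok] with n hn
  exact hn.s_mono hle

theorem rg_bdd_pin_mem (h : RgHyp (𝒰 : Filter ℕ) D T A B) (pin : ℝ → ℝ)
    (hp : ∀ C : ℝ, TendstoUniformlyOn (fun n => (D n).p) pin (𝒰 : Filter ℕ) (Icc 0 C)) (t : ℝ) (ht : 0 ≤ t) :
    0 ≤ pin t ∧ pin t ≤ 1 := by
  obtain ⟨c1, C1, t1, Cth, hc1, hC1, ht1, hCth, hok⟩ := h.ok
  have hl : Tendsto (fun n => (D n).p t) (𝒰 : Filter ℕ) (𝓝 (pin t)) := (hp t).tendsto_at ⟨ht, le_rfl⟩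
  constructor
  · refine ge_of_tendsto hl ?_
    filter_upwards [hok] with n hn
    exact hn.p_nn t
  · refine le_of_tendsto hl ?_
    filter_upwards [hok] with n hn
    exact hn.p_le t

theorem rg_bdd_F_ii (h : RgHyp (𝒰 : Filter ℕ) D T A B) {a1 a2 U0 : ℝ}
    (G : RgGap (rgU (𝒰 : Filter ℕ) D) a1 a2 U0) (h1 pin : ℝ → ℝ) (hh1 : Continuous h1) (hpin : Continuous pin)
    (t' t'' : ℝ) (ht1 : a1 < t') (ht2 : t' ≤ t'') (ht3 : t'' < a2) :
    IntervalIntegrable (rgF h1 pin (rgS (𝒰 : Filter ℕ) D)) volume t' t'' := by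
  have ha1 : 0 ≤ a1 := G.m1.1
  have hsub : Icc t' t'' ⊆ Ioo a1 a2 := fun x hx => ⟨ht1.trans_le hx.1, hx.2.trans_lt ht3⟩
  have hm : MonotoneOn (rgS (𝒰 : Filter ℕ) D) (uIcc t' t'') := by
    rw [uIcc_of_le ht2]; exact (rg_bdd_s_monoOn h G).mono hsub
  have hm2 : MonotoneOn (fun t => rgS (𝒰 : Filter ℕ) D t ^ 2) (uIcc t' t'') := by
    rw [uIcc_of_le ht2] at hm ⊢
    intro x hx y hy hxy
    have hx0 : 0 ≤ rgS (𝒰 : Filter ℕ) D x := ha1.trans (rg_bdd_s_mem h G x (hsub hx)).1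
    exact pow_le_pow_left₀ hx0 (hm hx hy hxy) 2
  have hs := hm.intervalIntegrable (μ := volume)
  have hs2 := hm2.intervalIntegrable (μ := volume)
  have hne : ∀ x ∈ uIcc t' t'', x ≠ 0 := by
    intro x hx
    rw [uIcc_of_le ht2] at hx
    have : 0 < x := lt_of_le_of_lt ha1 (ht1.trans_le hx.1)
    exact this.ne'
  have e : rgF h1 pin (rgS (𝒰 : Filter ℕ) D) = fun t =>
      h1 t * ((2 - pin t) * t) - (h1 t * (2 * (1 - pin t))) * rgS (𝒰 : Filter ℕ) D t
        - (h1 t * pin t / t) * rgS (𝒰 : Filter ℕ) D t ^ 2 := by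
    funext t
    unfold rgF
    ring
  rw [e]
  refine (IntervalIntegrable.sub ?_ ?_).sub ?_
  · exact (by fun_prop : Continuous fun t => h1 t * ((2 - pin t) * t)).intervalIntegrable _ _
  · exact hs.continuousOn_mul (by fun_prop : Continuous fun t => h1 t * (2 * (1 - pin t))).continuousOn
  · refine hs2.continuousOn_mul ?_
    exact ContinuousOn.div (by fun_prop) continuousOn_id hne


theorem rg_gap_bdd (h : RgHyp (𝒰 : Filter ℕ) D T A B) (hb : RgBdd (𝒰 : Filter ℕ) D) {a1 a2 U0 : ℝ}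
    (G : RgGap (rgU (𝒰 : Filter ℕ) D) a1 a2 U0) :
    rgG1 A B (rgG0 (𝒰 : Filter ℕ) D) (rgU (𝒰 : Filter ℕ) D) a1 ≤ 0 ∧
    rgG1 A B (rgG0 (𝒰 : Filter ℕ) D) (rgU (𝒰 : Filter ℕ) D) a2 ≤ 0 := by
  obtain ⟨h1, pin, t0, ht0, hh1, hpin, hh1pos, he, hp, -⟩ := hb.ex
  have ha1 : 0 ≤ a1 := G.m1.1
  have hT := h.T_pos
  set Gf := rgG A B (rgG0 (𝒰 : Filter ℕ) D) (rgU (𝒰 : Filter ℕ) D) with hGf
  set s := rgS (𝒰 : Filter ℕ) D with hs
  have hz1 : Gf a1 = 0 := rg_G_supp h a1 G.m1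
  have hz2 : Gf a2 = 0 := rg_G_supp h a2 G.m2
  have hcl : ∀ᵐ t, t ∈ Ioo a1 a2 → Gf (s t) = h1 t * (s t - t) / T := rg_bdd_closure h G h1 hh1 he
  have hsmem : ∀ t ∈ Ioo a1 a2, s t ∈ Icc a1 a2 := fun t ht => rg_bdd_s_mem h G t ht
  have hGd : ∀ t, HasDerivAt Gf (rgG1 A B (rgG0 (𝒰 : Filter ℕ) D) (rgU (𝒰 : Filter ℕ) D) t) t :=
    fun t => rg_G_deriv A B _ _ (rg_U_mono h) t
  have hFi : ∀ t' t'', a1 < t' → t' ≤ t'' → t'' < a2 → IntervalIntegrable (rgF h1 pin s) volume t' t'' :=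
    fun t' t'' x1 x2 x3 => rg_bdd_F_ii h G h1 pin hh1 hpin t' t'' x1 x2 x3
  have hFl : ∀ t' t'', a1 < t' → t' ≤ t'' → t'' < a2 →
      Tendsto (fun n => ∫ t in t'..t'', |(D n).gam t - rgF h1 pin s t|) (𝒰 : Filter ℕ) (𝓝 0) :=
    fun t' t'' x1 x2 x3 => rg_bdd_gam h G h1 pin hh1 hpin he hp t' t'' x1 x2 x3
  -- positivity of the second factor
  have hfac : ∀ t ∈ Ioo a1 a2, 0 < 2 - pin t + pin t * s t / t := by
    intro t ht
    have htpos : 0 < t := lt_of_le_of_lt ha1 ht.1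
    obtain ⟨p0, p1⟩ := rg_bdd_pin_mem h pin hp t htpos.le
    have hs0 : 0 ≤ s t := ha1.trans (hsmem t ht).1
    have : 0 ≤ pin t * s t / t := by positivity
    linarith
  constructor
  · by_contra hc
    replace hc := not_le.1 hc
    obtain ⟨b, hb, hpos⟩ := rgb_pos_right (hGd a1) hc hz1 G.lt
    have hlt : ∀ᵐ t, t ∈ Ioo a1 b → rgF h1 pin s t < 0 := by
      filter_upwards [hcl] with t hct ht
      have ht' : t ∈ Ioo a1 a2 := ⟨ht.1, ht.2.trans hb.2⟩
      have htpos : 0 < t := lt_of_le_of_lt ha1 ht.1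
      have hct := hct ht'
      have hst : t < s t := by
        by_contra hle
        replace hle := not_lt.1 hle
        have hsm := (hsmem t ht').1
        have hG0 : 0 ≤ Gf (s t) := by
          rcases hsm.eq_or_lt with heq | hl
          · rw [← heq, hz1]
          · exact (hpos (s t) ⟨hl, hle.trans ht.2.le⟩).le
        have hG1 : h1 t * (s t - t) / T ≤ 0 := by
          apply div_nonpos_of_nonpos_of_nonneg _ hT.le
          exact mul_nonpos_of_nonneg_of_nonpos (hh1pos t htpos.le).le (by linarith)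
        have hG2 : h1 t * (s t - t) / T = 0 := le_antisymm hG1 (hct ▸ hG0)
        have hG3 : s t - t = 0 := by
          rcases div_eq_zero_iff.1 hG2 with h' | h'
          · rcases mul_eq_zero.1 h' with h'' | h''
            · exact absurd h'' (hh1pos t htpos.le).ne'
            · exact h''
          · exact absurd h' hT.ne'
        have hG4 : s t = t := by linarith
        have hG5 : Gf t = 0 := by
          have := hct
          rw [hG2, hG4] at this
          exact this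
        have := hpos t ⟨ht.1, ht.2.le⟩
        linarith
      rw [rgF_factor h1 pin s t htpos.ne']
      have h3 : (t - s t) * (2 - pin t + pin t * s t / t) < 0 :=
        mul_neg_of_neg_of_pos (by linarith) (hfac t ht')
      exact mul_neg_of_pos_of_neg (hh1pos t htpos.le) h3
    have hle := rg_pot_left h G (rgF h1 pin s) b hb hFi hFl
      (by filter_upwards [hlt] with t ht hm using (ht hm).le)
    set t' := (a1 + b) / 2 with ht'
    have ht'm : t' ∈ Ioo a1 b := ⟨by linarith [hb.1], by linarith [hb.1]⟩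
    have h5 := rgb_int_pos ht'm.2 (hFi t' b ht'm.1 ht'm.2.le hb.2)
      (by filter_upwards [hlt] with t ht hm using (ht ⟨ht'm.1.trans hm.1, hm.2⟩).ne)
    have h6 := hle t' ht'm
    linarith
  · by_contra hc
    replace hc := not_le.1 hc
    obtain ⟨b, hb, hneg⟩ := rgb_neg_left (hGd a2) hc hz2 G.lt
    have hgt : ∀ᵐ t, t ∈ Ioo b a2 → 0 < rgF h1 pin s t := by
      filter_upwards [hcl] with t hct ht
      have ht' : t ∈ Ioo a1 a2 := ⟨hb.1.trans ht.1, ht.2⟩
      have htpos : 0 < t := lt_of_le_of_lt ha1 ht'.1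
      have hct := hct ht'
      have hst : s t < t := by
        by_contra hle
        replace hle := not_lt.1 hle
        have hsm := (hsmem t ht').2
        have hG0 : Gf (s t) ≤ 0 := by
          rcases hsm.eq_or_lt with heq | hl
          · rw [heq, hz2]
          · exact (hneg (s t) ⟨ht.1.le.trans hle, hl⟩).le
        have hG1 : 0 ≤ h1 t * (s t - t) / T := by
          apply div_nonneg _ hT.le
          exact mul_nonneg (hh1pos t htpos.le).le (by linarith)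
        have hG2 : h1 t * (s t - t) / T = 0 := le_antisymm (hct ▸ hG0) hG1
        have hG3 : s t - t = 0 := by
          rcases div_eq_zero_iff.1 hG2 with h' | h'
          · rcases mul_eq_zero.1 h' with h'' | h''
            · exact absurd h'' (hh1pos t htpos.le).ne'
            · exact h''
          · exact absurd h' hT.ne'
        have hG4 : s t = t := by linarith
        have hG5 : Gf t = 0 := by
          have := hct
          rw [hG2, hG4] at this
          exact this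
        have := hneg t ⟨ht.1.le, ht.2⟩
        linarith
      rw [rgF_factor h1 pin s t htpos.ne']
      have h3 : 0 < (t - s t) * (2 - pin t + pin t * s t / t) :=
        mul_pos (by linarith) (hfac t ht')
      exact mul_pos (hh1pos t htpos.le) h3
    have hle := rg_pot_right h G (rgF h1 pin s) b hb hFi hFl
      (by filter_upwards [hgt] with t ht hm using (ht hm).le)
    set t'' := (b + a2) / 2 with ht''
    have ht''m : t'' ∈ Ioo b a2 := ⟨by linarith [hb.2], by linarith [hb.2]⟩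
    have h5 := rgb_int_pos ht''m.1 (hFi b t'' hb.1 ht''m.1.le ht''m.2)
      (by filter_upwards [hgt] with t ht hm using (ht ⟨hm.1, hm.2.trans ht''m.2⟩).ne')
    have h6 := hle t'' ht''m
    linarith

end Claimed.Agent.R286
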