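import Claimed.Agent.R286.Rig.Div
import Claimed.Agent.R286.Rig.Bdd

/-!
# Row 286, unit RIG, file 10: the abstract rigidity theorem          (helper24)

`rg_main` = PE Theorem 5.1 (28) for abstract data: along the ultrafilter the rescaled inverse quantile converges to `(A/B) t` and the rescaled quantile to `(B/A) v`, locally uniformly.
`kappa = A/B`, `A = T^3 a4^2`, `B = 2 T^2 a2^3`.
-/

set_option autoImplicit false

namespace Claimed.Agent.R286

open MeasureTheory Filter Set Topology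

variable {𝒰 : Ultrafilter ℕ} {D : ℕ → RgDat} {T A B : ℝ}

theorem rg_U_linear (h : RgHyp (𝒰 : Filter ℕ) D T A B) : ∀ t, 0 ≤ t → rgU (𝒰 : Filter ℕ) D t = A / B * t := by
  obtain ⟨c1, C1, t1, hc1, _, _, hout⟩ := rg_U_outer h
  refine rg_ode A B (rgG0 (𝒰 : Filter ℕ) D) c1 t1 (rgU (𝒰 : Filter ℕ) D) h.A_pos h.B_pos hc1 (rg_U_mono h)
    (rg_U_zero h) (fun t ht => (hout t ht).1) (rg_G_supp h) ?_
  intro a1 a2 U0 m1 m2 hlt hpos hcst
  have G : RgGap (rgU (𝒰 : Filter ℕ) D) a1 a2 U0 := ⟨m1, m2, hlt, hpos, hcst⟩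
  rcases h.regime with hd | hb
  · exact rg_gap_div h hd G
  · exact rg_gap_bdd h hb G

theorem rg_a_lim (h : RgHyp (𝒰 : Filter ℕ) D T A B) (t : ℝ) (ht : 0 ≤ t) :
    Tendsto (fun n => (D n).a t) (𝒰 : Filter ℕ) (𝓝 (A / B * t)) := by
  have := rg_U_lim h t
  rwa [rg_U_linear h t ht] at this

/-- eventually every mass of a compact set of positive masses is a working mass -/
theorem rg_quant_ev (h : RgHyp (𝒰 : Filter ℕ) D T A B) (v1 v2 : ℝ) (hv1 : 0 < v1) :
    ∀ᶠ n in (𝒰 : Filter ℕ), Monotone (D n).a ∧ ∀ v ∈ Icc v1 v2,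
      0 ≤ (D n).r v ∧ (D n).r v ≤ (D n).R ∧ (D n).a ((D n).r v) = v := by
  obtain ⟨c1, C1, t1, Cth, hc1, hC1, ht1, hCth, hok⟩ := h.ok
  have h0 : ∀ᶠ n in (𝒰 : Filter ℕ), (D n).a 0 < v1 := h.a0_lim.eventually (gt_mem_nhds hv1)
  have hR : ∀ᶠ n in (𝒰 : Filter ℕ), v2 / c1 ≤ (D n).R := h.R_lim.eventually (eventually_ge_atTop _)
  filter_upwards [hok, h0, hR] with n ok h0 hR
  refine ⟨ok.a_mono, fun v hv => ?_⟩
  refine ok.quant v (lt_of_lt_of_le h0 hv.1) ?_
  have h1 := (ok.outer (D n).R ok.R_ge le_rfl).1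
  have h2 : v2 ≤ c1 * (D n).R := by
    rw [div_le_iff₀ hc1] at hR; linarith
  linarith [hv.2]

theorem rg_r_lim (h : RgHyp (𝒰 : Filter ℕ) D T A B) (v : ℝ) (hv : 0 < v) :
    Tendsto (fun n => (D n).r v) (𝒰 : Filter ℕ) (𝓝 (B / A * v)) := by
  have hA := h.A_pos
  have hB := h.B_pos
  have hw : 0 < B / A * v := by positivity
  rw [Metric.tendsto_nhds]
  intro ε hε
  set w := B / A * v with hwdef
  set η := min (ε / 2) (w / 2) with hη
  have hηpos : 0 < η := by positivity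
  have hηw : η ≤ w / 2 := min_le_right _ _
  have hηε : η ≤ ε / 2 := min_le_left _ _
  have hk : A / B * w = v := by
    rw [hwdef]; field_simp
  have hκ : 0 < A / B := by positivity
  have l1 := rg_a_lim h (w - η) (by linarith)
  have l2 := rg_a_lim h (w + η) (by linarith)
  have e1 : ∀ᶠ n in (𝒰 : Filter ℕ), (D n).a (w - η) < v := by
    refine l1.eventually (gt_mem_nhds ?_)
    have : A / B * (w - η) = v - A / B * η := by rw [mul_sub, hk]
    rw [this]; have := mul_pos hκ hηpos; linarith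
  have e2 : ∀ᶠ n in (𝒰 : Filter ℕ), v < (D n).a (w + η) := by
    refine l2.eventually (lt_mem_nhds ?_)
    have : A / B * (w + η) = v + A / B * η := by rw [mul_add, hk]
    rw [this]; have := mul_pos hκ hηpos; linarith
  filter_upwards [e1, e2, rg_quant_ev h v v hv] with n e1 e2 hq
  obtain ⟨hm, hq⟩ := hq
  obtain ⟨_, _, hq⟩ := hq v ⟨le_rfl, le_rfl⟩
  have b1 : w - η < (D n).r v := by
    by_contra hc
    have := hm (not_lt.mp hc)
    rw [hq] at this; linarith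
  have b2 : (D n).r v < w + η := by
    by_contra hc
    have := hm (not_lt.mp hc)
    rw [hq] at this; linarith
  rw [Real.dist_eq, abs_lt]
  constructor <;> linarith

theorem rg_r_mono (h : RgHyp (𝒰 : Filter ℕ) D T A B) (v1 v2 : ℝ) (hv1 : 0 < v1) :
    ∀ᶠ n in (𝒰 : Filter ℕ), MonotoneOn (D n).r (Icc v1 v2) := by
  filter_upwards [rg_quant_ev h v1 v2 hv1] with n hq
  obtain ⟨hm, hq⟩ := hq
  intro v hv v' hv' hle
  by_contra hc
  have h1 := hm (le_of_lt (not_le.mp hc))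
  rw [(hq v hv).2.2, (hq v' hv').2.2] at h1
  have : v = v' := le_antisymm hle h1
  subst this
  exact hc le_rfl

theorem rg_main (h : RgHyp (𝒰 : Filter ℕ) D T A B) :
    (∀ t, 0 ≤ t → Tendsto (fun n => (D n).a t) (𝒰 : Filter ℕ) (𝓝 (A / B * t))) ∧
    ∀ v1 v2 : ℝ, 0 < v1 → v1 ≤ v2 →
      TendstoUniformlyOn (fun n => (D n).r) (fun v => B / A * v) (𝒰 : Filter ℕ) (Icc v1 v2) := by
  refine ⟨rg_a_lim h, fun v1 v2 hv1 hv => ?_⟩
  refine rg_mono_unif _ _ _ v1 v2 hv (rg_r_mono h v1 v2 hv1) (by fun_prop) ?_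
  intro v hvm
  exact rg_r_lim h v (lt_of_lt_of_le hv1 hvm.1)

end Claimed.Agent.R286
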