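import Claimed.Agent.R286.Rig.Defs

/-!
# Row 286, unit RIG, file 11: the UNSCALED layer: data, rescaling, hypotheses in the forms of the paper          (architect + owner helper24)

`RgDat`/`RgHyp` (file `Defs`) live in rescaled variables.  The users (PE Sec. 5.1, LL 06 l.102, LL 07 l.985-1140) have UNSCALED numbers.  This file fixes
* `RgPhy`          the unscaled numbers of ONE system (no spins, no Gaussians, no vocabulary of another unit: plain functions `ℝ → ℝ`);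
* `RgPhy.toDat`    the rescaling `t = ρ/x`, `v = u/x` (radii are clamped to `[rmin,1]`, so that everything is monotone on the whole line);
* `RgPhy.Ok`       structural facts of one system, in the forms of PE (5), (6), Lemma 3.3, Lemma 5.3;
* `RgPhyHyp`       the asymptotic hypotheses along a filter, in the forms of PE (4), (9), (10), (12), (19) mass AND radius, (22) in modulus form, Lemma 5.3/5.4 (scalar expansion).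
Coordinates:  `u` mass in `[0,1]`,  `ρ` radius in `[rmin,1]`,  `q` scalar time `K/T`.
Fields:  `al` inverse quantile (radius → mass), `r` quantile (mass → radius);   `S, Dd, K, b0, h0` functions of the MASS (`S_u`, `D_u`, `K_u = h_u + b_u S_u`, bare clocks);
`e, p, H, J` functions of the RADIUS (strength, its logarithmic slope, potential, flow factor);   `aK, Gm, Gm1, Q3, Q2` functions of SCALAR TIME (`α_K`, `Γ^`, `Γ^'`, `E V_zzz(q,Z_q)^2`, `E V_zz(q,Z_q)^3`);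
`a2 = V_zz(0,0)`, `a4 = V_zzzz(0,0)`;   `wc` bound for the length of every cap, `us = u_*`, `top ≤ 1` = any radius/time up to which the facts are available (`top/x → ∞`).
-/

set_option autoImplicit false

namespace Claimed.Agent.R286

open MeasureTheory Filter Set Topology

/-- the unscaled numbers of one system -/
structure RgPhy where
  x : ℝ
  T : ℝ
  top : ℝ
  u0 : ℝ
  rmin : ℝ
  wc : ℝ
  us : ℝ
  lam : ℝ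
  d : ℝ
  a2 : ℝ
  a4 : ℝ
  al : ℝ → ℝ
  r : ℝ → ℝ
  S : ℝ → ℝ
  Dd : ℝ → ℝ
  K : ℝ → ℝ
  b0 : ℝ → ℝ
  h0 : ℝ → ℝ
  e : ℝ → ℝ
  p : ℝ → ℝ
  H : ℝ → ℝ
  J : ℝ → ℝ
  aK : ℝ → ℝ
  Gm : ℝ → ℝ
  Gm1 : ℝ → ℝ
  Q3 : ℝ → ℝ
  Q2 : ℝ → ℝ

namespace RgPhy

/-- a radius clamped to `[rmin,1]` -/
noncomputable def cl (E : RgPhy) (ρ : ℝ) : ℝ := max E.rmin (min ρ 1)

/-- the mass at the (clamped) radius `ρ` -/
noncomputable def m (E : RgPhy) (ρ : ℝ) : ℝ := E.al (E.cl ρ)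

/-- the first variation density `G(ρ) = e [(2-p) ρ - 2 (1-p) S - p B/ρ]`, `B = S^2 + D^2` -/
noncomputable def G (E : RgPhy) (ρ : ℝ) : ℝ :=
  E.e ρ * ((2 - E.p ρ) * ρ - 2 * (1 - E.p ρ) * E.S (E.al ρ) - E.p ρ * (E.S (E.al ρ) ^ 2 + E.Dd (E.al ρ) ^ 2) / ρ)

/-- the radius band `I_n(c,C)` of PE l.62 -/
def I (E : RgPhy) (c C : ℝ) : Set ℝ := {ρ | 0 ≤ ρ ∧ ρ ≤ C * E.x ∧ c * E.x ≤ E.m ρ ∧ E.m ρ ≤ C * E.x}

/-- **the rescaling** -/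
noncomputable def toDat (E : RgPhy) : RgDat where
  x := E.x
  T := E.T
  R := E.top / E.x
  ell := (E.wc + E.rmin) / E.x
  a := fun t => E.m (E.x * t) / E.x
  r := fun v => E.r (E.x * v) / E.x
  s := fun t => E.S (E.m (E.x * t)) / E.x
  dl := fun t => E.Dd (E.m (E.x * t)) / E.x
  e := fun t => E.e (E.x * t) / E.x ^ 2
  p := fun t => E.p (E.x * t)
  z := fun t => ((E.b0 (E.m (E.x * t)) - E.T) * E.S (E.m (E.x * t)) + E.h0 (E.m (E.x * t))) / E.x ^ 3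
  k := fun t => E.K (E.m (E.x * t)) / (E.T * E.x)
  aK := fun τ => E.aK (E.x * τ) / E.x
  g := fun t => (E.Gm (E.x * t) - E.x * t) / E.x ^ 3
  g1 := fun t => (E.Gm1 (E.x * t) - 1) / E.x ^ 2
  P := fun τ => E.T ^ 2 * E.Q3 (E.x * τ) / E.x
  Bc := fun τ => 2 * E.T ^ 2 * E.Q2 (E.x * τ)
  H := fun t => E.H (E.cl (E.x * t)) / E.x ^ 4
  J := fun t => E.J (E.cl (E.x * t))

/-- equation lemmas are generated HERE, once -/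
theorem _root_.Claimed.Agent.R286.rgw_defs_eqns_cite : True := by
  have := @RgPhy.cl.eq_1; have := @RgPhy.m.eq_1; have := @RgPhy.G.eq_1; have := @RgPhy.I.eq_1; have := @RgPhy.toDat.eq_1
  trivial

/-- **structural facts of one system**.   `c0 C1 C0`: outer regularity above `x` in MASS form (PE Def. 3.2);  `Cth`: bound of the strength (`d^2`) -/
structure Ok (E : RgPhy) (c0 C1 C0 Cth : ℝ) : Prop where
  x_pos : 0 < E.x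
  T_pos : 0 < E.T
  u0_nn : 0 ≤ E.u0
  rmin_nn : 0 ≤ E.rmin
  rmin_top : E.rmin ≤ E.top
  top_le : E.top ≤ 1
  wc_nn : 0 ≤ E.wc
  us_nn : 0 ≤ E.us
  /-- quantile and inverse quantile, PE (5) -/
  al_mono : MonotoneOn E.al (Icc E.rmin 1)
  al_min : E.al E.rmin = E.u0
  al_one : E.al 1 = 1
  r_mono : MonotoneOn E.r (Icc E.u0 1)
  r_mem : ∀ u ∈ Icc E.u0 1, E.r u ∈ Icc E.rmin 1
  al_r : ∀ u ∈ Icc E.u0 1, E.al (E.r u) = u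
  r_al : ∀ ρ ∈ Icc E.rmin 1, E.r (E.al ρ) = ρ
  /-- outer regularity above `x` -/
  reg : ∀ u, C0 * E.x ≤ u → u ≤ 1 → E.u0 ≤ u → c0 * u ≤ E.r u ∧ E.r u ≤ C1 * u
  /-- moments of the changed path -/
  S_mono : MonotoneOn E.S (Icc 0 1)
  S_nn : ∀ u ∈ Icc (0:ℝ) 1, 0 ≤ E.S u
  Dd_nn : ∀ u, 0 ≤ E.Dd u
  Dd_meas : Measurable E.Dd
  /-- the scalar covariance path `K_u = h_u + b_u S_u`, `b = b0 - e(r)`, `h = h0 + e(r) r` on the working interval -/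
  K_mono : MonotoneOn E.K (Icc 0 1)
  K_nn : ∀ u ∈ Icc (0:ℝ) 1, 0 ≤ E.K u
  K_eq : ∀ ρ, E.rmin < ρ → ρ ≤ 1 →
    E.K (E.al ρ) = E.h0 (E.al ρ) + E.e ρ * ρ + (E.b0 (E.al ρ) - E.e ρ) * E.S (E.al ρ)
  b0_meas : Measurable E.b0
  h0_meas : Measurable E.h0
  e_meas : Measurable E.e
  p_meas : Measurable E.p
  e_pos : ∀ ρ ∈ Icc (0:ℝ) 1, 0 < E.e ρ
  e_le : ∀ ρ ∈ Icc (0:ℝ) 1, E.e ρ ≤ Cth
  p_nn : ∀ ρ, 0 ≤ E.p ρ
  p_le : ∀ ρ, E.p ρ ≤ 1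
  /-- `α_K(q) = |{u : K_u/T ≤ q}|` -/
  aK_mono : Monotone E.aK
  aK_nn : ∀ q, 0 ≤ E.aK q
  aK_ge : ∀ u ∈ Icc (0:ℝ) 1, ∀ q, E.K u / E.T ≤ q → u ≤ E.aK q
  aK_le : ∀ u ∈ Icc (0:ℝ) 1, ∀ q, q < E.K u / E.T → E.aK q ≤ u
  /-- PE Lemma 5.3: `Γ^(0) = 0`, `Γ^'' = T^2 E[V_zzz^2 - 2 α_K V_zz^3]`, in integrated form -/
  Q3_cont : ContinuousOn E.Q3 (Icc 0 E.top)
  Q2_cont : ContinuousOn E.Q2 (Icc 0 E.top)
  Gm_eq : ∀ q ∈ Icc 0 E.top, E.Gm q = ∫ σ in (0:ℝ)..q, E.Gm1 σ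
  Gm1_eq : ∀ q ∈ Icc 0 E.top, E.Gm1 q = E.Gm1 0 + ∫ σ in (0:ℝ)..q, E.T ^ 2 * (E.Q3 σ - 2 * E.aK σ * E.Q2 σ)
  /-- PE Lemma 3.3: flow factor, its distortion (`M'/M ≤ 2/(u+u_*)`, `w M ≤ α'`), potential, caps -/
  J_pos : ∀ ρ ∈ Icc E.rmin 1, 0 < E.J ρ
  J_mono : MonotoneOn E.J (Icc E.rmin 1)
  J_dist : ∀ ρ ρ', E.rmin ≤ ρ → ρ ≤ ρ' → ρ' ≤ 1 → E.J ρ' * (E.al ρ + E.us) ^ 2 ≤ E.J ρ * (E.al ρ' + E.us) ^ 2
  H_int : ∀ ρ ρ', E.rmin < ρ → ρ ≤ ρ' → ρ' ≤ 1 → IntervalIntegrable (fun σ => E.J σ * E.G σ) volume ρ ρ'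
  H_eq : ∀ ρ ρ', E.rmin < ρ → ρ ≤ ρ' → ρ' ≤ 1 → E.H ρ' - E.H ρ = ∫ σ in ρ..ρ', E.J σ * E.G σ
  cap : ∀ ρ, E.rmin ≤ ρ → ρ + E.wc < E.top → E.H ρ < 0 → ∃ ρ', ρ < ρ' ∧ ρ' ≤ ρ + E.wc ∧ E.H ρ' = 0

end RgPhy

/-- **the hypotheses of PE Theorem 5.1, unscaled, along the filter `l`**.   `F`, `Pf` = the fixed profile `f` and its logarithmic slope (PE l.77-84).
TEX[PE:prof:direct-profile] (hypotheses) -/
structure RgPhyHyp (l : Filter ℕ) (E : ℕ → RgPhy) (T a2 a4 : ℝ) (F Pf : ℝ → ℝ) : Prop where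
  T_pos : 0 < T
  a2_pos : 0 < a2
  a4_ne : a4 ≠ 0
  ok : ∃ c0 C1 C0 Cth : ℝ, 0 < c0 ∧ 0 < C1 ∧ 0 < C0 ∧ 0 < Cth ∧ ∀ᶠ n in l, (E n).Ok c0 C1 C0 Cth
  x_lim : Tendsto (fun n => (E n).x) l (𝓝 0)
  T_lim : Tendsto (fun n => (E n).T) l (𝓝 T)
  a2_lim : Tendsto (fun n => (E n).a2) l (𝓝 a2)
  a4_lim : Tendsto (fun n => (E n).a4) l (𝓝 a4)
  top_lim : Tendsto (fun n => (E n).top / (E n).x) l atTop
  /-- cap widths and the wall are `o(x)` -/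
  w_lim : Tendsto (fun n => ((E n).wc + (E n).rmin) / (E n).x) l (𝓝 0)
  /-- the omitted mass is `o(x)` -/
  u0_lim : Tendsto (fun n => (E n).u0 / (E n).x) l (𝓝 0)
  /-- PE (12) -/
  raw : ∃ Cr : ℝ, ∀ᶠ n in l, ∀ u ∈ Icc (0:ℝ) 1, (E n).S u ≤ Cr * (u + (E n).x) ∧ (E n).Dd u ≤ Cr * (u + (E n).x)
  /-- PE (22) = Proposition 4.1 in MODULUS form (`ω y = C0 y^θ`) -/
  clo : ∀ c C : ℝ, 0 < c → ∃ (ω : ℝ → ℝ) (η : ℕ → ℝ), Monotone ω ∧ Tendsto ω (𝓝[>] 0) (𝓝 0) ∧ Tendsto η l (𝓝 0) ∧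
    ∀ᶠ n in l, ∀ u, c * (E n).x ≤ u → u ≤ C * (E n).x →
      |(E n).S u - (E n).Gm ((E n).K u / (E n).T)| ≤ (E n).x ^ 3 * (η n + ω ((E n).Dd u / (E n).x))
  /-- PE (4) -/
  bare : ∀ c C ε : ℝ, 0 < c → 0 < ε → ∀ᶠ n in l, ∀ u, c * (E n).x ≤ u → u ≤ C * (E n).x →
    |(E n).b0 u - (E n).T| ≤ ε * (E n).x ^ 2 ∧ |(E n).h0 u| ≤ ε * (E n).x ^ 3
  /-- PE (19), radius version -/
  D_rad : ∀ c C : ℝ, 0 < c → Tendsto (fun n => (∫ ρ in (E n).I c C, (E n).Dd ((E n).m ρ) ^ 2) / (E n).x ^ 3) l (𝓝 0)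
  /-- PE (19), mass version -/
  D_mass : ∀ c C : ℝ, 0 < c →
    Tendsto (fun n => (∫ u in Icc (c * (E n).x) (C * (E n).x), (E n).Dd u ^ 2) / (E n).x ^ 3) l (𝓝 0)
  /-- the total floor mass is `o(x)` -/
  floor : ∃ fm : ℕ → ℝ, Tendsto (fun n => fm n / (E n).x) l (𝓝 0) ∧
    ∀ᶠ n in l, volume {u | (E n).u0 < u ∧ u ≤ 1 ∧ 0 < (E n).H ((E n).r u)} ≤ ENNReal.ofReal (fm n)
  /-- PE l.296-307: scalar expansion at small scalar times -/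
  sc : ∃ Cs q0 : ℝ, 0 < q0 ∧ ∀ᶠ n in l, ∀ q ∈ Icc (0:ℝ) q0,
    |(E n).Q3 q - (E n).T * (E n).a4 ^ 2 * q| ≤ Cs * q ^ 2 ∧ |(E n).Q2 q - (E n).a2 ^ 3| ≤ Cs * q
  /-- the profile of PE (6) -/
  F_cont : Continuous F
  Pf_cont : Continuous Pf
  F_pos : ∀ t, 0 < F t
  F_le : ∀ t, F t ≤ 1
  F_one : ∀ t, t ≤ 1 → F t = 1
  Pf_zero : ∀ t, t ≤ 1 → Pf t = 0
  e_eq : ∀ᶠ n in l, ∀ ρ, (E n).e ρ = (E n).lam * F ((E n).lam * ρ / (E n).d ^ 3)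
  p_eq : ∀ᶠ n in l, ∀ ρ, (E n).p ρ = Pf ((E n).lam * ρ / (E n).d ^ 3)
  lam_d : ∀ᶠ n in l, 0 < (E n).lam ∧ 0 < (E n).d ∧ (E n).lam ≤ (E n).d ^ 2
  /-- `x = O(d)` -/
  x_d : ∃ Cd : ℝ, ∀ᶠ n in l, (E n).x ≤ Cd * (E n).d
  /-- `e(x) ≳ x^2` -/
  e_x : ∃ ce : ℝ, 0 < ce ∧ ∀ᶠ n in l, ce * (E n).x ^ 2 ≤ (E n).e (E n).x
  /-- `λ (cap width + wall) = o(x^3)`  (`L ≤ a^3/d^2`, `λ ≤ d^2`, `a ≲ x`) -/
  lam_w : Tendsto (fun n => (E n).lam * ((E n).wc + (E n).rmin) / (E n).x ^ 3) l (𝓝 0)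
  /-- PE (9), (10): mismatch off the floor, on masses `O(x)` (fixed constant there: `1 - p` is bounded below) -/
  mis : ∀ C : ℝ, ∃ Cg : ℝ, 0 < Cg ∧ ∀ᶠ n in l, ∀ᵐ u, (E n).u0 < u → u ≤ C * (E n).x → (E n).H ((E n).r u) ≤ 0 →
    |(E n).S u - (E n).r u| ≤ Cg * ((E n).Dd u + (E n).wc + (E n).rmin)
  /-- PE Lemma 3.3, last lines: sharp mismatch where `p = 0` up to the right end of the cap -/
  mis0 : ∀ᶠ n in l, ∀ᵐ u, (E n).u0 < u → u ≤ 1 → (E n).H ((E n).r u) ≤ 0 → (E n).p ((E n).r u + (E n).wc) = 0 →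
    |(E n).S u - (E n).r u| ≤ (E n).wc + (E n).rmin

end Claimed.Agent.R286
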