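import Claimed.Agent.R286.Rig.Defs

/-!
# Row 286, unit RIG, file 12: the scalar side of the rigidity data          (helper48)

Paper: PE `profile.tex` l.140-235 (Lemma 5.3) and l.291-325 (rescaling, second derivative of the scalar defect).  TEX[PE:prof:scalar-derivatives] TEX[PE:prof:scalar-compactness]
ABSTRACT: the moment curves of ONE scalar system in VARIANCE time `k ∈ [0, tau]` (the time of `Sc/*`: `V_k = -(V_zz + al V_z^2)/2`), as NUMBERS: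
`Gam = E V_z^2`, `M2 = E V_zz^2`, `M3 = E V_zz^3`, `N3 = E V_zzz^2`, `al` = mass profile of the scalar clock, `a2 = V_zz(0,0)`, `a4 = V_zzzz(0,0)`.
`RgSc.Ok`:  `Gam = ∫ M2`,  `M2 = M2 0 + ∫ (N3 - 2 al M3)`,  `|N3 k - a4^2 k| ≤ C k^2`,  `|M3 k - a2^3| ≤ C k`   (Dynkin + bounded jets; `C` uniform in the system).
RESCALING at the test scale `x`, temperature `T` (`k = T x t`):
`g = (Gam(T x t) - x t)/x^3`, `g1 = (T M2(T x t) - 1)/x^2`, `P = T^2 N3(T x t)/x`, `Bc = 2 T^2 M3(T x t)`, `aK = al(T x t)/x`.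
OUTPUT = the scalar fields of `RgDat.Ok` and `RgHyp`: `g_eq`, `g1_eq`, `P_cont`, `Bc_cont`, `aK_mono`, `aK_nn`, `P_lim` (`A = T^3 a4^2`), `Bc_lim` (`B = 2 T^2 a2^3`).
-/

set_option autoImplicit false

namespace Claimed.Agent.R286

open MeasureTheory Filter Set Topology

/-- the scalar moment curves of one system, in variance time -/
structure RgSc where
  tau : ℝ
  al : ℝ → ℝ
  Gam : ℝ → ℝ
  M2 : ℝ → ℝ
  M3 : ℝ → ℝ
  N3 : ℝ → ℝ
  a2 : ℝ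
  a4 : ℝ

namespace RgSc

/-- what the scalar block delivers; `Csc` does not depend on the system -/
structure Ok (S : RgSc) (Csc : ℝ) : Prop where
  al_mono : Monotone S.al
  al_nn : ∀ k, 0 ≤ S.al k
  Gam_eq : ∀ k ∈ Icc 0 S.tau, S.Gam k = ∫ s in (0:ℝ)..k, S.M2 s
  M2_eq : ∀ k ∈ Icc 0 S.tau, S.M2 k = S.M2 0 + ∫ s in (0:ℝ)..k, (S.N3 s - 2 * S.al s * S.M3 s)
  N3_cont : ContinuousOn S.N3 (Icc 0 S.tau)
  M3_cont : ContinuousOn S.M3 (Icc 0 S.tau)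
  N3_exp : ∀ k ∈ Icc 0 S.tau, |S.N3 k - S.a4 ^ 2 * k| ≤ Csc * k ^ 2
  M3_exp : ∀ k ∈ Icc 0 S.tau, |S.M3 k - S.a2 ^ 3| ≤ Csc * k

/-- `(Gamma(T x t) - x t)/x^3` -/
noncomputable def g (S : RgSc) (T x t : ℝ) : ℝ := (S.Gam (T * x * t) - x * t) / x ^ 3

/-- its derivative -/
noncomputable def g1 (S : RgSc) (T x t : ℝ) : ℝ := (T * S.M2 (T * x * t) - 1) / x ^ 2

noncomputable def P (S : RgSc) (T x t : ℝ) : ℝ := T ^ 2 * S.N3 (T * x * t) / x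

noncomputable def Bc (S : RgSc) (T x t : ℝ) : ℝ := 2 * T ^ 2 * S.M3 (T * x * t)

noncomputable def aK (S : RgSc) (T x t : ℝ) : ℝ := S.al (T * x * t) / x

end RgSc

theorem rgs_eqns_cite : True := by
  have := @RgSc.g.eq_1
  have := @RgSc.g1.eq_1
  have := @RgSc.P.eq_1
  have := @RgSc.Bc.eq_1
  have := @RgSc.aK.eq_1
  trivial

variable {S : RgSc} {Csc T x : ℝ}

theorem rgs_src_ii (h : S.Ok Csc) {k : ℝ} (hk : k ∈ Icc 0 S.tau) :
    IntervalIntegrable (fun s => S.N3 s - 2 * S.al s * S.M3 s) volume 0 k := by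
  have hsub : uIcc 0 k ⊆ Icc 0 S.tau := by
    rw [uIcc_of_le hk.1]
    exact Icc_subset_Icc le_rfl hk.2
  have h1 : IntervalIntegrable (fun s => 2 * S.al s) volume 0 k :=
    (h.al_mono.intervalIntegrable).const_mul 2
  exact ((h.N3_cont.mono hsub).intervalIntegrable).sub (h1.mul_continuousOn (h.M3_cont.mono hsub))

theorem rgs_M2_cont (h : S.Ok Csc) : ContinuousOn S.M2 (Icc 0 S.tau) := by
  rcases lt_or_ge S.tau 0 with hneg | hpos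
  · rw [Icc_eq_empty (not_le.mpr hneg)]
    exact continuousOn_empty _
  have h1 : ContinuousOn (fun k => S.M2 0 + ∫ s in (0:ℝ)..k, (S.N3 s - 2 * S.al s * S.M3 s)) (Icc 0 S.tau) := by
    refine continuousOn_const.add ?_
    have := intervalIntegral.continuousOn_primitive_interval (μ := volume)
      (f := fun s => S.N3 s - 2 * S.al s * S.M3 s) (a := 0) (b := S.tau)
      (by
        rw [uIcc_of_le hpos, integrableOn_Icc_iff_integrableOn_Ioc,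
          ← intervalIntegrable_iff_integrableOn_Ioc_of_le hpos]
        exact rgs_src_ii h ⟨hpos, le_rfl⟩)
    rwa [uIcc_of_le hpos] at this
  exact h1.congr fun k hk => h.M2_eq k hk

theorem rgs_aK_mono (h : S.Ok Csc) (hT : 0 < T) (hx : 0 < x) : Monotone (S.aK T x) := by
  intro t t' htt
  have hc : 0 < T * x := mul_pos hT hx
  exact div_le_div_of_nonneg_right (h.al_mono (mul_le_mul_of_nonneg_left htt hc.le)) hx.le

theorem rgs_aK_nn (h : S.Ok Csc) (hx : 0 < x) (t : ℝ) : 0 ≤ S.aK T x t :=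
  div_nonneg (h.al_nn _) hx.le

/-- the rescaling maps `[0,R]` into `[0,tau]` -/
theorem rgs_maps (hT : 0 < T) (hx : 0 < x) {R : ℝ} (hR : T * x * R ≤ S.tau) :
    MapsTo (fun t => T * x * t) (Icc 0 R) (Icc 0 S.tau) := by
  intro t ht
  have hc : 0 < T * x := mul_pos hT hx
  exact ⟨mul_nonneg hc.le ht.1, (mul_le_mul_of_nonneg_left ht.2 hc.le).trans hR⟩

theorem rgs_P_cont (h : S.Ok Csc) (hT : 0 < T) (hx : 0 < x) {R : ℝ} (hR : T * x * R ≤ S.tau) :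
    ContinuousOn (S.P T x) (Icc 0 R) := by
  have h1 : ContinuousOn (fun t => S.N3 (T * x * t)) (Icc 0 R) :=
    h.N3_cont.comp (by fun_prop) (rgs_maps hT hx hR)
  exact (continuousOn_const.mul h1).div_const x

theorem rgs_Bc_cont (h : S.Ok Csc) (hT : 0 < T) (hx : 0 < x) {R : ℝ} (hR : T * x * R ≤ S.tau) :
    ContinuousOn (S.Bc T x) (Icc 0 R) := by
  have h1 : ContinuousOn (fun t => S.M3 (T * x * t)) (Icc 0 R) :=
    h.M3_cont.comp (by fun_prop) (rgs_maps hT hx hR)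
  exact continuousOn_const.mul h1

theorem rgs_g_eq (h : S.Ok Csc) (hT : 0 < T) (hx : 0 < x) {R : ℝ} (hR : T * x * R ≤ S.tau) (t : ℝ) (h0 : 0 ≤ t)
    (ht : t ≤ R) : S.g T x t = ∫ τ in (0:ℝ)..t, S.g1 T x τ := by
  have hc : 0 < T * x := mul_pos hT hx
  have hk : T * x * t ∈ Icc 0 S.tau := rgs_maps hT hx hR ⟨h0, ht⟩
  have hsub : uIcc 0 (T * x * t) ⊆ Icc 0 S.tau := by
    rw [uIcc_of_le hk.1]
    exact Icc_subset_Icc le_rfl hk.2
  have hM : IntervalIntegrable S.M2 volume 0 (T * x * t) :=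
    ((rgs_M2_cont h).mono hsub).intervalIntegrable
  have e1 : ∫ τ in (0:ℝ)..t, S.g1 T x τ
      = (T * x)⁻¹ • ∫ k in (T * x * 0)..(T * x * t), (T * S.M2 k - 1) / x ^ 2 :=
    intervalIntegral.integral_comp_mul_left (fun k => (T * S.M2 k - 1) / x ^ 2) hc.ne'
  rw [e1, mul_zero, intervalIntegral.integral_div,
    intervalIntegral.integral_sub (hM.const_mul T) intervalIntegrable_const,
    intervalIntegral.integral_const_mul, ← h.Gam_eq _ hk, intervalIntegral.integral_const, smul_eq_mul,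
    smul_eq_mul, RgSc.g]
  field_simp
  ring

theorem rgs_g1_eq (h : S.Ok Csc) (hT : 0 < T) (hx : 0 < x) {R : ℝ} (hR : T * x * R ≤ S.tau) (t : ℝ) (h0 : 0 ≤ t)
    (ht : t ≤ R) : S.g1 T x t = S.g1 T x 0 + ∫ τ in (0:ℝ)..t, (S.P T x τ - S.Bc T x τ * S.aK T x τ) := by
  have hc : 0 < T * x := mul_pos hT hx
  have hk : T * x * t ∈ Icc 0 S.tau := rgs_maps hT hx hR ⟨h0, ht⟩
  have e0 : (fun τ => S.P T x τ - S.Bc T x τ * S.aK T x τ)
      = fun τ => (fun k => T ^ 2 / x * (S.N3 k - 2 * S.al k * S.M3 k)) (T * x * τ) := by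
    funext τ
    simp only [RgSc.P, RgSc.Bc, RgSc.aK]
    field_simp
  have e1 : ∫ τ in (0:ℝ)..t, (S.P T x τ - S.Bc T x τ * S.aK T x τ)
      = (T * x)⁻¹ • ∫ k in (T * x * 0)..(T * x * t), T ^ 2 / x * (S.N3 k - 2 * S.al k * S.M3 k) := by
    rw [e0]
    exact intervalIntegral.integral_comp_mul_left
      (fun k => T ^ 2 / x * (S.N3 k - 2 * S.al k * S.M3 k)) hc.ne'
  have e2 := h.M2_eq _ hk
  rw [e1, mul_zero, intervalIntegral.integral_const_mul, smul_eq_mul]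
  simp only [RgSc.g1, mul_zero]
  rw [e2]
  field_simp
  ring

/-- `P_n → T^3 a4^2 τ` locally uniformly -/
theorem rgs_P_lim {l : Filter ℕ} {Sn : ℕ → RgSc} {Tn xn : ℕ → ℝ} {Tl a4 : ℝ}
    (hok : ∀ᶠ n in l, (Sn n).Ok Csc) (hT : 0 < Tl) (hTl : Tendsto Tn l (𝓝 Tl)) (hx : ∀ᶠ n in l, 0 < xn n)
    (hxl : Tendsto xn l (𝓝 0)) (ha : Tendsto (fun n => (Sn n).a4) l (𝓝 a4))
    (htau : ∀ C : ℝ, ∀ᶠ n in l, Tn n * xn n * C ≤ (Sn n).tau) (C : ℝ) :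
    TendstoUniformlyOn (fun n => (Sn n).P (Tn n) (xn n)) (fun τ => Tl ^ 3 * a4 ^ 2 * τ) l (Icc 0 C) := by
  rw [Metric.tendstoUniformlyOn_iff]
  intro ε hε
  have l1 : Tendsto (fun n => |Tl ^ 3 * a4 ^ 2 - Tn n ^ 3 * (Sn n).a4 ^ 2| * C
      + Csc * Tn n ^ 4 * xn n * C ^ 2) l (𝓝 (|Tl ^ 3 * a4 ^ 2 - Tl ^ 3 * a4 ^ 2| * C
      + Csc * Tl ^ 4 * 0 * C ^ 2)) :=
    (((tendsto_const_nhds.sub ((hTl.pow 3).mul (ha.pow 2))).abs).mul_const C).add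
      (((tendsto_const_nhds.mul (hTl.pow 4)).mul hxl).mul_const _)
  have l2 : |Tl ^ 3 * a4 ^ 2 - Tl ^ 3 * a4 ^ 2| * C + Csc * Tl ^ 4 * 0 * C ^ 2 = 0 := by simp
  rw [l2] at l1
  filter_upwards [hok, hx, hTl.eventually (lt_mem_nhds hT), htau C, l1.eventually (gt_mem_nhds hε)]
    with n ok hx hTn htau hsmall τ hτ
  have hk := rgs_maps (S := Sn n) hTn hx htau hτ
  have h1 := ok.N3_exp _ hk
  simp only at hk h1
  rw [Real.dist_eq, RgSc.P]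
  have e1 : Tl ^ 3 * a4 ^ 2 * τ - Tn n ^ 2 * (Sn n).N3 (Tn n * xn n * τ) / xn n
      = (Tl ^ 3 * a4 ^ 2 - Tn n ^ 3 * (Sn n).a4 ^ 2) * τ
        - Tn n ^ 2 / xn n * ((Sn n).N3 (Tn n * xn n * τ) - (Sn n).a4 ^ 2 * (Tn n * xn n * τ)) := by
    field_simp
    ring
  rw [e1]
  have b1 : |(Tl ^ 3 * a4 ^ 2 - Tn n ^ 3 * (Sn n).a4 ^ 2) * τ|
      ≤ |Tl ^ 3 * a4 ^ 2 - Tn n ^ 3 * (Sn n).a4 ^ 2| * C := by
    rw [abs_mul, abs_of_nonneg hτ.1]
    exact mul_le_mul_of_nonneg_left hτ.2 (abs_nonneg _)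
  have hq : 0 < Tn n ^ 2 / xn n := by positivity
  have b2 : |Tn n ^ 2 / xn n * ((Sn n).N3 (Tn n * xn n * τ) - (Sn n).a4 ^ 2 * (Tn n * xn n * τ))|
      ≤ Csc * Tn n ^ 4 * xn n * C ^ 2 := by
    rw [abs_mul, abs_of_pos hq]
    have hCsc : 0 ≤ Csc * (Tn n * xn n * τ) ^ 2 := (abs_nonneg _).trans h1
    have c1 : Tn n ^ 2 / xn n * |(Sn n).N3 (Tn n * xn n * τ) - (Sn n).a4 ^ 2 * (Tn n * xn n * τ)|
        ≤ Tn n ^ 2 / xn n * (Csc * (Tn n * xn n * τ) ^ 2) := mul_le_mul_of_nonneg_left h1 hq.le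
    have c2 : Tn n ^ 2 / xn n * (Csc * (Tn n * xn n * τ) ^ 2) = Csc * Tn n ^ 4 * xn n * τ ^ 2 := by
      field_simp
    rcases eq_or_lt_of_le hτ.1 with h0 | hpos
    · rw [← h0] at c1 c2 hτ
      have : (0:ℝ) ≤ Csc * Tn n ^ 4 * xn n * C ^ 2 := by
        have h2 := ok.N3_exp _ (rgs_maps (S := Sn n) hTn hx htau (right_mem_Icc.mpr hτ.2))
        have h3 : 0 ≤ Csc * (Tn n * xn n * C) ^ 2 := (abs_nonneg _).trans h2
        have h4 : Csc * Tn n ^ 4 * xn n * C ^ 2 = Tn n ^ 2 / xn n * (Csc * (Tn n * xn n * C) ^ 2) := by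
          field_simp
        rw [h4]
        exact mul_nonneg hq.le h3
      rw [c2] at c1
      rw [← h0]
      nlinarith
    · have hCsc0 : 0 ≤ Csc := by
        have : 0 < (Tn n * xn n * τ) ^ 2 := by positivity
        by_contra hneg
        have := mul_neg_of_neg_of_pos (not_le.mp hneg) this
        linarith
      have c3 : Csc * Tn n ^ 4 * xn n * τ ^ 2 ≤ Csc * Tn n ^ 4 * xn n * C ^ 2 :=
        mul_le_mul_of_nonneg_left (pow_le_pow_left₀ hτ.1 hτ.2 2) (by positivity)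
      linarith
  have := abs_sub ((Tl ^ 3 * a4 ^ 2 - Tn n ^ 3 * (Sn n).a4 ^ 2) * τ)
    (Tn n ^ 2 / xn n * ((Sn n).N3 (Tn n * xn n * τ) - (Sn n).a4 ^ 2 * (Tn n * xn n * τ)))
  linarith

/-- `Bc_n → 2 T^2 a2^3` locally uniformly -/
theorem rgs_Bc_lim {l : Filter ℕ} {Sn : ℕ → RgSc} {Tn xn : ℕ → ℝ} {Tl a2 : ℝ}
    (hok : ∀ᶠ n in l, (Sn n).Ok Csc) (hT : 0 < Tl) (hTl : Tendsto Tn l (𝓝 Tl)) (hx : ∀ᶠ n in l, 0 < xn n)
    (hxl : Tendsto xn l (𝓝 0)) (ha : Tendsto (fun n => (Sn n).a2) l (𝓝 a2))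
    (htau : ∀ C : ℝ, ∀ᶠ n in l, Tn n * xn n * C ≤ (Sn n).tau) (C : ℝ) :
    TendstoUniformlyOn (fun n => (Sn n).Bc (Tn n) (xn n)) (fun _ => 2 * Tl ^ 2 * a2 ^ 3) l (Icc 0 C) := by
  rw [Metric.tendstoUniformlyOn_iff]
  intro ε hε
  have l1 : Tendsto (fun n => |2 * Tl ^ 2 * a2 ^ 3 - 2 * Tn n ^ 2 * (Sn n).a2 ^ 3|
      + 2 * Tn n ^ 2 * (Csc * (Tn n * xn n * C))) l (𝓝 (|2 * Tl ^ 2 * a2 ^ 3 - 2 * Tl ^ 2 * a2 ^ 3|
      + 2 * Tl ^ 2 * (Csc * (Tl * 0 * C)))) :=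
    ((tendsto_const_nhds.sub ((tendsto_const_nhds.mul (hTl.pow 2)).mul (ha.pow 3))).abs).add
      ((tendsto_const_nhds.mul (hTl.pow 2)).mul (tendsto_const_nhds.mul ((hTl.mul hxl).mul_const C)))
  have l2 : |2 * Tl ^ 2 * a2 ^ 3 - 2 * Tl ^ 2 * a2 ^ 3| + 2 * Tl ^ 2 * (Csc * (Tl * 0 * C)) = 0 := by simp
  rw [l2] at l1
  filter_upwards [hok, hx, hTl.eventually (lt_mem_nhds hT), htau C, l1.eventually (gt_mem_nhds hε)]
    with n ok hx hTn htau hsmall τ hτ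
  have hk := rgs_maps (S := Sn n) hTn hx htau hτ
  have h1 := ok.M3_exp _ hk
  simp only at hk h1
  have hc : 0 < Tn n * xn n := mul_pos hTn hx
  rw [Real.dist_eq, RgSc.Bc]
  have e1 : 2 * Tl ^ 2 * a2 ^ 3 - 2 * Tn n ^ 2 * (Sn n).M3 (Tn n * xn n * τ)
      = (2 * Tl ^ 2 * a2 ^ 3 - 2 * Tn n ^ 2 * (Sn n).a2 ^ 3)
        - 2 * Tn n ^ 2 * ((Sn n).M3 (Tn n * xn n * τ) - (Sn n).a2 ^ 3) := by ring
  rw [e1]
  have hq : 0 < 2 * Tn n ^ 2 := by positivity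
  have b2 : |2 * Tn n ^ 2 * ((Sn n).M3 (Tn n * xn n * τ) - (Sn n).a2 ^ 3)|
      ≤ 2 * Tn n ^ 2 * (Csc * (Tn n * xn n * C)) := by
    rw [abs_mul, abs_of_pos hq]
    refine mul_le_mul_of_nonneg_left (h1.trans ?_) hq.le
    rcases eq_or_lt_of_le hτ.1 with h0 | hpos
    · rw [← h0] at hτ ⊢
      have h2 := ok.M3_exp _ (rgs_maps (S := Sn n) hTn hx htau (right_mem_Icc.mpr hτ.2))
      have h3 : 0 ≤ Csc * (Tn n * xn n * C) := (abs_nonneg _).trans h2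
      simpa using h3
    · have hCsc0 : 0 ≤ Csc := by
        have : 0 < Tn n * xn n * τ := by positivity
        by_contra hneg
        have := mul_neg_of_neg_of_pos (not_le.mp hneg) this
        have := (abs_nonneg _).trans h1
        linarith
      exact mul_le_mul_of_nonneg_left (mul_le_mul_of_nonneg_left hτ.2 hc.le) hCsc0
  have := abs_sub (2 * Tl ^ 2 * a2 ^ 3 - 2 * Tn n ^ 2 * (Sn n).a2 ^ 3)
    (2 * Tn n ^ 2 * ((Sn n).M3 (Tn n * xn n * τ) - (Sn n).a2 ^ 3))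
  linarith

end Claimed.Agent.R286
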