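import Claimed.Agent.R286.Rig.PhyReg
import Claimed.Agent.R286.Rig.Main

/-!
# Row 286, unit RIG, file 15: PE Theorem 5.1 and Lemma 5.5 in unscaled variables          (architect + owner helper24)

`rgw_hyp : RgPhyHyp → RgHyp` (glue of the leaves of `PhyLim`, `PhyReg`), then `rg_main`, `rg_lin`.
The slope is `1/κ = B/A = 2 a2^3/(T a4^2)`: it depends only on the limits of `T_n`, `V_zz(0,0)`, `V_zzzz(0,0)` (decision D2: bounds of `κ` = bounds of PE Lemma 5.3).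
-/

set_option autoImplicit false

namespace Claimed.Agent.R286

open MeasureTheory Filter Set Topology

variable {𝒰 : Ultrafilter ℕ} {E : ℕ → RgPhy} {T a2 a4 : ℝ} {F Pf : ℝ → ℝ}

theorem rgw_hyp (h : RgPhyHyp (𝒰 : Filter ℕ) E T a2 a4 F Pf) :
    RgHyp (𝒰 : Filter ℕ) (fun n => (E n).toDat) T (T ^ 3 * a4 ^ 2) (2 * T ^ 2 * a2 ^ 3) where
  T_pos := h.T_pos
  A_pos := mul_pos (pow_pos h.T_pos 3) (by have := h.a4_ne; positivity)
  B_pos := mul_pos (mul_pos two_pos (pow_pos h.T_pos 2)) (pow_pos h.a2_pos 3)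
  ok := rgw_ev h
  x_lim := h.x_lim
  T_lim := h.T_lim
  R_lim := rgw_R_lim h
  ell_lim := rgw_ell_lim h
  a0_lim := rgw_a0_lim h
  raw := rgw_raw h
  rho_bd := rgw_rho_bd h
  z_lim := rgw_z_lim h
  dl_rad := rgw_dl_rad h
  rho_rad := rgw_rho_rad h
  dl_mass := rgw_dl_mass h
  rho_mass := rgw_rho_mass h
  floor_mass := rgw_floor_mass h
  J_dist := rgw_J_dist h
  P_lim := rgw_P_lim h
  Bc_lim := rgw_Bc_lim h
  regime := rgw_regime h

/-- **PE Theorem 5.1** (28), along an ultrafilter, unscaled.   TEX[PE:prof:direct-profile] TEX[PE:prof:scalar-compactness] TEX[PE:prof:virtual-potential] -/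
theorem rgw_main (h : RgPhyHyp (𝒰 : Filter ℕ) E T a2 a4 F Pf) (v1 v2 : ℝ) (hv1 : 0 < v1) (hv : v1 ≤ v2) :
    TendstoUniformlyOn (fun n v => (E n).r ((E n).x * v) / (E n).x) (fun v => 2 * a2 ^ 3 / (T * a4 ^ 2) * v)
      (𝒰 : Filter ℕ) (Icc v1 v2) := by
  have h1 := (rg_main (rgw_hyp h)).2 v1 v2 hv1 hv
  have h2 : (2 * T ^ 2 * a2 ^ 3) / (T ^ 3 * a4 ^ 2) = 2 * a2 ^ 3 / (T * a4 ^ 2) := by
    have := h.T_pos.ne'
    have := h.a4_ne
    field_simp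
  rw [h2] at h1
  exact h1

/-- (28) in the words of `P6ImpDirect` (Pe6/Imports): pointwise, slope `1/κ`, `κ = T a4^2/(2 a2^3)`.   TEX[PE:prof:direct-profile] -/
theorem rgw_main_pt (h : RgPhyHyp (𝒰 : Filter ℕ) E T a2 a4 F Pf) (v : ℝ) (hv : 0 < v) :
    Tendsto (fun n => (E n).r ((E n).x * v) / (E n).x) (𝒰 : Filter ℕ) (𝓝 (v / (T * a4 ^ 2 / (2 * a2 ^ 3)))) := by
  have h1 := (rgw_main h v v hv le_rfl).tendsto_at (x := v) ⟨le_rfl, le_rfl⟩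
  have h2 : v / (T * a4 ^ 2 / (2 * a2 ^ 3)) = 2 * a2 ^ 3 / (T * a4 ^ 2) * v := by
    have := h.T_pos.ne'
    have := h.a4_ne
    have := h.a2_pos.ne'
    field_simp
  rw [h2]
  exact h1

/-- **PE Lemma 5.5** (uniform scalar linearisation), unscaled: `sup_{0 ≤ q ≤ C x} |Γ^(q) - q| = O(x^3)`.   TEX[PE:prof:low-clock-linearization] -/
theorem rgw_lin (h : RgPhyHyp (𝒰 : Filter ℕ) E T a2 a4 F Pf) (C : ℝ) :
    ∃ M : ℝ, ∀ᶠ n in (𝒰 : Filter ℕ), ∀ q ∈ Icc (0:ℝ) (C * (E n).x), |(E n).Gm q - q| ≤ M * (E n).x ^ 3 := by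
  obtain ⟨M, hM⟩ := rg_lin (rgw_hyp h) C
  obtain ⟨c1, C1, t1, Cth, -, -, -, -, hok⟩ := rgw_ev h
  refine ⟨M, ?_⟩
  filter_upwards [hM, hok] with n hn hk q hq
  have hx : 0 < (E n).x := hk.x_pos
  have h1 := hn.2 (q / (E n).x) ⟨div_nonneg hq.1 hx.le, by rw [div_le_iff₀ hx]; exact hq.2⟩
  have h2 : (E n).toDat.g (q / (E n).x) = ((E n).Gm q - q) / (E n).x ^ 3 := by
    show ((E n).Gm ((E n).x * (q / (E n).x)) - (E n).x * (q / (E n).x)) / (E n).x ^ 3 = _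
    rw [mul_div_cancel₀ _ hx.ne']
  rw [h2, abs_div, abs_of_pos (pow_pos hx 3), div_le_iff₀ (pow_pos hx 3)] at h1
  exact h1

/-- calibration of the linear term (PE l.326-345), unscaled: `|Γ^'(0) - 1| = O(x^2)`.   TEX[PE:prof:low-clock-linearization] -/
theorem rgw_lin_slope (h : RgPhyHyp (𝒰 : Filter ℕ) E T a2 a4 F Pf) :
    ∃ M : ℝ, ∀ᶠ n in (𝒰 : Filter ℕ), |(E n).Gm1 0 - 1| ≤ M * (E n).x ^ 2 := by
  obtain ⟨M, hM⟩ := rg_lin (rgw_hyp h) 0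
  obtain ⟨c1, C1, t1, Cth, -, -, -, -, hok⟩ := rgw_ev h
  refine ⟨M, ?_⟩
  filter_upwards [hM, hok] with n hn hk
  have hx : 0 < (E n).x := hk.x_pos
  have h1 := hn.1
  have h2 : (E n).toDat.g1 0 = ((E n).Gm1 0 - 1) / (E n).x ^ 2 := by
    show ((E n).Gm1 ((E n).x * 0) - 1) / (E n).x ^ 2 = _
    rw [mul_zero]
  rw [h2, abs_div, abs_of_pos (pow_pos hx 2), div_le_iff₀ (pow_pos hx 2)] at h1
  exact h1

end Claimed.Agent.R286
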