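import Claimed.Agent.R286.Rig.Sel

/-!
# Row 286, unit RIG, file 5: the scalar clock has the same limiting distribution; second derivative of the scalar defect          (architect helper24; proofs helper48)

Paper: PE `profile.tex` l.262-325.
`rg_UK_eq`.  Let `τ > 0` be a continuity point of `U`, `μ > 0`, `ε > 0` with `U(τ ± 2ε)` within `μ` of `U τ`.
 UPPER: if `aK_n τ > U τ + 4μ`: masses `v ∈ (U τ + 2μ, U τ + 4μ)` satisfy `a_n(τ+2ε) < v < aK_n τ`; for `t = r_n v`: `t > τ + 2ε` and (contrapositive of `aK_le`) `k_n t ≤ τ`;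
 a good `v` (`rg_good`) has `k_n t ≥ t - ε > τ`: contradiction.   LOWER (only if `U τ > 0`, `μ < U τ/8`): if `aK_n τ < U τ - 4μ`: masses `v ∈ (U τ - 4μ, U τ - 2μ)`: `aK_n τ < v < a_n(τ-2ε)`,
 `t ≤ τ - 2ε`, `k_n t > τ` (contrapositive of `aK_ge`); a good `v` has `k_n t ≤ t + ε < τ`.
`rg_aK_bdd`: a good radius `t > C + 1` (masses above `C1 (C + 2 + t1)`) has `k_n t > C`, so `aK_n C ≤ a_n t`.
`rg_g1_diff`: `g1 t - g1 0 = ∫_0^t (P - Bc aK)`;  `sup_t |..| ≤ ∫_0^C |P - A τ| + ∫_0^C |Bc - B| aK + B ∫_0^C |aK - UK| + B ∫_0^C |UK - U|`; third term by `rg_mono_L1`, last = 0 (`UK = U` off a countable set).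
-/

set_option autoImplicit false

namespace Claimed.Agent.R286

open MeasureTheory Filter Set Topology

variable {𝒰 : Ultrafilter ℕ} {D : ℕ → RgDat} {T A B : ℝ}

/-- limiting mass profile of the scalar clock -/
noncomputable def rgUK (l : Filter ℕ) (D : ℕ → RgDat) (τ : ℝ) : ℝ := limUnder l (fun n => (D n).aK τ)

theorem rg_aK_bdd (h : RgHyp (𝒰 : Filter ℕ) D T A B) (C : ℝ) :
    ∃ M : ℝ, ∀ᶠ n in (𝒰 : Filter ℕ), ∀ τ, τ ≤ C → (D n).aK τ ≤ M := by
  obtain ⟨c1, C1, t1, Cth, hc1, hC1, ht1, hCth, hok⟩ := h.ok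
  obtain ⟨ts, hts⟩ : ∃ ts : ℝ, ts = max C 0 + 2 + t1 := ⟨_, rfl⟩
  have hC0 : C ≤ max C 0 := le_max_left _ _
  have h00 : (0 : ℝ) ≤ max C 0 := le_max_right _ _
  have hv1 : 0 < C1 * ts := by
    have : 0 < ts := by rw [hts]; linarith
    positivity
  have hg := rg_good h (C1 * ts) (C1 * ts + 1) 1 hv1 (by linarith) one_pos
  have hR := h.R_lim.eventually_ge_atTop ts
  refine ⟨C1 * ts + 1, ?_⟩
  filter_upwards [hok, hg, hR] with n ok hgn hRn τ hτ
  obtain ⟨v, ⟨hv1', hv2'⟩, hav, hg0, hgR, -, -, hk, -⟩ := hgn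
  have hlt : ts < (D n).r v := by
    by_contra hcon
    have hle : (D n).r v ≤ ts := not_lt.mp hcon
    have h1 := ok.a_mono hle
    have h2 := (ok.outer ts (by rw [hts]; linarith) hRn).2
    linarith
  have hk' := (abs_le.mp hk).1
  have hCk : C < (D n).k ((D n).r v) := by
    rw [hts] at hlt
    linarith
  have h3 := ok.aK_le _ C hg0 hgR hCk
  have h4 := ok.aK_mono hτ
  linarith

theorem rg_UK_lim (h : RgHyp (𝒰 : Filter ℕ) D T A B) (τ : ℝ) :
    Tendsto (fun n => (D n).aK τ) (𝒰 : Filter ℕ) (𝓝 (rgUK (𝒰 : Filter ℕ) D τ)) := by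
  obtain ⟨c1, C1, t1, Cth, hc1, hC1, ht1, hCth, hok⟩ := h.ok
  obtain ⟨M, hM⟩ := rg_aK_bdd h τ
  refine rg_ulim 𝒰 (fun n => (D n).aK τ) M ?_
  filter_upwards [hok, hM] with n ok hn
  rw [abs_of_nonneg (ok.aK_nn τ)]
  exact hn τ le_rfl

theorem rg_UK_eq (h : RgHyp (𝒰 : Filter ℕ) D T A B) (τ : ℝ) (hτ : 0 < τ)
    (hc : ContinuousAt (rgU (𝒰 : Filter ℕ) D) τ) : rgUK (𝒰 : Filter ℕ) D τ = rgU (𝒰 : Filter ℕ) D τ := by
  obtain ⟨c1, C1, t1, Cth, hc1, hC1, ht1, hCth, hok⟩ := h.ok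
  have hUK := rg_UK_lim h τ
  have hU0 := rg_U_nn h τ
  rw [Metric.continuousAt_iff] at hc
  apply le_antisymm
  · -- upper bound
    refine le_of_forall_pos_le_add fun η hη => ?_
    obtain ⟨μ, hμ⟩ : ∃ μ : ℝ, μ = η / 4 := ⟨_, rfl⟩
    have hμ0 : 0 < μ := by rw [hμ]; positivity
    obtain ⟨δ, hδ, hδ'⟩ := hc μ hμ0
    obtain ⟨ε, hε⟩ : ∃ ε : ℝ, ε = δ / 4 := ⟨_, rfl⟩
    have hε0 : 0 < ε := by rw [hε]; positivity
    have h1 : rgU (𝒰 : Filter ℕ) D (τ + 2 * ε) < rgU (𝒰 : Filter ℕ) D τ + 2 * μ := by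
      have := hδ' (x := τ + 2 * ε) (by
        rw [Real.dist_eq]
        have : τ + 2 * ε - τ = 2 * ε := by ring
        rw [this, abs_of_pos (by positivity), hε]; linarith)
      rw [Real.dist_eq] at this
      have := (abs_lt.mp this).2
      linarith
    have h2 := (tendsto_order.1 (rg_U_lim h (τ + 2 * ε))).2 _ h1
    have hg := rg_good h (rgU (𝒰 : Filter ℕ) D τ + 2 * μ) (rgU (𝒰 : Filter ℕ) D τ + 4 * μ) ε
      (by linarith) (by linarith) hε0
    refine le_of_tendsto hUK ?_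
    filter_upwards [hok, h2, hg] with n ok h2n hgn
    obtain ⟨v, ⟨hv1', hv2'⟩, hav, hg0, hgR, -, -, hk, -⟩ := hgn
    have hlt : τ + 2 * ε < (D n).r v := by
      by_contra hcon
      have h3 := ok.a_mono (not_lt.mp hcon)
      linarith
    have hk' := (abs_le.mp hk).1
    have h3 := ok.aK_le _ τ hg0 hgR (by linarith)
    rw [hμ] at hv2'
    linarith
  · -- lower bound
    refine le_of_forall_pos_le_add fun η hη => ?_
    obtain ⟨μ, hμ⟩ : ∃ μ : ℝ, μ = η / 4 := ⟨_, rfl⟩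
    have hμ0 : 0 < μ := by rw [hμ]; positivity
    have hUK0 : 0 ≤ rgUK (𝒰 : Filter ℕ) D τ :=
      ge_of_tendsto hUK (hok.mono fun n ok => ok.aK_nn τ)
    rcases le_or_gt (rgU (𝒰 : Filter ℕ) D τ - 4 * μ) 0 with hsmall | hbig
    · rw [hμ] at hsmall
      linarith
    obtain ⟨δ, hδ, hδ'⟩ := hc μ hμ0
    obtain ⟨ε, hε⟩ : ∃ ε : ℝ, ε = δ / 4 := ⟨_, rfl⟩
    have hε0 : 0 < ε := by rw [hε]; positivity
    have h1 : rgU (𝒰 : Filter ℕ) D τ - 2 * μ < rgU (𝒰 : Filter ℕ) D (τ - 2 * ε) := by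
      have := hδ' (x := τ - 2 * ε) (by
        rw [Real.dist_eq]
        have : τ - 2 * ε - τ = -(2 * ε) := by ring
        rw [this, abs_neg, abs_of_pos (by positivity), hε]; linarith)
      rw [Real.dist_eq] at this
      have := (abs_lt.mp this).1
      linarith
    have h2 := (tendsto_order.1 (rg_U_lim h (τ - 2 * ε))).1 _ h1
    have hg := rg_good h (rgU (𝒰 : Filter ℕ) D τ - 4 * μ) (rgU (𝒰 : Filter ℕ) D τ - 2 * μ) ε
      hbig (by linarith) hε0
    have : rgU (𝒰 : Filter ℕ) D τ - η ≤ rgUK (𝒰 : Filter ℕ) D τ := by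
      refine ge_of_tendsto hUK ?_
      filter_upwards [hok, h2, hg] with n ok h2n hgn
      obtain ⟨v, ⟨hv1', hv2'⟩, hav, hg0, hgR, -, -, hk, -⟩ := hgn
      have hlt : (D n).r v < τ - 2 * ε := by
        by_contra hcon
        have h3 := ok.a_mono (not_lt.mp hcon)
        linarith
      have hk' := (abs_le.mp hk).2
      have h3 := ok.aK_ge _ τ hg0 hgR (by linarith)
      rw [hμ] at hv1'
      linarith
    linarith

theorem rg_UK_mono (h : RgHyp (𝒰 : Filter ℕ) D T A B) : Monotone (rgUK (𝒰 : Filter ℕ) D) := by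
  obtain ⟨c1, C1, t1, Cth, hc1, hC1, ht1, hCth, hok⟩ := h.ok
  intro x y hxy
  exact le_of_tendsto_of_tendsto (rg_UK_lim h x) (rg_UK_lim h y)
    (hok.mono fun n ok => ok.aK_mono hxy)

theorem rg_UK_ae (h : RgHyp (𝒰 : Filter ℕ) D T A B) :
    ∀ᵐ τ : ℝ, 0 < τ → rgUK (𝒰 : Filter ℕ) D τ = rgU (𝒰 : Filter ℕ) D τ := by
  have hnull := (rg_U_mono h).countable_not_continuousAt.measure_zero volume
  rw [ae_iff]
  refine measure_mono_null ?_ hnull
  intro τ hτ
  simp only [mem_setOf_eq, Classical.not_imp] at hτ ⊢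
  intro hc
  exact hτ.2 (rg_UK_eq h τ hτ.1 hc)

theorem rg_g1_diff (h : RgHyp (𝒰 : Filter ℕ) D T A B) (C : ℝ) :
    TendstoUniformlyOn (fun n t => (D n).g1 t - (D n).g1 0)
      (fun t => ∫ τ in (0:ℝ)..t, (A * τ - B * rgU (𝒰 : Filter ℕ) D τ)) (𝒰 : Filter ℕ) (Icc 0 C) := by
  rcases lt_or_ge C 0 with hC | hC
  · rw [Icc_eq_empty (not_le.mpr hC)]
    exact tendstoUniformlyOn_empty
  obtain ⟨c1, C1, t1, Cth, hc1, hC1, ht1, hCth, hok⟩ := h.ok
  obtain ⟨M, hM⟩ := rg_aK_bdd h C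
  have hB0 := h.B_pos
  rw [Metric.tendstoUniformlyOn_iff]
  intro ε hε
  obtain ⟨δ, hδ0, hδ⟩ : ∃ δ > 0, (δ + δ * |M|) * C < ε / 2 := by
    have hpos : 0 < 2 * ((1 + |M|) * C + 1) := by positivity
    refine ⟨ε / (2 * ((1 + |M|) * C + 1)), by positivity, ?_⟩
    have e : (ε / (2 * ((1 + |M|) * C + 1)) + ε / (2 * ((1 + |M|) * C + 1)) * |M|) * C
        = ε / 2 * (((1 + |M|) * C) / ((1 + |M|) * C + 1)) := by
      field_simp
    rw [e]
    have h1 : ((1 + |M|) * C) / ((1 + |M|) * C + 1) < 1 := by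
      rw [div_lt_one (by positivity)]
      linarith
    have : 0 < ε / 2 := by positivity
    nlinarith
  have hP := Metric.tendstoUniformlyOn_iff.1 (h.P_lim C) δ hδ0
  have hBc := Metric.tendstoUniformlyOn_iff.1 (h.Bc_lim C) δ hδ0
  have hL1 := rg_mono_L1 (𝒰 : Filter ℕ) (fun n => (D n).aK) (rgUK (𝒰 : Filter ℕ) D) 0 C hC
    (hok.mono fun n ok => ok.aK_mono.monotoneOn _) (fun t _ => rg_UK_lim h t)
  have hL1' := (tendsto_order.1 (hL1.const_mul B)).2 (ε / 2) (by simpa using half_pos hε)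
  have hR := h.R_lim.eventually_ge_atTop C
  have hUKm := rg_UK_mono h
  have hae := rg_UK_ae h
  filter_upwards [hok, hM, hP, hBc, hL1', hR] with n ok hMn hPn hBn hLn hRn t ht
  have htR : t ≤ (D n).R := ht.2.trans hRn
  rw [ok.g1_eq t ht.1 htR]
  have e1 : ∫ τ in (0:ℝ)..t, (A * τ - B * rgU (𝒰 : Filter ℕ) D τ)
      = ∫ τ in (0:ℝ)..t, (A * τ - B * rgUK (𝒰 : Filter ℕ) D τ) := by
    refine intervalIntegral.integral_congr_ae ?_
    filter_upwards [hae] with τ hτ hmem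
    rw [uIoc_of_le ht.1] at hmem
    rw [hτ hmem.1]
  have i1 : IntervalIntegrable (fun τ => A * τ - B * rgUK (𝒰 : Filter ℕ) D τ) volume 0 t :=
    (by fun_prop : Continuous fun τ : ℝ => A * τ).intervalIntegrable 0 t |>.sub
      ((hUKm.intervalIntegrable).const_mul B)
  have hsub : uIcc 0 t ⊆ Icc 0 (D n).R := by
    rw [uIcc_of_le ht.1]
    exact Icc_subset_Icc le_rfl htR
  have i2 : IntervalIntegrable (fun τ => (D n).P τ - (D n).Bc τ * (D n).aK τ) volume 0 t :=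
    ((ok.P_cont.mono hsub).intervalIntegrable).sub
      ((ok.aK_mono.intervalIntegrable).continuousOn_mul (ok.Bc_cont.mono hsub))
  have iG : IntervalIntegrable
      (fun τ => (δ + δ * |M|) + B * |(D n).aK τ - rgUK (𝒰 : Filter ℕ) D τ|) volume 0 C :=
    intervalIntegrable_const.add
      ((((ok.aK_mono.intervalIntegrable).sub hUKm.intervalIntegrable).abs).const_mul B)
  have e2 : (D n).g1 0 + (∫ τ in (0:ℝ)..t, ((D n).P τ - (D n).Bc τ * (D n).aK τ)) - (D n).g1 0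
      = ∫ τ in (0:ℝ)..t, ((D n).P τ - (D n).Bc τ * (D n).aK τ) := by ring
  rw [e1, e2, Real.dist_eq, ← intervalIntegral.integral_sub i1 i2, ← Real.norm_eq_abs]
  have b1 : ‖∫ τ in (0:ℝ)..t, ((A * τ - B * rgUK (𝒰 : Filter ℕ) D τ)
        - ((D n).P τ - (D n).Bc τ * (D n).aK τ))‖
      ≤ ∫ τ in (0:ℝ)..t, ((δ + δ * |M|) + B * |(D n).aK τ - rgUK (𝒰 : Filter ℕ) D τ|) := by
    refine intervalIntegral.norm_integral_le_of_norm_le ht.1 (Eventually.of_forall ?_)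
      (iG.mono_set ?_)
    · intro τ hτ
      have hτC : τ ∈ Icc (0:ℝ) C := ⟨hτ.1.le, hτ.2.trans ht.2⟩
      have p1 := hPn τ hτC
      have p2 := hBn τ hτC
      rw [Real.dist_eq] at p1 p2
      have p3 := hMn τ hτC.2
      have p4 := ok.aK_nn τ
      have p5 : (D n).aK τ ≤ |M| := p3.trans (le_abs_self M)
      have e3 : (A * τ - B * rgUK (𝒰 : Filter ℕ) D τ) - ((D n).P τ - (D n).Bc τ * (D n).aK τ)
          = (A * τ - (D n).P τ) - (B - (D n).Bc τ) * (D n).aK τ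
            + B * ((D n).aK τ - rgUK (𝒰 : Filter ℕ) D τ) := by ring
      rw [e3, Real.norm_eq_abs]
      have q1 : |(B - (D n).Bc τ) * (D n).aK τ| ≤ δ * |M| := by
        rw [abs_mul, abs_of_nonneg p4]
        exact mul_le_mul p2.le p5 p4 hδ0.le
      have q2 : |B * ((D n).aK τ - rgUK (𝒰 : Filter ℕ) D τ)|
          = B * |(D n).aK τ - rgUK (𝒰 : Filter ℕ) D τ| := by
        rw [abs_mul, abs_of_pos hB0]
      have q3 := abs_add_le ((A * τ - (D n).P τ) - (B - (D n).Bc τ) * (D n).aK τ)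
        (B * ((D n).aK τ - rgUK (𝒰 : Filter ℕ) D τ))
      have q4 := abs_sub (A * τ - (D n).P τ) ((B - (D n).Bc τ) * (D n).aK τ)
      linarith
    · rw [uIcc_of_le ht.1, uIcc_of_le hC]
      exact Icc_subset_Icc le_rfl ht.2
  have b2 : ∫ τ in (0:ℝ)..t, ((δ + δ * |M|) + B * |(D n).aK τ - rgUK (𝒰 : Filter ℕ) D τ|)
      ≤ ∫ τ in (0:ℝ)..C, ((δ + δ * |M|) + B * |(D n).aK τ - rgUK (𝒰 : Filter ℕ) D τ|) := by
    refine intervalIntegral.integral_mono_interval le_rfl ht.1 ht.2 (Eventually.of_forall ?_) iG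
    intro τ
    have : 0 ≤ B * |(D n).aK τ - rgUK (𝒰 : Filter ℕ) D τ| := by positivity
    have : 0 ≤ δ + δ * |M| := by positivity
    simp only [Pi.zero_apply]
    linarith
  have e4 : ∫ τ in (0:ℝ)..C, ((δ + δ * |M|) + B * |(D n).aK τ - rgUK (𝒰 : Filter ℕ) D τ|)
      = (δ + δ * |M|) * C + B * ∫ τ in (0:ℝ)..C, |(D n).aK τ - rgUK (𝒰 : Filter ℕ) D τ| := by
    rw [intervalIntegral.integral_add intervalIntegrable_const
      ((((ok.aK_mono.intervalIntegrable).sub hUKm.intervalIntegrable).abs).const_mul B),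
      intervalIntegral.integral_const, intervalIntegral.integral_const_mul, smul_eq_mul]
    ring
  linarith

/-- equation lemmas are generated HERE, once (CI286: no on-demand copies in the user files) -/
theorem rg_clock_eqns_cite : True := by
  have := @rgUK.eq_1
  trivial

end Claimed.Agent.R286
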