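import Mathlib

/-!
# Row 286, unit RIG (abstract profile rigidity), file 1: data and hypotheses          (helper24)

Paper: PE `profile.tex` l.1-570 (Theorem 5.1, Lemmas 5.2, 5.4, 5.5, 5.6).  The SAME proof is re-run by LL `06-global.tex` l.102 (moving temperature) and
LL `07-budgets.tex` l.985-1140 (changed floor and cap).  So it is formalised ONCE, for abstract data: no spins, no Gaussians, no trees.

Everything is RESCALED by the test scale `x` of the `n`-th system:  radius `t = r/x`, mass `v = u/x`.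
* `a t = alpha(x t)/x` (inverse quantile), `r v = r(x v)/x` (quantile), `s t = S(alpha(x t))/x`, `dl t = D/x`, `e t = e(x t)/x^2`, `p t = p(x t)`,
* `z t = ((b0 - T) S + h0)/x^3` (bare clock remainder), `k t = K/(T x)` (scalar clock), `aK tau = alpha_K(x tau)/x` (mass profile of the scalar clock),
* `g t = (Gamma(T x t) - x t)/x^3`, `g1 = g'`, `g1' = P - Bc * aK` with `P = T^2 E V_zzz^2/x`, `Bc = 2 T^2 E V_zz^3`,
* `H` first variation potential (any normalisation), `H' = J * gam`, `gam = G(x t)/x^3`,  `ell` = bound for rescaled cap widths (wall included).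
Limits are taken along an arbitrary filter `l` on the index set (frame D1 of the ledger: an ultrafilter).
-/

set_option autoImplicit false

namespace Claimed.Agent.R286

open MeasureTheory Filter Set Topology

/-- the rescaled data of one system -/
structure RgDat where
  x : ℝ
  T : ℝ
  R : ℝ
  ell : ℝ
  a : ℝ → ℝ
  r : ℝ → ℝ
  s : ℝ → ℝ
  dl : ℝ → ℝ
  e : ℝ → ℝ
  p : ℝ → ℝ
  z : ℝ → ℝ
  k : ℝ → ℝ
  aK : ℝ → ℝ
  g : ℝ → ℝ
  g1 : ℝ → ℝ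
  P : ℝ → ℝ
  Bc : ℝ → ℝ
  H : ℝ → ℝ
  J : ℝ → ℝ

namespace RgDat

/-- radius band: bounded radius, mass between `c` and `C` -/
def band (d : RgDat) (c C : ℝ) : Set ℝ := {t | 0 ≤ t ∧ t ≤ C ∧ c ≤ d.a t ∧ d.a t ≤ C}

/-- the masses of the band whose radius satisfies `Q` -/
def mset (d : RgDat) (c C : ℝ) (Q : ℝ → Prop) : Set ℝ := {v | c ≤ v ∧ v ≤ C ∧ d.r v ≤ C ∧ Q (d.r v)}

/-- closure error `(S - Gamma(K))/x^3`, written through the exact closure identity -/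
noncomputable def rho (d : RgDat) (t : ℝ) : ℝ := d.e t * (d.s t - t) / d.T - d.g (d.k t) - d.z t / d.T

/-- stationarity quantity `G(x t)/x^3` -/
noncomputable def gam (d : RgDat) (t : ℝ) : ℝ :=
  d.e t * ((2 - d.p t) * t - 2 * (1 - d.p t) * d.s t - d.p t * (d.s t ^ 2 + d.dl t ^ 2) / t)

/-- structural facts of one system; `c1 C1 t1` outer comparability, `Cth` bound of the unscaled strength -/
structure Ok (d : RgDat) (c1 C1 t1 Cth : ℝ) : Prop where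
  x_pos : 0 < d.x
  T_pos : 0 < d.T
  ell_nn : 0 ≤ d.ell
  R_ge : t1 ≤ d.R
  a_mono : Monotone d.a
  a_nn : ∀ t, 0 ≤ d.a t
  s_mono : Monotone d.s
  s_nn : ∀ t, 0 ≤ d.s t
  k_mono : Monotone d.k
  k_nn : ∀ t, 0 ≤ d.k t
  aK_mono : Monotone d.aK
  aK_nn : ∀ t, 0 ≤ d.aK t
  dl_nn : ∀ t, 0 ≤ d.dl t
  dl_meas : Measurable d.dl
  e_meas : Measurable d.e
  p_meas : Measurable d.p
  z_meas : Measurable d.z
  J_meas : Measurable d.J
  /-- outer comparability -/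
  outer : ∀ t, t1 ≤ t → t ≤ d.R → c1 * t ≤ d.a t ∧ d.a t ≤ C1 * t
  /-- `r` inverts `a` on the working masses -/
  quant : ∀ v, d.a 0 < v → v ≤ d.a d.R → 0 ≤ d.r v ∧ d.r v ≤ d.R ∧ d.a (d.r v) = v
  e_pos : ∀ t, 0 ≤ t → t ≤ d.R → 0 < d.e t
  e_le : ∀ t, 0 ≤ t → t ≤ d.R → d.x ^ 2 * d.e t ≤ Cth
  p_nn : ∀ t, 0 ≤ d.p t
  p_le : ∀ t, d.p t ≤ 1
  /-- `K/T - r = (1 - e/T)(S - r) + ((b0-T)S + h0)/T` -/
  k_eq : ∀ t, 0 ≤ t → t ≤ d.R → d.a 0 < d.a t →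
    d.k t = t + (1 - d.x ^ 2 * d.e t / d.T) * (d.s t - t) + d.x ^ 2 * d.z t / d.T
  /-- `aK` is the distribution function of `k` under the mass measure -/
  aK_ge : ∀ t τ, 0 ≤ t → t ≤ d.R → d.k t ≤ τ → d.a t ≤ d.aK τ
  aK_le : ∀ t τ, 0 ≤ t → t ≤ d.R → τ < d.k t → d.aK τ ≤ d.a t
  P_cont : ContinuousOn d.P (Icc 0 d.R)
  Bc_cont : ContinuousOn d.Bc (Icc 0 d.R)
  g_eq : ∀ t, 0 ≤ t → t ≤ d.R → d.g t = ∫ τ in (0:ℝ)..t, d.g1 τ
  g1_eq : ∀ t, 0 ≤ t → t ≤ d.R → d.g1 t = d.g1 0 + ∫ τ in (0:ℝ)..t, (d.P τ - d.Bc τ * d.aK τ)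
  J_pos : ∀ t, 0 < d.J t
  J_mono : ∀ t t', 0 ≤ t → t ≤ t' → t' ≤ d.R → d.J t ≤ d.J t'
  H_int : ∀ t t', 0 ≤ t → t ≤ t' → t' ≤ d.R → d.a 0 < d.a t →
    IntervalIntegrable (fun τ => d.J τ * d.gam τ) volume t t'
  H_eq : ∀ t t', 0 ≤ t → t ≤ t' → t' ≤ d.R → d.a 0 < d.a t →
    d.H t' - d.H t = ∫ τ in t..t', d.J τ * d.gam τ
  /-- a point of a cap has a zero of the potential within `ell` on its right -/
  cap : ∀ t, 0 ≤ t → t + d.ell < d.R → d.H t < 0 → ∃ t', t < t' ∧ t' ≤ t + d.ell ∧ d.H t' = 0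

end RgDat

/-- diverging strength `e(x)/x^2 → ∞`: constant profile on compact bands, sharp mismatch off the floor -/
structure RgDiv (l : Filter ℕ) (D : ℕ → RgDat) : Prop where
  ex : ∃ lam : ℕ → ℝ, Tendsto lam l atTop ∧ Tendsto (fun n => lam n * (D n).ell) l (𝓝 0) ∧
    ∀ C : ℝ, ∀ᶠ n in l, ∀ t, 0 ≤ t → t ≤ C → (D n).e t = lam n ∧ (D n).p t = 0
  rel : ∀ c C : ℝ, 0 < c → Tendsto (fun n => volume ((D n).mset c C
    (fun t => (D n).H t ≤ 0 ∧ (D n).ell < |(D n).s t - t|))) l (𝓝 0)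

/-- bounded strength: the rescaled strength profile and its logarithmic slope converge locally uniformly -/
structure RgBdd (l : Filter ℕ) (D : ℕ → RgDat) : Prop where
  ex : ∃ (h1 pin : ℝ → ℝ) (t0 : ℝ), 0 < t0 ∧ Continuous h1 ∧ Continuous pin ∧ (∀ t, 0 ≤ t → 0 < h1 t) ∧
    (∀ C : ℝ, TendstoUniformlyOn (fun n => (D n).e) h1 l (Icc 0 C)) ∧
    (∀ C : ℝ, TendstoUniformlyOn (fun n => (D n).p) pin l (Icc 0 C)) ∧
    ∀ᶠ n in l, ∀ t, 0 ≤ t → t ≤ t0 → (D n).p t = 0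
  rel : ∀ c C : ℝ, 0 < c → ∃ Crel : ℝ, 0 < Crel ∧ Tendsto (fun n => volume ((D n).mset c C
    (fun t => (D n).H t ≤ 0 ∧ Crel * ((D n).dl t + (D n).ell) < |(D n).s t - t|))) l (𝓝 0)

/-- the hypotheses R0-R8 of the abstract rigidity theorem, along the filter `l` -/
structure RgHyp (l : Filter ℕ) (D : ℕ → RgDat) (T A B : ℝ) : Prop where
  T_pos : 0 < T
  A_pos : 0 < A
  B_pos : 0 < B
  ok : ∃ c1 C1 t1 Cth : ℝ, 0 < c1 ∧ 0 < C1 ∧ 0 < t1 ∧ 0 < Cth ∧ ∀ᶠ n in l, (D n).Ok c1 C1 t1 Cth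
  x_lim : Tendsto (fun n => (D n).x) l (𝓝 0)
  T_lim : Tendsto (fun n => (D n).T) l (𝓝 T)
  R_lim : Tendsto (fun n => (D n).R) l atTop
  ell_lim : Tendsto (fun n => (D n).ell) l (𝓝 0)
  a0_lim : Tendsto (fun n => (D n).a 0) l (𝓝 0)
  /-- R2 raw bounds -/
  raw : ∀ c C : ℝ, 0 < c → ∃ C' : ℝ, ∀ᶠ n in l, ∀ t ∈ (D n).band c C, (D n).s t ≤ C' ∧ (D n).dl t ≤ C'
  /-- R4 uniform closure bound -/
  rho_bd : ∀ c C : ℝ, 0 < c → ∃ C' : ℝ, ∀ᶠ n in l, ∀ t ∈ (D n).band c C, |(D n).rho t| ≤ C'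
  /-- R5 bare clocks -/
  z_lim : ∀ c C ε : ℝ, 0 < c → 0 < ε → ∀ᶠ n in l, ∀ t ∈ (D n).band c C, |(D n).z t| ≤ ε
  /-- R3, R4 in the radius coordinate -/
  dl_rad : ∀ c C : ℝ, 0 < c → Tendsto (fun n => ∫ t in (D n).band c C, (D n).dl t ^ 2) l (𝓝 0)
  rho_rad : ∀ c C : ℝ, 0 < c → Tendsto (fun n => ∫ t in (D n).band c C, |(D n).rho t|) l (𝓝 0)
  /-- R3, R4, R6 in the mass coordinate (convergence in measure is all that is used) -/
  dl_mass : ∀ c C ε : ℝ, 0 < c → 0 < ε →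
    Tendsto (fun n => volume ((D n).mset c C (fun t => ε < (D n).dl t))) l (𝓝 0)
  rho_mass : ∀ c C ε : ℝ, 0 < c → 0 < ε →
    Tendsto (fun n => volume ((D n).mset c C (fun t => ε < |(D n).rho t|))) l (𝓝 0)
  floor_mass : ∀ c C : ℝ, 0 < c → Tendsto (fun n => volume ((D n).mset c C (fun t => 0 < (D n).H t))) l (𝓝 0)
  /-- R7 bounded distortion -/
  J_dist : ∀ c C : ℝ, 0 < c → ∃ Cj : ℝ, ∀ᶠ n in l, ∀ t ∈ (D n).band c C, ∀ t' ∈ (D n).band c C,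
    (D n).J t' ≤ Cj * (D n).J t
  /-- scalar second derivative -/
  P_lim : ∀ C : ℝ, TendstoUniformlyOn (fun n => (D n).P) (fun τ => A * τ) l (Icc 0 C)
  Bc_lim : ∀ C : ℝ, TendstoUniformlyOn (fun n => (D n).Bc) (fun _ => B) l (Icc 0 C)
  /-- R8 -/
  regime : RgDiv l D ∨ RgBdd l D

/-- equation lemmas are generated HERE, once (CI286: no on-demand copies in the user files) -/
theorem rg_defs_eqns_cite : True := by
  have := @RgDat.band.eq_1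
  have := @RgDat.mset.eq_1
  have := @RgDat.rho.eq_1
  have := @RgDat.gam.eq_1
  trivial

end Claimed.Agent.R286
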