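import Claimed.Agent.R286.Rig.Pot

/-!
# Row 286, unit RIG, file 8: endpoint slopes on a gap, diverging strength          (architect helper24; proofs helper52)

Paper: PE `profile.tex` l.451-460, l.531-545.   `F = -2 T G`.
`rg_div_gam`: eventually on `[t',t''] ⊆ band`: `p = 0`, `e = lam`, `gam = 2 lam (t - s) = -2 T_n (rho + g(k) + z/T_n)` (definition of `rho`);  `|s - t| ≤ Cγ/(2 lam) → 0`, so `k - t → 0` uniformly (`k_eq`, `e_le`);
 `∫ |gam + 2 T G| ≤ 2 T_n ∫_band |rho| + 2 (t''-t') sup|z| + 2 (t''-t') sup |T_n g_n(k_n t) - T G t|`  (`rho_rad`, `z_lim`, `rg_g_lim`, uniform continuity of `G`).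
`rg_gap_div`: `G a1 = 0` (`rg_G_supp`).  If `G1 a1 > 0` then `G > 0` on some `(a1,b)` (`rg_G_deriv`), `F < 0` there, against `rg_pot_left`.  If `G1 a2 > 0` then `G < 0` on some `(b,a2)`, `F > 0`, against `rg_pot_right`.
-/

set_option autoImplicit false

namespace Claimed.Agent.R286

open MeasureTheory Filter Set Topology

variable {𝒰 : Ultrafilter ℕ} {D : ℕ → RgDat} {T A B : ℝ}

/-- `gam` through the closure error when the logarithmic slope vanishes -/
theorem rg_div_gam_eq {d : RgDat} (hT : 0 < d.T) {t : ℝ} (hp : d.p t = 0) :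
    d.gam t = -(2 * d.T) * (d.rho t + d.g (d.k t) + d.z t / d.T) := by
  unfold RgDat.gam RgDat.rho
  rw [hp]
  field_simp
  ring

theorem rg_div_gam_eq' {d : RgDat} {t : ℝ} (hp : d.p t = 0) :
    d.gam t = 2 * d.e t * (t - d.s t) := by
  unfold RgDat.gam
  rw [hp]
  ring

/-- distance of the scalar clock to the radius -/
theorem rg_div_k_sub {d : RgDat} {c1 C1 t1 Cth : ℝ} (hok : d.Ok c1 C1 t1 Cth) {t : ℝ} (h0 : 0 ≤ t)
    (hR : t ≤ d.R) (ha : d.a 0 < d.a t) :
    |d.k t - t| ≤ (1 + Cth / d.T) * |d.s t - t| + d.x ^ 2 * |d.z t| / d.T := by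
  have hT := hok.T_pos
  have hk := hok.k_eq t h0 hR ha
  have he0 := hok.e_pos t h0 hR
  have hele := hok.e_le t h0 hR
  have hx0 : 0 ≤ d.x ^ 2 := sq_nonneg _
  have e1 : d.k t - t = (1 - d.x ^ 2 * d.e t / d.T) * (d.s t - t) + d.x ^ 2 * d.z t / d.T := by
    rw [hk]; ring
  have hq0 : 0 ≤ d.x ^ 2 * d.e t / d.T := by positivity
  have hq1 : d.x ^ 2 * d.e t / d.T ≤ Cth / d.T := div_le_div_of_nonneg_right hele hT.le
  have h1 : |1 - d.x ^ 2 * d.e t / d.T| ≤ 1 + Cth / d.T := by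
    rw [abs_le]; constructor <;> linarith
  have h2 : |d.x ^ 2 * d.z t / d.T| = d.x ^ 2 * |d.z t| / d.T := by
    rw [abs_div, abs_mul, abs_of_nonneg hx0, abs_of_pos hT]
  rw [e1]
  calc |(1 - d.x ^ 2 * d.e t / d.T) * (d.s t - t) + d.x ^ 2 * d.z t / d.T|
      ≤ |(1 - d.x ^ 2 * d.e t / d.T) * (d.s t - t)| + |d.x ^ 2 * d.z t / d.T| := abs_add_le _ _
    _ = |1 - d.x ^ 2 * d.e t / d.T| * |d.s t - t| + d.x ^ 2 * |d.z t| / d.T := by rw [abs_mul, h2]
    _ ≤ _ := by
        have := mul_le_mul_of_nonneg_right h1 (abs_nonneg (d.s t - t))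
        linarith

theorem rg_div_band_meas {d : RgDat} (ha : Monotone d.a) (c C : ℝ) : MeasurableSet (d.band c C) := by
  have e : d.band c C = Icc 0 C ∩ d.a ⁻¹' Icc c C := by
    ext t
    simp only [RgDat.band, mem_ofPred_eq, mem_inter_iff, mem_Icc, mem_preimage]
    tauto
  rw [e]
  exact measurableSet_Icc.inter (ha.measurable measurableSet_Icc)

theorem rg_div_g_contOn {d : RgDat} {c1 C1 t1 Cth : ℝ} (ht1 : 0 < t1) (hd : d.Ok c1 C1 t1 Cth) :
    ContinuousOn d.g (Icc 0 d.R) := by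
  have hR : (0:ℝ) ≤ d.R := ht1.le.trans hd.R_ge
  have hc : ContinuousOn (fun t => ∫ τ in (0:ℝ)..t, d.g1 τ) (Icc 0 d.R) := by
    have := intervalIntegral.continuousOn_primitive_interval (μ := volume) (a := 0) (b := d.R)
      (f := d.g1) ?_
    · rwa [uIcc_of_le hR] at this
    · rw [uIcc_of_le hR]
      exact (intervalIntegrable_iff_integrableOn_Icc_of_le hR).1 (rg_g1_ii ht1 hd hR le_rfl)
  exact hc.congr (fun t ht => hd.g_eq t ht.1 ht.2)

/-- measurability of the closure error on a set on which the scalar clock stays in the working interval -/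
theorem rg_div_rho_meas {d : RgDat} {c1 C1 t1 Cth : ℝ} (ht1 : 0 < t1) (hd : d.Ok c1 C1 t1 Cth) {s : Set ℝ}
    (hs : MeasurableSet s) (hk : ∀ t ∈ s, d.k t ≤ d.R) :
    AEStronglyMeasurable d.rho (volume.restrict s) := by
  have hR : (0:ℝ) ≤ d.R := ht1.le.trans hd.R_ge
  set gt : ℝ → ℝ := IccExtend hR (fun y : Icc (0:ℝ) d.R => d.g y) with hgt
  have hgc : Continuous gt :=
    (continuousOn_iff_continuous_domRestrict.1 (rg_div_g_contOn ht1 hd)).Icc_extend'
  have hm : Measurable fun t => d.e t * (d.s t - t) / d.T - gt (d.k t) - d.z t / d.T := by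
    have h1 := hd.e_meas
    have h2 := hd.s_mono.measurable
    have h3 := hgc.measurable.comp hd.k_mono.measurable
    have h4 := hd.z_meas
    exact (((h1.mul (h2.sub measurable_id)).div_const _).sub h3).sub (h4.div_const _)
  refine hm.aestronglyMeasurable.congr ?_
  refine (ae_restrict_iff' hs).2 (Eventually.of_forall fun t ht => ?_)
  have hmem : d.k t ∈ Icc (0:ℝ) d.R := ⟨hd.k_nn t, hk t ht⟩
  simp only [RgDat.rho, hgt, IccExtend_of_mem _ _ hmem]

/-- the pointwise estimate -/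
theorem rg_div_pt {gam rho gk Gk Gt z Tn T η : ℝ} (hT : 0 < T) (hTn : 0 < Tn) (hTn' : Tn ≤ T + 1)
    (hgam : gam = -(2 * Tn) * (rho + gk + z / Tn)) (h1 : |gk - Gk| ≤ η) (h2 : |Gk - Gt| ≤ η)
    (h3 : |Tn - T| * |Gt| ≤ η) (h4 : |z| ≤ η) :
    |gam - (-(2 * T) * Gt)| ≤ 2 * (T + 1) * |rho| + (8 + 4 * T) * η := by
  have e : gam - (-(2 * T) * Gt)
      = -(2 * (Tn * rho)) - 2 * (Tn * (gk - Gk)) - 2 * (Tn * (Gk - Gt)) - 2 * ((Tn - T) * Gt) - 2 * z := by
    rw [hgam]; field_simp; ring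
  have a1 : |Tn * rho| ≤ (T + 1) * |rho| := by
    rw [abs_mul, abs_of_pos hTn]; exact mul_le_mul_of_nonneg_right hTn' (abs_nonneg _)
  have hη : 0 ≤ η := (abs_nonneg _).trans h4
  have a2 : |Tn * (gk - Gk)| ≤ (T + 1) * η := by
    rw [abs_mul, abs_of_pos hTn]; exact mul_le_mul hTn' h1 (abs_nonneg _) (by linarith)
  have a3 : |Tn * (Gk - Gt)| ≤ (T + 1) * η := by
    rw [abs_mul, abs_of_pos hTn]; exact mul_le_mul hTn' h2 (abs_nonneg _) (by linarith)
  have a4 : |(Tn - T) * Gt| ≤ η := by rw [abs_mul]; exact h3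
  rw [e, abs_le]
  have b1 := abs_le.1 a1
  have b2 := abs_le.1 a2
  have b3 := abs_le.1 a3
  have b4 := abs_le.1 a4
  have b5 := abs_le.1 h4
  constructor <;> nlinarith [b1.1, b1.2, b2.1, b2.2, b3.1, b3.2, b4.1, b4.2, b5.1, b5.2]

/-- a primitive of a continuous function that is positive at `a` increases to the left of `a` -/
theorem rg_div_incr_left {f f' : ℝ → ℝ}
    (hf : ∀ t1 t2, f t2 - f t1 = ∫ t in t1..t2, f' t)
    (hc : Continuous f') {a : ℝ} (hp : 0 < f' a) :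
    ∃ δ > 0, ∀ t ∈ Ioo (a - δ) a, f t < f a := by
  have hev : ∀ᶠ t in 𝓝 a, 0 < f' t := hc.continuousAt.eventually (lt_mem_nhds hp)
  obtain ⟨δ, hδ, hb⟩ := Metric.mem_nhds_iff.1 hev
  refine ⟨δ, hδ, fun t ht => ?_⟩
  have hpos : 0 < ∫ x in t..a, f' x := by
    refine intervalIntegral.intervalIntegral_pos_of_pos_on
      (hc.intervalIntegrable _ _) (fun x hx => ?_) ht.2
    apply hb
    rw [Metric.mem_ball, Real.dist_eq, abs_lt]
    constructor <;> linarith [hx.1, hx.2, ht.1]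
  have := hf t a
  linarith

theorem rg_div_gam (h : RgHyp (𝒰 : Filter ℕ) D T A B) (hd : RgDiv (𝒰 : Filter ℕ) D) {a1 a2 U0 : ℝ}
    (G : RgGap (rgU (𝒰 : Filter ℕ) D) a1 a2 U0) (t' t'' : ℝ) (h1 : a1 < t') (h2 : t' ≤ t'') (h3 : t'' < a2) :
    Tendsto (fun n => ∫ t in t'..t'', |(D n).gam t -
      (-(2 * T) * rgG A B (rgG0 (𝒰 : Filter ℕ) D) (rgU (𝒰 : Filter ℕ) D) t)|) (𝒰 : Filter ℕ) (𝓝 0) := by
  obtain ⟨c1, C1, t1, Cth, hc1, hC1, ht1, hCth, hok⟩ := h.ok
  obtain ⟨lam, hlam, -, hex⟩ := hd.ex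
  have hT := h.T_pos
  have hUm : Monotone (rgU (𝒰 : Filter ℕ) D) := rg_U_mono h
  obtain ⟨Gf, hGf⟩ : ∃ Gf, Gf = rgG A B (rgG0 (𝒰 : Filter ℕ) D) (rgU (𝒰 : Filter ℕ) D) := ⟨_, rfl⟩
  rw [← hGf]
  have hGc : Continuous Gf := by
    rw [hGf]
    exact continuous_iff_continuousAt.2 (fun t => (rg_G_deriv A B _ _ hUm t).continuousAt)
  obtain ⟨c, hc⟩ : ∃ c, c = U0 / 2 := ⟨_, rfl⟩
  obtain ⟨C, hC⟩ : ∃ C, C = rgGC (rgU (𝒰 : Filter ℕ) D) a2 := ⟨_, rfl⟩
  have hcpos : 0 < c := by rw [hc]; exact half_pos G.pos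
  obtain ⟨Cγ, hCγ⟩ := rg_gam_bdd h c C hcpos
  obtain ⟨Cr, hCr⟩ := h.raw c C hcpos
  obtain ⟨Cρ, hCρ⟩ := h.rho_bd c C hcpos
  have hband := rg_gap_band h G t' t'' h1 h2 h3
  rw [← hc, ← hC] at hband
  have hexC := hex C
  -- a bound for the scalar clock on the band
  obtain ⟨q, hq⟩ : ∃ q, q = 1 + 2 * Cth / T := ⟨_, rfl⟩
  have hq0 : 0 < q := by rw [hq]; positivity
  obtain ⟨K0, hK0⟩ : ∃ K0, K0 = |C| + q * (|Cr| + |C|) + 2 / T := ⟨_, rfl⟩
  have hK0C : |C| ≤ K0 := by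
    rw [hK0]
    have : 0 ≤ q * (|Cr| + |C|) := by positivity
    have : 0 ≤ 2 / T := by positivity
    linarith
  rw [Metric.tendsto_nhds]
  intro ε hε
  -- the small parameters
  obtain ⟨Lw, hLw⟩ : ∃ Lw, Lw = t'' - t' := ⟨_, rfl⟩
  have hLw0 : 0 ≤ Lw := by rw [hLw]; linarith
  obtain ⟨η, hη⟩ : ∃ η, η = ε / (2 * (Lw + 1) * (8 + 4 * T)) := ⟨_, rfl⟩
  have hηpos : 0 < η := by rw [hη]; positivity
  have hηε : Lw * ((8 + 4 * T) * η) ≤ ε / 2 := by
    have e : (Lw + 1) * ((8 + 4 * T) * η) = ε / 2 := by rw [hη]; field_simp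
    have : 0 ≤ (8 + 4 * T) * η := by positivity
    linarith
  obtain ⟨δ, hδ, hδG⟩ := Metric.uniformContinuousOn_iff.1
    (isCompact_Icc.uniformContinuousOn_of_continuous (hGc.continuousOn (s := Icc 0 K0))) η hηpos
  obtain ⟨MG, hMG⟩ : ∃ MG, ∀ t ∈ Icc (0:ℝ) K0, ‖Gf t‖ ≤ MG :=
    isCompact_Icc.exists_bound_of_continuousOn hGc.continuousOn
  obtain ⟨ηz, hηz⟩ : ∃ ηz, ηz = min (min η 1) (δ * T / 8) := ⟨_, rfl⟩
  have hηzpos : 0 < ηz := by
    rw [hηz]; exact lt_min (lt_min hηpos one_pos) (by positivity)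
  have hηz1 : ηz ≤ η := by rw [hηz]; exact (min_le_left _ _).trans (min_le_left _ _)
  have hηz2 : ηz ≤ 1 := by rw [hηz]; exact (min_le_left _ _).trans (min_le_right _ _)
  have hηz3 : ηz ≤ δ * T / 8 := by rw [hηz]; exact min_le_right _ _
  -- eventual facts
  have eT1 : ∀ᶠ n in (𝒰 : Filter ℕ), T / 2 < (D n).T := h.T_lim.eventually (lt_mem_nhds (by linarith))
  have eT2 : ∀ᶠ n in (𝒰 : Filter ℕ), (D n).T < T + 1 := h.T_lim.eventually (gt_mem_nhds (by linarith))
  have eT3 : ∀ᶠ n in (𝒰 : Filter ℕ), dist (D n).T T < η / (|MG| + 1) :=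
    (Metric.tendsto_nhds.1 h.T_lim) _ (by positivity)
  have ex1 : ∀ᶠ n in (𝒰 : Filter ℕ), dist (D n).x 0 < 1 := (Metric.tendsto_nhds.1 h.x_lim) 1 one_pos
  have eR : ∀ᶠ n in (𝒰 : Filter ℕ), K0 ≤ (D n).R := h.R_lim.eventually_ge_atTop K0
  have ea : ∀ᶠ n in (𝒰 : Filter ℕ), (D n).a 0 < c := h.a0_lim.eventually (gt_mem_nhds hcpos)
  have el : ∀ᶠ n in (𝒰 : Filter ℕ), q * (|Cγ| + 1) / δ + 1 ≤ lam n := hlam.eventually_ge_atTop _
  have eg := (Metric.tendstoUniformlyOn_iff.1 (rg_g_lim h K0)) η hηpos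
  rw [← hGf] at eg
  have ez := h.z_lim c C ηz hcpos hηzpos
  have eρ : ∀ᶠ n in (𝒰 : Filter ℕ), dist (∫ t in (D n).band c C, |(D n).rho t|) 0 < ε / (4 * (T + 1)) :=
    (Metric.tendsto_nhds.1 (h.rho_rad c C hcpos)) _ (by positivity)
  filter_upwards [hok, hCγ, hCr, hCρ, hband, hexC, eT1, eT2, eT3, ex1, eR, ea, el, eg, ez, eρ] with
    n ok hCγ hCr hCρ hband hexC eT1 eT2 eT3 ex1 eR ea el eg ez eρ
  have hTn : 0 < (D n).T := ok.T_pos
  have hx2 : (D n).x ^ 2 ≤ 1 := by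
    rw [Real.dist_eq, sub_zero] at ex1
    exact (sq_le_one_iff_abs_le_one _).2 ex1.le
  have hx20 : 0 ≤ (D n).x ^ 2 := sq_nonneg _
  have hqn : 1 + Cth / (D n).T ≤ q := by
    rw [hq]
    have : Cth / (D n).T ≤ Cth / (T / 2) := div_le_div_of_nonneg_left hCth.le (by linarith) eT1.le
    have e : Cth / (T / 2) = 2 * Cth / T := by field_simp
    linarith
  have hqn0 : 0 ≤ 1 + Cth / (D n).T := by positivity
  -- the scalar clock on the band
  have hkb : ∀ t ∈ (D n).band c C, |(D n).k t - t| ≤ q * |(D n).s t - t| + 2 * ηz / T := by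
    intro t ht
    have hz := ez t ht
    obtain ⟨ht0, htC, hta, -⟩ := ht
    have htR : t ≤ (D n).R := (htC.trans (le_abs_self C)).trans (hK0C.trans eR)
    have hk := rg_div_k_sub ok ht0 htR (lt_of_lt_of_le ea hta)
    have hz2 : (D n).x ^ 2 * |(D n).z t| / (D n).T ≤ 2 * ηz / T := by
      have a1 : (D n).x ^ 2 * |(D n).z t| ≤ 1 * ηz := mul_le_mul hx2 hz (abs_nonneg _) zero_le_one
      have a2 : (D n).x ^ 2 * |(D n).z t| / (D n).T ≤ ηz / (D n).T := by
        apply div_le_div_of_nonneg_right _ hTn.le; linarith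
      have a3 : ηz / (D n).T ≤ ηz / (T / 2) := div_le_div_of_nonneg_left hηzpos.le (by linarith) eT1.le
      have e : ηz / (T / 2) = 2 * ηz / T := by field_simp
      linarith
    have := mul_le_mul_of_nonneg_right hqn (abs_nonneg ((D n).s t - t))
    linarith
  have hkK : ∀ t ∈ (D n).band c C, (D n).k t ≤ K0 := by
    intro t ht
    have hk := hkb t ht
    have hs := (hCr t ht).1
    have hs0 := ok.s_nn t
    obtain ⟨ht0, htC, -, -⟩ := ht
    have hst : |(D n).s t - t| ≤ |Cr| + |C| := by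
      rw [abs_le]
      constructor <;> linarith [le_abs_self Cr, le_abs_self C]
    have h5 : q * |(D n).s t - t| ≤ q * (|Cr| + |C|) := mul_le_mul_of_nonneg_left hst hq0.le
    have h6 : 2 * ηz / T ≤ 2 / T := by
      apply div_le_div_of_nonneg_right _ hT.le; linarith
    have h7 := (abs_le.1 hk).2
    rw [hK0]
    linarith [le_abs_self C]
  -- integrability of the closure error on the band
  have hbm : MeasurableSet ((D n).band c C) := rg_div_band_meas ok.a_mono c C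
  have hρm := rg_div_rho_meas ht1 ok hbm (fun t ht => (hkK t ht).trans eR)
  have hbfin : volume ((D n).band c C) ≠ ⊤ := by
    have : (D n).band c C ⊆ Icc 0 C := fun t ht => ⟨ht.1, ht.2.1⟩
    exact ne_top_of_le_ne_top (by simp) (measure_mono this)
  have hρi : IntegrableOn (fun t => |(D n).rho t|) ((D n).band c C) := by
    have : IsFiniteMeasure (volume.restrict ((D n).band c C)) :=
      ⟨by rw [Measure.restrict_apply_univ]; exact hbfin.lt_top⟩
    have : IntegrableOn (D n).rho ((D n).band c C) :=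
      Integrable.of_bound hρm Cρ
        ((ae_restrict_iff' hbm).2 (Eventually.of_forall fun t ht => hCρ t ht))
    exact this.abs
  have hsub : Ioc t' t'' ⊆ (D n).band c C := Ioc_subset_Icc_self.trans hband
  -- the pointwise estimate
  have hpt : ∀ t ∈ Ioc t' t'', |(D n).gam t - (-(2 * T) * Gf t)|
      ≤ 2 * (T + 1) * |(D n).rho t| + (8 + 4 * T) * η := by
    intro t ht
    have htb := hsub ht
    obtain ⟨ht0, htC, hta, htaC⟩ := hsub ht
    obtain ⟨hel, hp0⟩ := hexC t ht0 htC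
    have hlpos : 0 < lam n := by
      have : 0 ≤ q * (|Cγ| + 1) / δ := by positivity
      linarith
    -- `s` is close to `t`
    have hg' := rg_div_gam_eq' (d := D n) hp0
    have hgb := hCγ t htb
    have hst : |(D n).s t - t| ≤ |Cγ| / (2 * lam n) := by
      rw [le_div_iff₀ (by positivity)]
      have : |(D n).gam t| = |(D n).s t - t| * (2 * lam n) := by
        rw [hg', hel, abs_mul, abs_mul, abs_of_pos hlpos, abs_sub_comm]
        simp only [abs_two]; ring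
      rw [← this]
      exact hgb.trans (le_abs_self _)
    have hqst : q * |(D n).s t - t| < δ / 2 := by
      have a1 : q * |(D n).s t - t| ≤ q * (|Cγ| / (2 * lam n)) := mul_le_mul_of_nonneg_left hst hq0.le
      have a2 : q * (|Cγ| / (2 * lam n)) < δ / 2 := by
        rw [← mul_div_assoc, div_lt_iff₀ (by positivity)]
        have a3 : q * (|Cγ| + 1) / δ < lam n := by linarith
        rw [div_lt_iff₀ hδ] at a3
        have a4 : q * |Cγ| ≤ q * (|Cγ| + 1) := mul_le_mul_of_nonneg_left (by linarith) hq0.le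
        linarith
      linarith
    have hkt : |(D n).k t - t| < δ := by
      have a1 := hkb t htb
      have a2 : 2 * ηz / T ≤ δ / 4 := by
        rw [div_le_iff₀ hT]
        linarith
      linarith
    have hk0 := ok.k_nn t
    have hkK0 := hkK t htb
    have htK0 : t ≤ K0 := (htC.trans (le_abs_self C)).trans hK0C
    have b1 : |(D n).g ((D n).k t) - Gf ((D n).k t)| ≤ η := by
      have := eg ((D n).k t) ⟨hk0, hkK0⟩
      rw [Real.dist_eq, abs_sub_comm] at this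
      exact this.le
    have b2 : |Gf ((D n).k t) - Gf t| ≤ η := by
      have := hδG ((D n).k t) ⟨hk0, hkK0⟩ t ⟨ht0, htK0⟩ (by rw [Real.dist_eq]; exact hkt)
      rw [Real.dist_eq] at this
      exact this.le
    have b3 : |(D n).T - T| * |Gf t| ≤ η := by
      have a1 := hMG t ⟨ht0, htK0⟩
      rw [Real.norm_eq_abs] at a1
      rw [Real.dist_eq] at eT3
      have a2 : |Gf t| ≤ |MG| + 1 := by linarith [le_abs_self MG]
      have a3 : |(D n).T - T| * |Gf t| ≤ η / (|MG| + 1) * (|MG| + 1) :=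
        mul_le_mul eT3.le a2 (abs_nonneg _) (by positivity)
      have e : η / (|MG| + 1) * (|MG| + 1) = η := by field_simp
      linarith
    have b4 : |(D n).z t| ≤ η := (ez t htb).trans hηz1
    exact rg_div_pt hT hTn eT2.le (rg_div_gam_eq hTn hp0) b1 b2 b3 b4
  -- integration
  have hρi' : IntegrableOn (fun t => |(D n).rho t|) (Ioc t' t'') := hρi.mono_set hsub
  have hgi : IntegrableOn (fun t => 2 * (T + 1) * |(D n).rho t| + (8 + 4 * T) * η) (Ioc t' t'') :=
    (hρi'.const_mul _).add (integrableOn_const (by simp))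
  have hI1 : ∫ t in t'..t'', |(D n).gam t - (-(2 * T) * Gf t)|
      ≤ ∫ t in Ioc t' t'', (2 * (T + 1) * |(D n).rho t| + (8 + 4 * T) * η) := by
    rw [intervalIntegral.integral_of_le h2]
    exact integral_mono_of_nonneg (Eventually.of_forall fun t => abs_nonneg _) hgi
      ((ae_restrict_iff' measurableSet_Ioc).2 (Eventually.of_forall hpt))
  have hI2 : ∫ t in Ioc t' t'', (2 * (T + 1) * |(D n).rho t| + (8 + 4 * T) * η)
      = 2 * (T + 1) * (∫ t in Ioc t' t'', |(D n).rho t|) + Lw * ((8 + 4 * T) * η) := by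
    rw [integral_add (hρi'.const_mul _) (integrableOn_const (by simp)), integral_const_mul,
      setIntegral_const]
    simp [Measure.real, hLw, h2]
  have hI3 : ∫ t in Ioc t' t'', |(D n).rho t| ≤ ∫ t in (D n).band c C, |(D n).rho t| :=
    setIntegral_mono_set hρi (Eventually.of_forall fun t => abs_nonneg _) (LE.le.eventuallyLE hsub)
  have hI0 : 0 ≤ ∫ t in t'..t'', |(D n).gam t - (-(2 * T) * Gf t)| :=
    intervalIntegral.integral_nonneg h2 (fun t _ => abs_nonneg _)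
  rw [Real.dist_eq, sub_zero] at eρ ⊢
  have hρ4 := (abs_lt.1 eρ).2
  have hρ5 : 2 * (T + 1) * (∫ t in (D n).band c C, |(D n).rho t|) < ε / 2 := by
    rw [lt_div_iff₀ (by positivity)] at hρ4
    linarith
  have hρ6 : 2 * (T + 1) * (∫ t in Ioc t' t'', |(D n).rho t|)
      ≤ 2 * (T + 1) * (∫ t in (D n).band c C, |(D n).rho t|) :=
    mul_le_mul_of_nonneg_left hI3 (by positivity)
  rw [abs_of_nonneg hI0]
  linarith

theorem rg_gap_div (h : RgHyp (𝒰 : Filter ℕ) D T A B) (hd : RgDiv (𝒰 : Filter ℕ) D) {a1 a2 U0 : ℝ}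
    (G : RgGap (rgU (𝒰 : Filter ℕ) D) a1 a2 U0) :
    rgG1 A B (rgG0 (𝒰 : Filter ℕ) D) (rgU (𝒰 : Filter ℕ) D) a1 ≤ 0 ∧
    rgG1 A B (rgG0 (𝒰 : Filter ℕ) D) (rgU (𝒰 : Filter ℕ) D) a2 ≤ 0 := by
  have hUm : Monotone (rgU (𝒰 : Filter ℕ) D) := rg_U_mono h
  have hT := h.T_pos
  obtain ⟨Gf, hGf⟩ : ∃ Gf, Gf = rgG A B (rgG0 (𝒰 : Filter ℕ) D) (rgU (𝒰 : Filter ℕ) D) := ⟨_, rfl⟩
  obtain ⟨F, hFdef⟩ : ∃ F : ℝ → ℝ, F = fun t => -(2 * T) * Gf t := ⟨_, rfl⟩
  have hGc : Continuous Gf := by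
    rw [hGf]
    exact continuous_iff_continuousAt.2 (fun t => (rg_G_deriv A B _ _ hUm t).continuousAt)
  have hFc : Continuous F := by rw [hFdef]; exact continuous_const.mul hGc
  have hFi : ∀ t' t'', a1 < t' → t' ≤ t'' → t'' < a2 → IntervalIntegrable F volume t' t'' :=
    fun _ _ _ _ _ => hFc.intervalIntegrable _ _
  have hF : ∀ t' t'', a1 < t' → t' ≤ t'' → t'' < a2 →
      Tendsto (fun n => ∫ t in t'..t'', |(D n).gam t - F t|) (𝒰 : Filter ℕ) (𝓝 0) := by
    intro t' t'' h1 h2 h3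
    rw [hFdef, hGf]
    exact rg_div_gam h hd G t' t'' h1 h2 h3
  have hG1 : Gf a1 = 0 := by rw [hGf]; exact rg_G_supp h a1 G.m1
  have hG2 : Gf a2 = 0 := by rw [hGf]; exact rg_G_supp h a2 G.m2
  have hsub : ∀ t1 t2, Gf t2 - Gf t1
      = ∫ τ in t1..t2, rgG1 A B (rgG0 (𝒰 : Filter ℕ) D) (rgU (𝒰 : Filter ℕ) D) τ := by
    rw [hGf]; exact rg_G_sub A B _ _ hUm
  have hG1c := rg_G1_cont A B (rgG0 (𝒰 : Filter ℕ) D) (rgU (𝒰 : Filter ℕ) D) hUm
  have h12 := G.lt
  constructor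
  · by_contra hcon
    push Not at hcon
    obtain ⟨δ, hδ, hinc⟩ := rg_incr_right hsub hG1c hcon
    obtain ⟨b, hb⟩ : ∃ b, b = min (a1 + δ) ((a1 + a2) / 2) := ⟨_, rfl⟩
    have hb1 : b ≤ a1 + δ := by rw [hb]; exact min_le_left _ _
    have hb2 : b ≤ (a1 + a2) / 2 := by rw [hb]; exact min_le_right _ _
    have hb3 : a1 < b := by rw [hb]; exact lt_min (by linarith) (by linarith)
    have hneg : ∀ t ∈ Ioo a1 b, F t < 0 := by
      intro t ht
      have := hinc t ⟨ht.1, by linarith [ht.2]⟩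
      rw [hG1] at this
      rw [hFdef]
      simp only
      nlinarith
    have hle := rg_pot_left h G F b ⟨hb3, by linarith⟩ hFi hF
      (Eventually.of_forall fun t ht => (hneg t ht).le) ((a1 + b) / 2) ⟨by linarith, by linarith⟩
    have hpos : 0 < ∫ t in ((a1 + b) / 2)..b, |F t| :=
      intervalIntegral.intervalIntegral_pos_of_pos_on (hFc.abs.intervalIntegrable _ _)
        (fun x hx => abs_pos.2 (hneg x ⟨by linarith [hx.1], hx.2⟩).ne) (by linarith)
    linarith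
  · by_contra hcon
    push Not at hcon
    obtain ⟨δ, hδ, hinc⟩ := rg_div_incr_left hsub hG1c hcon
    obtain ⟨b, hb⟩ : ∃ b, b = max (a2 - δ) ((a1 + a2) / 2) := ⟨_, rfl⟩
    have hb1 : a2 - δ ≤ b := by rw [hb]; exact le_max_left _ _
    have hb2 : (a1 + a2) / 2 ≤ b := by rw [hb]; exact le_max_right _ _
    have hb3 : b < a2 := by rw [hb]; exact max_lt (by linarith) (by linarith)
    have hposF : ∀ t ∈ Ioo b a2, 0 < F t := by
      intro t ht
      have := hinc t ⟨by linarith [ht.1], ht.2⟩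
      rw [hG2] at this
      rw [hFdef]
      simp only
      nlinarith
    have hle := rg_pot_right h G F b ⟨by linarith, hb3⟩ hFi hF
      (Eventually.of_forall fun t ht => (hposF t ht).le) ((b + a2) / 2) ⟨by linarith, by linarith⟩
    have hpos : 0 < ∫ t in b..((b + a2) / 2), |F t| :=
      intervalIntegral.intervalIntegral_pos_of_pos_on (hFc.abs.intervalIntegrable _ _)
        (fun x hx => abs_pos.2 (hposF x ⟨hx.1, by linarith [hx.2]⟩).ne') (by linarith)
    linarith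

end Claimed.Agent.R286
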