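import Claimed.Agent.R286.Rig.Clock

/-!
# Row 286, unit RIG, file 6: calibration of the linear term, `C^1` limit of the scalar defect, zeros on the support          (architect helper24; prover helper13)

Paper: PE `profile.tex` l.326-397 (calibration, zeros on the support, Lemma 5.5).
`rg_g10_bdd`: a good radius `t_c` with mass in `(C1 (t1+1), C1 (t1+1) + 1)` has `t_c ≥ t1 + 1 - ..`, `t_c ≤ max t1 (v/c1)`, `k_c := k t_c ∈ [1/2, C]`, `|g(k_c)| ≤ 1`;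
 `g(k_c) = g1(0) k_c + ∫_0^{k_c} (g1 - g1 0)` and `rg_g1_diff` bounds the integral.
`rg_G_supp`: `t0 = 0`: `G 0 = 0`.  `t0 > 0`, `ε < t0`: `U(t0-ε) < U(t0+ε)`, `rg_good_window` gives good `τ_n ∈ (t0-ε, t0+ε]`: `|g_n(k_n τ_n)| ≤ ε`, `|k_n τ_n - t0| ≤ 2ε`; `rg_g_lim` + continuity of `G`.
-/

set_option autoImplicit false

namespace Claimed.Agent.R286

open MeasureTheory Filter Set Topology

variable {𝒰 : Ultrafilter ℕ} {D : ℕ → RgDat} {T A B : ℝ}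

/-- limit of the initial slopes `g_n'(0) = (T a_2^2 - 1)/x^2` -/
noncomputable def rgG0 (l : Filter ℕ) (D : ℕ → RgDat) : ℝ := limUnder l (fun n => (D n).g1 0)

/-- `g1` is continuous on the working interval -/
theorem rg_g1_contOn {d : RgDat} {c1 C1 t1 Cth : ℝ} (ht1 : 0 < t1) (hd : d.Ok c1 C1 t1 Cth) :
    ContinuousOn d.g1 (Icc 0 d.R) := by
  have hR : (0:ℝ) ≤ d.R := ht1.le.trans hd.R_ge
  have hf : IntervalIntegrable (fun τ => d.P τ - d.Bc τ * d.aK τ) volume 0 d.R := by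
    apply IntervalIntegrable.sub
    · exact hd.P_cont.intervalIntegrable_of_Icc hR
    · apply IntervalIntegrable.continuousOn_mul (hd.aK_mono.intervalIntegrable)
      rw [uIcc_of_le hR]; exact hd.Bc_cont
  have hc : ContinuousOn (fun t => d.g1 0 + ∫ τ in (0:ℝ)..t, (d.P τ - d.Bc τ * d.aK τ)) (Icc 0 d.R) := by
    apply ContinuousOn.add continuousOn_const
    have := intervalIntegral.continuousOn_primitive_interval (μ := volume) (a := 0) (b := d.R)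
      (f := fun τ => d.P τ - d.Bc τ * d.aK τ) ?_
    · rwa [uIcc_of_le hR] at this
    · rw [uIcc_of_le hR]; exact (intervalIntegrable_iff_integrableOn_Icc_of_le hR).1 hf
  exact hc.congr (fun t ht => hd.g1_eq t ht.1 ht.2)

theorem rg_g1_ii {d : RgDat} {c1 C1 t1 Cth : ℝ} (ht1 : 0 < t1) (hd : d.Ok c1 C1 t1 Cth) {t : ℝ}
    (h0 : 0 ≤ t) (hR : t ≤ d.R) : IntervalIntegrable d.g1 volume 0 t :=
  ((rg_g1_contOn ht1 hd).mono (Icc_subset_Icc le_rfl hR)).intervalIntegrable_of_Icc h0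

theorem rg_g10_bdd (h : RgHyp (𝒰 : Filter ℕ) D T A B) : ∃ M : ℝ, ∀ᶠ n in (𝒰 : Filter ℕ), |(D n).g1 0| ≤ M := by
  obtain ⟨c1, C1, t1, Cth, hc1, hC1, ht1, hCth, hok⟩ := h.ok
  set v1 : ℝ := C1 * (t1 + 1) with hv1
  set v2 : ℝ := v1 + 1 with hv2
  set C : ℝ := v2 / c1 + 1 with hC
  have hv1pos : 0 < v1 := by positivity
  have hv2pos : 0 < v2 := by positivity
  have hCpos : 0 < C := by positivity
  have hgood := rg_good h v1 v2 (1/2) hv1pos (by simp [hv2]) (by norm_num)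
  have hdiff := rg_g1_diff h C
  set Ψ : ℝ → ℝ := fun t => ∫ τ in (0:ℝ)..t, (A * τ - B * rgU (𝒰 : Filter ℕ) D τ) with hΨ
  have hΨc : Continuous Ψ := by
    have := rg_G1_cont A B 0 (rgU (𝒰 : Filter ℕ) D) (rg_U_mono h)
    have he : rgG1 A B 0 (rgU (𝒰 : Filter ℕ) D) = Ψ := by
      funext t; simp [rgG1, hΨ]
    rwa [he] at this
  obtain ⟨M', hM'⟩ : ∃ M', ∀ t ∈ Icc (0:ℝ) C, ‖Ψ t‖ ≤ M' :=
    isCompact_Icc.exists_bound_of_continuousOn hΨc.continuousOn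
  have hM'0 : 0 ≤ M' := (norm_nonneg _).trans (hM' 0 ⟨le_rfl, hCpos.le⟩)
  have hR := h.R_lim.eventually_ge_atTop (max C (t1 + 1))
  have hd1 := (Metric.tendstoUniformlyOn_iff.1 hdiff) 1 one_pos
  refine ⟨2 * (1/2 + (M' + 1) * C), ?_⟩
  filter_upwards [hok, hgood, hR, hd1] with n hn hg hRn hdn
  obtain ⟨v, hv, hav, hg0, hgR, -, -, hgk, hgg⟩ := hg
  set t : ℝ := (D n).r v with ht
  have hRC : C ≤ (D n).R := (le_max_left _ _).trans hRn
  have hRt : t1 + 1 ≤ (D n).R := (le_max_right _ _).trans hRn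
  have ht_lo : t1 + 1 ≤ t := by
    by_contra hlt
    replace hlt := not_le.1 hlt
    have h1 : (D n).a t ≤ (D n).a (t1 + 1) := hn.a_mono hlt.le
    have h2 := (hn.outer (t1 + 1) (by linarith) hRt).2
    have h3 := hv.1
    linarith
  have ht_hi : t ≤ v2 / c1 := by
    have h2 := (hn.outer t (by linarith) hgR).1
    have h3 := hv.2
    rw [le_div_iff₀ hc1]
    linarith
  set κ : ℝ := (D n).k t with hκ
  have hk := abs_le.1 hgk
  have hκ_lo : 1/2 ≤ κ := by linarith [hk.1]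
  have hκ_hi : κ ≤ C := by rw [hC]; linarith [hk.2]
  have hκ0 : 0 ≤ κ := by linarith
  have hgeq := hn.g_eq κ hκ0 (hκ_hi.trans hRC)
  have hii := rg_g1_ii ht1 hn hκ0 (hκ_hi.trans hRC)
  have hsplit : ∫ τ in (0:ℝ)..κ, (D n).g1 τ
      = κ * (D n).g1 0 + ∫ τ in (0:ℝ)..κ, ((D n).g1 τ - (D n).g1 0) := by
    rw [intervalIntegral.integral_sub hii intervalIntegrable_const]
    simp
  have hbd : ‖∫ τ in (0:ℝ)..κ, ((D n).g1 τ - (D n).g1 0)‖ ≤ (M' + 1) * |κ - 0| := by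
    apply intervalIntegral.norm_integral_le_of_norm_le_const
    intro τ hτ
    rw [uIoc_of_le hκ0] at hτ
    have hτC : τ ∈ Icc (0:ℝ) C := ⟨hτ.1.le, hτ.2.trans hκ_hi⟩
    have h1 := hdn τ hτC
    have h2 := hM' τ hτC
    rw [Real.dist_eq] at h1
    rw [Real.norm_eq_abs] at h2 ⊢
    have h3 := abs_sub_abs_le_abs_sub ((D n).g1 τ - (D n).g1 0) (Ψ τ)
    rw [abs_sub_comm] at h1
    linarith
  rw [sub_zero, abs_of_nonneg hκ0, Real.norm_eq_abs] at hbd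
  have hmain : κ * |(D n).g1 0| ≤ 1/2 + (M' + 1) * C := by
    have h1 : κ * (D n).g1 0 = (D n).g κ - ∫ τ in (0:ℝ)..κ, ((D n).g1 τ - (D n).g1 0) := by
      rw [hgeq, hsplit]; ring
    have h2 : |κ * (D n).g1 0| ≤ |(D n).g κ| + |∫ τ in (0:ℝ)..κ, ((D n).g1 τ - (D n).g1 0)| := by
      rw [h1]; exact abs_sub _ _
    rw [abs_mul, abs_of_nonneg hκ0] at h2
    have h3 : (M' + 1) * κ ≤ (M' + 1) * C := by
      apply mul_le_mul_of_nonneg_left hκ_hi; linarith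
    linarith
  have h4 : (1/2) * |(D n).g1 0| ≤ κ * |(D n).g1 0| :=
    mul_le_mul_of_nonneg_right hκ_lo (abs_nonneg _)
  linarith

theorem rg_g10_lim (h : RgHyp (𝒰 : Filter ℕ) D T A B) :
    Tendsto (fun n => (D n).g1 0) (𝒰 : Filter ℕ) (𝓝 (rgG0 (𝒰 : Filter ℕ) D)) := by
  obtain ⟨M, hM⟩ := rg_g10_bdd h
  exact rg_ulim 𝒰 _ M hM

theorem rg_g1_lim (h : RgHyp (𝒰 : Filter ℕ) D T A B) (C : ℝ) :
    TendstoUniformlyOn (fun n => (D n).g1) (rgG1 A B (rgG0 (𝒰 : Filter ℕ) D) (rgU (𝒰 : Filter ℕ) D))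
      (𝒰 : Filter ℕ) (Icc 0 C) := by
  rw [Metric.tendstoUniformlyOn_iff]
  intro ε hε
  have h1 := (Metric.tendstoUniformlyOn_iff.1 (rg_g1_diff h C)) (ε/2) (half_pos hε)
  have h2 := (Metric.tendsto_nhds.1 (rg_g10_lim h)) (ε/2) (half_pos hε)
  filter_upwards [h1, h2] with n h1 h2 t ht
  have h3 := h1 t ht
  rw [Real.dist_eq] at h2 h3 ⊢
  unfold rgG1
  have h4 := abs_lt.1 h2
  have h5 := abs_lt.1 h3
  rw [abs_lt]
  constructor <;> linarith [h4.1, h4.2, h5.1, h5.2]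

theorem rg_g_lim (h : RgHyp (𝒰 : Filter ℕ) D T A B) (C : ℝ) :
    TendstoUniformlyOn (fun n => (D n).g) (rgG A B (rgG0 (𝒰 : Filter ℕ) D) (rgU (𝒰 : Filter ℕ) D))
      (𝒰 : Filter ℕ) (Icc 0 C) := by
  obtain ⟨c1, C1, t1, Cth, hc1, hC1, ht1, hCth, hok⟩ := h.ok
  rw [Metric.tendstoUniformlyOn_iff]
  intro ε hε
  have hpos : 0 < |C| + 1 := by positivity
  have h1 := (Metric.tendstoUniformlyOn_iff.1 (rg_g1_lim h C)) (ε / (|C| + 1)) (div_pos hε hpos)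
  have hR := h.R_lim.eventually_ge_atTop C
  have hG1c := rg_G1_cont A B (rgG0 (𝒰 : Filter ℕ) D) (rgU (𝒰 : Filter ℕ) D) (rg_U_mono h)
  filter_upwards [hok, h1, hR] with n hn h1 hRn t ht
  have hii := rg_g1_ii ht1 hn ht.1 (ht.2.trans hRn)
  rw [Real.dist_eq, hn.g_eq t ht.1 (ht.2.trans hRn)]
  unfold rgG
  rw [← intervalIntegral.integral_sub (hG1c.intervalIntegrable _ _) hii]
  have hbd : ‖∫ τ in (0:ℝ)..t, (rgG1 A B (rgG0 (𝒰 : Filter ℕ) D) (rgU (𝒰 : Filter ℕ) D) τ - (D n).g1 τ)‖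
      ≤ (ε / (|C| + 1)) * |t - 0| := by
    apply intervalIntegral.norm_integral_le_of_norm_le_const
    intro τ hτ
    rw [uIoc_of_le ht.1] at hτ
    have := h1 τ ⟨hτ.1.le, hτ.2.trans ht.2⟩
    rw [Real.dist_eq] at this
    exact this.le
  rw [Real.norm_eq_abs, sub_zero, abs_of_nonneg ht.1] at hbd
  have h2 : t < |C| + 1 := by
    have := le_abs_self C
    linarith [ht.2]
  calc _ ≤ (ε / (|C| + 1)) * t := hbd
    _ < (ε / (|C| + 1)) * (|C| + 1) := mul_lt_mul_of_pos_left h2 (div_pos hε hpos)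
    _ = ε := by field_simp

/-- PE Lemma 5.5 (uniform scalar linearisation) -/
theorem rg_lin (h : RgHyp (𝒰 : Filter ℕ) D T A B) (C : ℝ) :
    ∃ M : ℝ, ∀ᶠ n in (𝒰 : Filter ℕ), |(D n).g1 0| ≤ M ∧ ∀ t ∈ Icc (0:ℝ) C, |(D n).g t| ≤ M := by
  obtain ⟨M0, hM0⟩ := rg_g10_bdd h
  have hGc : Continuous (rgG A B (rgG0 (𝒰 : Filter ℕ) D) (rgU (𝒰 : Filter ℕ) D)) :=
    continuous_iff_continuousAt.2 (fun t => (rg_G_deriv A B _ _ (rg_U_mono h) t).continuousAt)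
  obtain ⟨M1, hM1⟩ : ∃ M1, ∀ t ∈ Icc (0:ℝ) C,
      ‖rgG A B (rgG0 (𝒰 : Filter ℕ) D) (rgU (𝒰 : Filter ℕ) D) t‖ ≤ M1 :=
    isCompact_Icc.exists_bound_of_continuousOn hGc.continuousOn
  have h1 := (Metric.tendstoUniformlyOn_iff.1 (rg_g_lim h C)) 1 one_pos
  refine ⟨max M0 (M1 + 1), ?_⟩
  filter_upwards [hM0, h1] with n h0 h1
  refine ⟨h0.trans (le_max_left _ _), fun t ht => ?_⟩
  have h2 := h1 t ht
  have h3 := hM1 t ht
  rw [Real.dist_eq, abs_sub_comm] at h2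
  rw [Real.norm_eq_abs] at h3
  have h4 := abs_sub_abs_le_abs_sub ((D n).g t) (rgG A B (rgG0 (𝒰 : Filter ℕ) D) (rgU (𝒰 : Filter ℕ) D) t)
  exact le_trans (by linarith) (le_max_right _ _)

theorem rg_G_supp (h : RgHyp (𝒰 : Filter ℕ) D T A B) :
    ∀ t ∈ rgSupp (rgU (𝒰 : Filter ℕ) D), rgG A B (rgG0 (𝒰 : Filter ℕ) D) (rgU (𝒰 : Filter ℕ) D) t = 0 := by
  intro t0 ht0
  obtain ⟨ht0nn, hgrow⟩ := ht0
  rcases ht0nn.eq_or_lt with h0 | h0
  · rw [← h0]; simp [rgG]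
  obtain ⟨c1, C1, t1, Cth, hc1, hC1, ht1, hCth, hok⟩ := h.ok
  set G := rgG A B (rgG0 (𝒰 : Filter ℕ) D) (rgU (𝒰 : Filter ℕ) D) with hG
  have hGc : ContinuousAt G t0 := (rg_G_deriv A B _ _ (rg_U_mono h) t0).continuousAt
  by_contra hne
  have hpos : 0 < |G t0| := abs_pos.2 hne
  obtain ⟨δ, hδ, hδG⟩ := Metric.continuousAt_iff.1 hGc (|G t0| / 2) (half_pos hpos)
  -- choose ε
  set ε : ℝ := min (min (t0 / 2) (δ / 4)) (|G t0| / 8) with hε
  have hεpos : 0 < ε := by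
    simp only [hε, lt_min_iff]
    refine ⟨⟨by linarith, by linarith⟩, by linarith⟩
  have hε1 : ε ≤ t0 / 2 := (min_le_left _ _).trans (min_le_left _ _)
  have hε2 : ε ≤ δ / 4 := (min_le_left _ _).trans (min_le_right _ _)
  have hε3 : ε ≤ |G t0| / 8 := min_le_right _ _
  have hg := hgrow ε hεpos
  have hmax : max (t0 - ε) 0 = t0 - ε := max_eq_left (by linarith)
  rw [hmax] at hg
  have hwin := rg_good_window h (t0 - ε) (t0 + ε) ε (by linarith) hg hεpos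
  have hlim := (Metric.tendstoUniformlyOn_iff.1 (rg_g_lim h (t0 + 2 * ε))) ε hεpos
  obtain ⟨n, hn, ⟨τ, hτ1, hτ2, hgd, -, -⟩, hl⟩ := (hok.and (hwin.and hlim)).exists
  obtain ⟨-, -, -, -, hgk, hgg⟩ := hgd
  set κ : ℝ := (D n).k τ with hκ
  have hk := abs_le.1 hgk
  have hκ0 : 0 ≤ κ := hn.k_nn τ
  have hκ_hi : κ ≤ t0 + 2 * ε := by linarith [hk.2]
  have hκ_lo : t0 - 2 * ε ≤ κ := by linarith [hk.1]
  have h1 := hl κ ⟨hκ0, hκ_hi⟩
  rw [Real.dist_eq] at h1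
  have h2 : dist κ t0 < δ := by
    rw [Real.dist_eq, abs_lt]
    constructor <;> linarith
  have h3 := hδG h2
  rw [Real.dist_eq] at h3
  have h4 := abs_sub_abs_le_abs_sub (G t0) (G κ)
  have h5 := abs_sub_abs_le_abs_sub (G κ) ((D n).g κ)
  rw [abs_sub_comm] at h3
  linarith

/-- equation lemmas are generated HERE, once (CI286: no on-demand copies in the user files) -/
theorem rg_lim_eqns_cite : True := by
  have := @rgG0.eq_1
  trivial

end Claimed.Agent.R286
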