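import Claimed.Agent.R286.Rig.Defs

/-!
# Row 286, unit RIG, file 11: measurability and integrability on bands          (owner helper286, ADV / second head of RIG)

Imports `Rig/Defs` only, no upstream leaf.  SHARED SUPPLY for `Pot`, `Div`, `Bdd` (74, 166, 52, 43): the hypotheses `rho_rad`, `dl_rad` of `RgHyp` are Bochner integrals over a band;
to use them on an interval `[t',t''] ⊆ band` one needs integrability of `|rho|`, `dl^2` on the band.  Here:
* `rgm_band_meas`, `rgm_band_Icc` (a band is measurable and order connected), `rgm_band_a0` (eventually `a 0 < a t` on a band), `rgm_band_R`;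
* `rgm_T_bds` (`T/2 ≤ T_n ≤ 2T`), `rgm_k_bdd` (`k ≤ Ck` on a band, from `k_eq`, `raw`, `z_lim`, `e_le`);
* `rgm_g1_contOn`, `rgm_g_contOn`, `rgm_gam_meas`, `rgm_rho_aesm`;
* EXITS `rgm_rho_small`, `rgm_dl_small`: eventually, for EVERY `[t',t''] ⊆ band`: interval integrable and `∫_{t'}^{t''} ≤ ε`.
* algebra on a band: `rgm_alg_I` (`e (s-t) = T (rho + g(k)) + z`), `rgm_alg_ks` (`k - s = -x^2 (rho + g(k))`), `rgm_alg_gam` (`gam = e (t-s)(2-p+p s/t) - e p dl^2/t`).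
-/

set_option autoImplicit false

namespace Claimed.Agent.R286

open MeasureTheory Filter Set Topology

variable {𝒰 : Ultrafilter ℕ} {D : ℕ → RgDat} {T A B : ℝ}

/-! ### one system -/

theorem rgm_band_meas (d : RgDat) (ha : Monotone d.a) (c C : ℝ) : MeasurableSet (d.band c C) := by
  have h : d.band c C = Icc 0 C ∩ d.a ⁻¹' (Icc c C) := by
    ext t; simp only [RgDat.band, mem_ofPred_eq, mem_inter_iff, mem_Icc, mem_preimage]; tauto
  rw [h]
  exact measurableSet_Icc.inter (ha.measurable measurableSet_Icc)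

theorem rgm_band_Icc (d : RgDat) (ha : Monotone d.a) {c C t t' : ℝ} (ht : t ∈ d.band c C) (ht' : t' ∈ d.band c C) :
    Icc t t' ⊆ d.band c C := by
  intro u hu
  exact ⟨ht.1.trans hu.1, hu.2.trans ht'.2.1, ht.2.2.1.trans (ha hu.1), (ha hu.2).trans ht'.2.2.2⟩

theorem rgm_band_subset_Icc (d : RgDat) (c C : ℝ) : d.band c C ⊆ Icc 0 C := fun _ ht => ⟨ht.1, ht.2.1⟩

/-- `e (s - t) = T (rho + g(k)) + z` -/
theorem rgm_alg_I (d : RgDat) (hT : 0 < d.T) (t : ℝ) :
    d.e t * (d.s t - t) = d.T * (d.rho t + d.g (d.k t)) + d.z t := by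
  unfold RgDat.rho
  field_simp
  ring

/-- `k - s = - x^2 (rho + g(k))` -/
theorem rgm_alg_ks (d : RgDat) (hT : 0 < d.T) (t : ℝ)
    (hk : d.k t = t + (1 - d.x ^ 2 * d.e t / d.T) * (d.s t - t) + d.x ^ 2 * d.z t / d.T) :
    d.k t - d.s t = -(d.x ^ 2 * (d.rho t + d.g (d.k t))) := by
  have h1 : d.rho t + d.g (d.k t) = d.e t * (d.s t - t) / d.T - d.z t / d.T := by
    unfold RgDat.rho; ring
  rw [h1]
  conv_lhs => rw [hk]
  field_simp
  ring

/-- `gam = e (t - s) (2 - p + p s/t) - e p dl^2/t` -/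
theorem rgm_alg_gam (d : RgDat) (t : ℝ) (ht : 0 < t) :
    d.gam t = d.e t * (t - d.s t) * (2 - d.p t + d.p t * d.s t / t) - d.e t * d.p t * d.dl t ^ 2 / t := by
  unfold RgDat.gam
  field_simp
  ring

theorem rgm_phi_int (d : RgDat) {c1 C1 t1 Cth : ℝ} (ok : d.Ok c1 C1 t1 Cth) (hR : 0 ≤ d.R) :
    IntervalIntegrable (fun τ => d.P τ - d.Bc τ * d.aK τ) volume 0 d.R := by
  have hu : uIcc 0 d.R = Icc 0 d.R := uIcc_of_le hR
  have h1 : IntervalIntegrable d.P volume 0 d.R := by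
    apply ContinuousOn.intervalIntegrable; rw [hu]; exact ok.P_cont
  have h2 : IntervalIntegrable (fun τ => d.Bc τ * d.aK τ) volume 0 d.R := by
    apply (ok.aK_mono.intervalIntegrable (μ := volume) (a := 0) (b := d.R)).continuousOn_mul
    rw [hu]; exact ok.Bc_cont
  exact h1.sub h2

theorem rgm_g1_contOn (d : RgDat) {c1 C1 t1 Cth : ℝ} (ok : d.Ok c1 C1 t1 Cth) (hR : 0 ≤ d.R) :
    ContinuousOn d.g1 (Icc 0 d.R) := by
  have hu : uIcc 0 d.R = Icc 0 d.R := uIcc_of_le hR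
  have h := intervalIntegral.continuousOn_primitive_interval' (rgm_phi_int d ok hR) (left_mem_uIcc)
  rw [hu] at h
  have h2 : ContinuousOn (fun t => d.g1 0 + ∫ τ in (0:ℝ)..t, (d.P τ - d.Bc τ * d.aK τ)) (Icc 0 d.R) :=
    continuousOn_const.add h
  refine h2.congr ?_
  intro t ht
  exact ok.g1_eq t ht.1 ht.2

theorem rgm_g_contOn (d : RgDat) {c1 C1 t1 Cth : ℝ} (ok : d.Ok c1 C1 t1 Cth) (hR : 0 ≤ d.R) :
    ContinuousOn d.g (Icc 0 d.R) := by
  have hu : uIcc 0 d.R = Icc 0 d.R := uIcc_of_le hR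
  have hi : IntervalIntegrable d.g1 volume 0 d.R := by
    apply ContinuousOn.intervalIntegrable; rw [hu]; exact rgm_g1_contOn d ok hR
  have h := intervalIntegral.continuousOn_primitive_interval' hi (left_mem_uIcc)
  rw [hu] at h
  refine h.congr ?_
  intro t ht
  exact ok.g_eq t ht.1 ht.2

theorem rgm_gam_meas (d : RgDat) {c1 C1 t1 Cth : ℝ} (ok : d.Ok c1 C1 t1 Cth) : Measurable d.gam := by
  have hs := ok.s_mono.measurable
  have he := ok.e_meas
  have hp := ok.p_meas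
  have hd := ok.dl_meas
  unfold RgDat.gam
  fun_prop

theorem rgm_rho_aesm (d : RgDat) {c1 C1 t1 Cth : ℝ} (ok : d.Ok c1 C1 t1 Cth) (hR : 0 ≤ d.R) (c C : ℝ)
    (hk : ∀ t ∈ d.band c C, d.k t ≤ d.R) : AEStronglyMeasurable d.rho (volume.restrict (d.band c C)) := by
  have hs := ok.s_mono.measurable
  have he := ok.e_meas
  have hz := ok.z_meas
  have hkm := ok.k_mono.measurable
  have hcl : Continuous (fun u : ℝ => d.g (max 0 (min u d.R))) := by
    refine (rgm_g_contOn d ok hR).comp_continuous (by fun_prop) ?_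
    intro u
    exact ⟨le_max_left _ _, max_le hR (min_le_right _ _)⟩
  have hm : Measurable (fun t => d.e t * (d.s t - t) / d.T - d.g (max 0 (min (d.k t) d.R)) - d.z t / d.T) := by
    have h1 : Measurable (fun t => d.g (max 0 (min (d.k t) d.R))) := hcl.measurable.comp hkm
    fun_prop
  refine hm.aestronglyMeasurable.congr ?_
  refine ae_restrict_of_forall_mem (rgm_band_meas d ok.a_mono c C) ?_
  intro t ht
  have h1 : max 0 (min (d.k t) d.R) = d.k t := by
    rw [min_eq_left (hk t ht), max_eq_right (ok.k_nn t)]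
  simp only [RgDat.rho, h1]

theorem rgm_band_vol (d : RgDat) (c C : ℝ) : volume (d.band c C) < ⊤ :=
  lt_of_le_of_lt (measure_mono (rgm_band_subset_Icc d c C)) (by simp)

theorem rgm_rho_intOn (d : RgDat) {c1 C1 t1 Cth : ℝ} (ok : d.Ok c1 C1 t1 Cth) (hR : 0 ≤ d.R) (c C M : ℝ)
    (hk : ∀ t ∈ d.band c C, d.k t ≤ d.R) (hb : ∀ t ∈ d.band c C, |d.rho t| ≤ M) :
    IntegrableOn (fun t => |d.rho t|) (d.band c C) := by
  have h : IntegrableOn d.rho (d.band c C) := by
    refine IntegrableOn.of_bound (rgm_band_vol d c C) (rgm_rho_aesm d ok hR c C hk) M ?_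
    refine ae_restrict_of_forall_mem (rgm_band_meas d ok.a_mono c C) ?_
    intro t ht
    simpa using hb t ht
  exact h.abs

theorem rgm_dl_intOn (d : RgDat) {c1 C1 t1 Cth : ℝ} (ok : d.Ok c1 C1 t1 Cth) (c C M : ℝ)
    (hb : ∀ t ∈ d.band c C, d.dl t ≤ M) : IntegrableOn (fun t => d.dl t ^ 2) (d.band c C) := by
  refine IntegrableOn.of_bound (rgm_band_vol d c C) (ok.dl_meas.pow_const 2).aestronglyMeasurable (M ^ 2) ?_
  refine ae_restrict_of_forall_mem (rgm_band_meas d ok.a_mono c C) ?_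
  intro t ht
  have h0 := ok.dl_nn t
  rw [Real.norm_eq_abs, abs_of_nonneg (by positivity)]
  exact pow_le_pow_left₀ h0 (hb t ht) 2

/-- from the band to an interval inside the band -/
theorem rgm_int_le_band (d : RgDat) (c C : ℝ) (f : ℝ → ℝ) (hf : IntegrableOn f (d.band c C)) (h0 : ∀ t, 0 ≤ f t)
    {t' t'' : ℝ} (hle : t' ≤ t'') (hsub : Icc t' t'' ⊆ d.band c C) :
    IntervalIntegrable f volume t' t'' ∧ ∫ t in t'..t'', f t ≤ ∫ t in d.band c C, f t := by
  have hs : Ioc t' t'' ⊆ d.band c C := Ioc_subset_Icc_self.trans hsub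
  refine ⟨(intervalIntegrable_iff_integrableOn_Ioc_of_le hle).2 (hf.mono_set hs), ?_⟩
  rw [intervalIntegral.integral_of_le hle]
  exact setIntegral_mono_set hf (ae_of_all _ h0) (LE.le.eventuallyLE hs)

/-! ### along the filter -/

variable {l : Filter ℕ}

theorem rgm_T_bds (h : RgHyp l D T A B) : ∀ᶠ n in l, T / 2 ≤ (D n).T ∧ (D n).T ≤ 2 * T := by
  have hT := h.T_pos
  have h1 : ∀ᶠ n in l, T / 2 < (D n).T := (tendsto_order.1 h.T_lim).1 _ (by linarith)
  have h2 : ∀ᶠ n in l, (D n).T < 2 * T := (tendsto_order.1 h.T_lim).2 _ (by linarith)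
  filter_upwards [h1, h2] with n a b
  exact ⟨a.le, b.le⟩

theorem rgm_a0_lt (h : RgHyp l D T A B) (c : ℝ) (hc : 0 < c) : ∀ᶠ n in l, (D n).a 0 < c :=
  (tendsto_order.1 h.a0_lim).2 _ hc

theorem rgm_R_ge (h : RgHyp l D T A B) (C : ℝ) : ∀ᶠ n in l, C ≤ (D n).R :=
  h.R_lim.eventually_ge_atTop C

theorem rgm_x_le (h : RgHyp l D T A B) (ε : ℝ) (hε : 0 < ε) : ∀ᶠ n in l, (D n).x ≤ ε := by
  filter_upwards [(tendsto_order.1 h.x_lim).2 _ hε] with n a using a.le

theorem rgm_ell_le (h : RgHyp l D T A B) (ε : ℝ) (hε : 0 < ε) : ∀ᶠ n in l, (D n).ell ≤ ε := by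
  filter_upwards [(tendsto_order.1 h.ell_lim).2 _ hε] with n a using a.le

/-- the scalar clock is bounded on a band -/
theorem rgm_k_bdd (h : RgHyp l D T A B) (c C : ℝ) (hc : 0 < c) :
    ∃ Ck : ℝ, ∀ᶠ n in l, ∀ t ∈ (D n).band c C, (D n).k t ≤ Ck := by
  obtain ⟨c1, C1, t1, Cth, hc1, hC1, ht1, hCth, hok⟩ := h.ok
  obtain ⟨C', hraw⟩ := h.raw c C hc
  have hT := h.T_pos
  refine ⟨C + (1 + 2 * Cth / T) * (C' + C) + 2 / T, ?_⟩
  filter_upwards [hok, hraw, h.z_lim c C 1 hc one_pos, rgm_x_le h 1 one_pos, rgm_T_bds h, rgm_a0_lt h c hc,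
    rgm_R_ge h C] with n ok raw hz hx hTn ha0 hR t ht
  have ht0 := ht.1
  have htC := ht.2.1
  have hs0 := ok.s_nn t
  have hsC := (raw t ht).1
  have hTp : 0 < (D n).T := ok.T_pos
  have hkeq := ok.k_eq t ht0 (htC.trans hR) (lt_of_lt_of_le ha0 ht.2.2.1)
  have he0 := ok.e_pos t ht0 (htC.trans hR)
  have heC := ok.e_le t ht0 (htC.trans hR)
  have hx2 : (D n).x ^ 2 ≤ 1 := by
    have := ok.x_pos
    nlinarith
  have hx0 : 0 ≤ (D n).x ^ 2 := by positivity
  -- the coefficient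
  have hq0 : 0 ≤ (D n).x ^ 2 * (D n).e t / (D n).T := by positivity
  have hq1 : (D n).x ^ 2 * (D n).e t / (D n).T ≤ 2 * Cth / T := by
    rw [div_le_div_iff₀ hTp hT]
    nlinarith [hTn.1]
  have h1 : (1 - (D n).x ^ 2 * (D n).e t / (D n).T) * ((D n).s t - t) ≤ (1 + 2 * Cth / T) * (C' + C) := by
    have ha : |(1 - (D n).x ^ 2 * (D n).e t / (D n).T) * ((D n).s t - t)| ≤ (1 + 2 * Cth / T) * (C' + C) := by
      rw [abs_mul]
      apply mul_le_mul
      · rw [abs_le]; constructor <;> linarith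
      · rw [abs_le]; constructor <;> linarith
      · positivity
      · positivity
    exact (le_abs_self _).trans ha
  have h2 : (D n).x ^ 2 * (D n).z t / (D n).T ≤ 2 / T := by
    have hz1 := (abs_le.1 (hz t ht)).2
    have h3 : (D n).x ^ 2 * (D n).z t ≤ 1 := by nlinarith
    rw [div_le_div_iff₀ hTp hT]
    nlinarith [hTn.1]
  rw [hkeq]
  linarith

/-- EXIT: eventually, on EVERY interval inside the band, `|rho|` is interval integrable with integral `≤ ε` -/
theorem rgm_rho_small (h : RgHyp l D T A B) (c C ε : ℝ) (hc : 0 < c) (hε : 0 < ε) :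
    ∀ᶠ n in l, ∀ t' t'' : ℝ, t' ≤ t'' → Icc t' t'' ⊆ (D n).band c C →
      IntervalIntegrable (fun t => |(D n).rho t|) volume t' t'' ∧ ∫ t in t'..t'', |(D n).rho t| ≤ ε := by
  obtain ⟨c1, C1, t1, Cth, hc1, hC1, ht1, hCth, hok⟩ := h.ok
  obtain ⟨Ck, hk⟩ := rgm_k_bdd h c C hc
  obtain ⟨M, hM⟩ := h.rho_bd c C hc
  filter_upwards [hok, hk, hM, rgm_R_ge h (max Ck 0), (tendsto_order.1 (h.rho_rad c C hc)).2 _ hε]
    with n ok hk hM hR hint t' t'' hle hsub
  have hR0 : 0 ≤ (D n).R := (le_max_right _ _).trans hR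
  have hi := rgm_rho_intOn (D n) ok hR0 c C M (fun t ht => (hk t ht).trans ((le_max_left _ _).trans hR)) hM
  obtain ⟨h1, h2⟩ := rgm_int_le_band (D n) c C _ hi (fun t => abs_nonneg _) hle hsub
  exact ⟨h1, h2.trans hint.le⟩

/-- EXIT: the same for `dl^2` -/
theorem rgm_dl_small (h : RgHyp l D T A B) (c C ε : ℝ) (hc : 0 < c) (hε : 0 < ε) :
    ∀ᶠ n in l, ∀ t' t'' : ℝ, t' ≤ t'' → Icc t' t'' ⊆ (D n).band c C →
      IntervalIntegrable (fun t => (D n).dl t ^ 2) volume t' t'' ∧ ∫ t in t'..t'', (D n).dl t ^ 2 ≤ ε := by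
  obtain ⟨c1, C1, t1, Cth, hc1, hC1, ht1, hCth, hok⟩ := h.ok
  obtain ⟨M, hM⟩ := h.raw c C hc
  filter_upwards [hok, hM, (tendsto_order.1 (h.dl_rad c C hc)).2 _ hε] with n ok hM hint t' t'' hle hsub
  have hi := rgm_dl_intOn (D n) ok c C M (fun t ht => (hM t ht).2)
  obtain ⟨h1, h2⟩ := rgm_int_le_band (D n) c C _ hi (fun t => by positivity) hle hsub
  exact ⟨h1, h2.trans hint.le⟩

end Claimed.Agent.R286
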