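import Claimed.Agent.R286.Rig.Defs

/-!
# Row 286, unit RIG, file 11: closure in mass and radius from the modulus form of the one-site closure          (helper48)

Paper: PE `profile.tex` l.68-138 (Lemma 5.2, second half).  TEX[PE:prof:coordinate-closure]
INPUT (abstract, no spins): the structural facts `Ok`, `a 0 → 0`, `R → ∞`, the raw bound R2, the concentration (19) in BOTH coordinates (`dl_rad`, `dl_mass`) and
the MODULUS form of Prop 4.1 (ledger D7 CAV, ask A2):  `|rho t| ≤ C0 (eta_n + dl(t)^theta)` at every radius of the band, `eta_n → 0`, `theta > 0`.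
OUTPUT: the three fields `rho_bd`, `rho_rad`, `rho_mass` of `RgHyp`.
No Hoelder: `dl^theta ≤ eps^theta + C'^theta dl^2/eps^2` on the band.  `rho` need not be measurable (`integral_mono_of_nonneg`; outer measure).
-/

set_option autoImplicit false

namespace Claimed.Agent.R286

open MeasureTheory Filter Set Topology

variable {l : Filter ℕ} {D : ℕ → RgDat}

/-- the modulus form of the uniform one-site closure (PE Prop 4.1), on the bands of the test scale -/
def RgMod (l : Filter ℕ) (D : ℕ → RgDat) : Prop :=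
  ∀ c C : ℝ, 0 < c → ∃ (C0 θ : ℝ) (η : ℕ → ℝ), 0 < C0 ∧ 0 < θ ∧ Tendsto η l (𝓝 0) ∧
    ∀ᶠ n in l, ∀ t ∈ (D n).band c C, |(D n).rho t| ≤ C0 * (η n + (D n).dl t ^ θ)

theorem RgMod_eqns_cite : @RgMod = fun l D =>
  ∀ c C : ℝ, 0 < c → ∃ (C0 θ : ℝ) (η : ℕ → ℝ), 0 < C0 ∧ 0 < θ ∧ Tendsto η l (𝓝 0) ∧
    ∀ᶠ n in l, ∀ t ∈ (D n).band c C, |(D n).rho t| ≤ C0 * (η n + (D n).dl t ^ θ) := by
  funext l D
  exact RgMod.eq_1 l D

/-- the band is measurable -/
theorem rg_band_meas {d : RgDat} (ha : Monotone d.a) (c C : ℝ) : MeasurableSet (d.band c C) := by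
  have hm := ha.measurable
  have e : d.band c C = Icc 0 C ∩ d.a ⁻¹' Icc c C := by
    ext t
    simp only [RgDat.band, mem_ofPred_eq, mem_inter_iff, mem_Icc, mem_preimage]
    tauto
  rw [e]
  exact measurableSet_Icc.inter (hm measurableSet_Icc)

/-- the band lies in `[0,C]` -/
theorem rg_band_sub (d : RgDat) (c C : ℝ) : d.band c C ⊆ Icc 0 C := fun _ ht => ⟨ht.1, ht.2.1⟩

/-- R4, uniform bound -/
theorem rg_mod_bd (hmod : RgMod l D)
    (hdl : ∀ᶠ n in l, ∀ t, 0 ≤ (D n).dl t)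
    (raw : ∀ c C : ℝ, 0 < c → ∃ C' : ℝ, ∀ᶠ n in l, ∀ t ∈ (D n).band c C, (D n).s t ≤ C' ∧ (D n).dl t ≤ C')
    (c C : ℝ) (hc : 0 < c) : ∃ C' : ℝ, ∀ᶠ n in l, ∀ t ∈ (D n).band c C, |(D n).rho t| ≤ C' := by
  obtain ⟨C0, θ, η, hC0, hθ, hη, hm⟩ := hmod c C hc
  obtain ⟨C', hraw⟩ := raw c C hc
  refine ⟨C0 * (1 + C' ^ θ), ?_⟩
  filter_upwards [hm, hraw, hdl, hη.eventually (gt_mem_nhds one_pos)] with n hm hraw hdl hη t ht
  refine (hm t ht).trans ?_
  have h1 : (D n).dl t ^ θ ≤ C' ^ θ := Real.rpow_le_rpow (hdl t) (hraw t ht).2 hθ.le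
  have : η n + (D n).dl t ^ θ ≤ 1 + C' ^ θ := by linarith
  exact mul_le_mul_of_nonneg_left this hC0.le

/-- R4 in the radius coordinate -/
theorem rg_mod_rad (hmod : RgMod l D)
    (ha : ∀ᶠ n in l, Monotone (D n).a) (hdl : ∀ᶠ n in l, ∀ t, 0 ≤ (D n).dl t)
    (hdm : ∀ᶠ n in l, Measurable (D n).dl)
    (raw : ∀ c C : ℝ, 0 < c → ∃ C' : ℝ, ∀ᶠ n in l, ∀ t ∈ (D n).band c C, (D n).s t ≤ C' ∧ (D n).dl t ≤ C')
    (dl_rad : ∀ c C : ℝ, 0 < c → Tendsto (fun n => ∫ t in (D n).band c C, (D n).dl t ^ 2) l (𝓝 0))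
    (c C : ℝ) (hc : 0 < c) : Tendsto (fun n => ∫ t in (D n).band c C, |(D n).rho t|) l (𝓝 0) := by
  obtain ⟨C0, θ, η, hC0, hθ, hη, hm⟩ := hmod c C hc
  obtain ⟨C', hraw⟩ := raw c C hc
  rw [tendsto_order]
  constructor
  · intro b hb
    exact Eventually.of_forall fun n => hb.trans_le (integral_nonneg fun t => abs_nonneg _)
  intro ε0 hε0
  obtain ⟨Cp, hCp⟩ : ∃ Cp : ℝ, Cp = max C 0 := ⟨_, rfl⟩
  have hCp0 : 0 ≤ Cp := by rw [hCp]; exact le_max_right _ _
  obtain ⟨e1, he1⟩ : ∃ e1 : ℝ, e1 = ε0 / (3 * C0 * (Cp + 1)) := ⟨_, rfl⟩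
  have he10 : 0 < e1 := by rw [he1]; positivity
  obtain ⟨δ, hδ⟩ : ∃ δ : ℝ, δ = e1 ^ θ⁻¹ := ⟨_, rfl⟩
  have hδ0 : 0 < δ := by rw [hδ]; exact Real.rpow_pos_of_pos he10 _
  have hδθ : δ ^ θ = e1 := by rw [hδ]; exact Real.rpow_inv_rpow he10.le hθ.ne'
  obtain ⟨K, hK⟩ : ∃ K : ℝ, K = |C'| ^ θ / δ ^ 2 := ⟨_, rfl⟩
  have hK0 : 0 ≤ K := by rw [hK]; positivity
  have hI := (tendsto_order.1 (dl_rad c C hc)).2 (ε0 / (3 * C0 * (K + 1))) (by positivity)
  filter_upwards [hm, hraw, hdl, ha, hdm, hI, hη.eventually (gt_mem_nhds he10)]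
    with n hm hraw hdl ha hdm hI hη
  have hbm := rg_band_meas ha c C
  have hfin : volume ((D n).band c C) ≠ ⊤ :=
    ((measure_mono (rg_band_sub (D n) c C)).trans_lt (by simp)).ne
  have hV : (volume ((D n).band c C)).toReal ≤ Cp := by
    have h1 : volume ((D n).band c C) ≤ ENNReal.ofReal Cp := by
      refine (measure_mono (rg_band_sub (D n) c C)).trans ?_
      rw [Real.volume_Icc]
      exact ENNReal.ofReal_le_ofReal (by rw [hCp, sub_zero]; exact le_max_left _ _)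
    exact ENNReal.toReal_le_of_le_ofReal hCp0 h1
  have hint2 : IntegrableOn (fun t => (D n).dl t ^ 2) ((D n).band c C) volume := by
    refine Measure.integrableOn_of_bounded (M := C' ^ 2) hfin (hdm.pow_const 2).aestronglyMeasurable ?_
    rw [ae_restrict_iff' hbm]
    refine Eventually.of_forall fun t ht => ?_
    rw [Real.norm_eq_abs, abs_of_nonneg (by positivity)]
    exact pow_le_pow_left₀ (hdl t) (hraw t ht).2 2
  have hGint : IntegrableOn (fun t => C0 * (2 * e1) + C0 * K * (D n).dl t ^ 2) ((D n).band c C) volume :=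
    (integrableOn_const hfin).add (hint2.const_mul _)
  have hle : ∫ t in (D n).band c C, |(D n).rho t|
      ≤ ∫ t in (D n).band c C, (C0 * (2 * e1) + C0 * K * (D n).dl t ^ 2) := by
    refine integral_mono_of_nonneg (Eventually.of_forall fun t => abs_nonneg _) hGint ?_
    rw [Filter.EventuallyLE, ae_restrict_iff' hbm]
    refine Eventually.of_forall fun t ht => ?_
    refine (hm t ht).trans ?_
    have hx0 := hdl t
    have hxC := (hraw t ht).2
    have hkey : (D n).dl t ^ θ ≤ e1 + K * (D n).dl t ^ 2 := by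
      rcases le_or_gt ((D n).dl t) δ with hs | hb
      · have h1 : (D n).dl t ^ θ ≤ δ ^ θ := Real.rpow_le_rpow hx0 hs hθ.le
        have h2 : 0 ≤ K * (D n).dl t ^ 2 := by positivity
        rw [hδθ] at h1
        linarith
      · have h1 : (D n).dl t ^ θ ≤ |C'| ^ θ :=
          Real.rpow_le_rpow hx0 (hxC.trans (le_abs_self _)) hθ.le
        have h2 : 1 ≤ (D n).dl t ^ 2 / δ ^ 2 := by
          rw [one_le_div (by positivity)]
          exact pow_le_pow_left₀ hδ0.le hb.le 2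
        have h3 : K * (D n).dl t ^ 2 = |C'| ^ θ * ((D n).dl t ^ 2 / δ ^ 2) := by
          rw [hK]; ring
        have h4 : 0 ≤ |C'| ^ θ := by positivity
        rw [h3]
        nlinarith
    have : C0 * (η n + (D n).dl t ^ θ) ≤ C0 * (e1 + (e1 + K * (D n).dl t ^ 2)) :=
      mul_le_mul_of_nonneg_left (by linarith) hC0.le
    linarith
  have heq : ∫ t in (D n).band c C, (C0 * (2 * e1) + C0 * K * (D n).dl t ^ 2)
      = C0 * (2 * e1) * (volume ((D n).band c C)).toReal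
        + C0 * K * ∫ t in (D n).band c C, (D n).dl t ^ 2 := by
    have hc1 : IntegrableOn (fun _ : ℝ => C0 * (2 * e1)) ((D n).band c C) volume :=
      integrableOn_const hfin
    have hc2 : IntegrableOn (fun t => C0 * K * (D n).dl t ^ 2) ((D n).band c C) volume :=
      hint2.const_mul _
    have hc3 : ∫ t in (D n).band c C, C0 * K * (D n).dl t ^ 2
        = C0 * K * ∫ t in (D n).band c C, (D n).dl t ^ 2 := integral_const_mul _ _
    rw [integral_add hc1 hc2, hc3, setIntegral_const, smul_eq_mul, Measure.real]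
    ring
  have b1 : C0 * (2 * e1) * (volume ((D n).band c C)).toReal ≤ C0 * (2 * e1) * Cp :=
    mul_le_mul_of_nonneg_left hV (by positivity)
  have b2 : C0 * (2 * e1) * Cp < 2 * ε0 / 3 := by
    have : C0 * (2 * e1) * Cp = 2 * ε0 / 3 * (Cp / (Cp + 1)) := by
      rw [he1]; field_simp
    rw [this]
    have h1 : Cp / (Cp + 1) < 1 := by
      rw [div_lt_one (by positivity)]; linarith
    have : 0 < 2 * ε0 / 3 := by positivity
    nlinarith
  have b3 : C0 * K * ∫ t in (D n).band c C, (D n).dl t ^ 2 ≤ ε0 / 3 := by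
    have h1 : C0 * K * ∫ t in (D n).band c C, (D n).dl t ^ 2
        ≤ C0 * K * (ε0 / (3 * C0 * (K + 1))) := mul_le_mul_of_nonneg_left hI.le (by positivity)
    have h2 : C0 * K * (ε0 / (3 * C0 * (K + 1))) = ε0 / 3 * (K / (K + 1)) := by
      field_simp
    have h3 : K / (K + 1) ≤ 1 := by
      rw [div_le_one (by positivity)]; linarith
    have : 0 < ε0 / 3 := by positivity
    nlinarith
  linarith

/-- R4 in the mass coordinate -/
theorem rg_mod_mass (hmod : RgMod l D) {c1 C1 t1 Cth : ℝ} (hc1 : 0 < c1)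
    (hok : ∀ᶠ n in l, (D n).Ok c1 C1 t1 Cth)
    (R_lim : Tendsto (fun n => (D n).R) l atTop) (a0_lim : Tendsto (fun n => (D n).a 0) l (𝓝 0))
    (dl_mass : ∀ c C ε : ℝ, 0 < c → 0 < ε →
      Tendsto (fun n => volume ((D n).mset c C (fun t => ε < (D n).dl t))) l (𝓝 0))
    (c C ε : ℝ) (hc : 0 < c) (hε : 0 < ε) :
    Tendsto (fun n => volume ((D n).mset c C (fun t => ε < |(D n).rho t|))) l (𝓝 0) := by
  obtain ⟨C0, θ, η, hC0, hθ, hη, hm⟩ := hmod c C hc
  obtain ⟨e1, he1⟩ : ∃ e1 : ℝ, e1 = ε / (2 * C0) := ⟨_, rfl⟩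
  have he10 : 0 < e1 := by rw [he1]; positivity
  obtain ⟨δ, hδ⟩ : ∃ δ : ℝ, δ = e1 ^ θ⁻¹ := ⟨_, rfl⟩
  have hδ0 : 0 < δ := by rw [hδ]; exact Real.rpow_pos_of_pos he10 _
  have hδθ : δ ^ θ = e1 := by rw [hδ]; exact Real.rpow_inv_rpow he10.le hθ.ne'
  refine tendsto_of_tendsto_of_tendsto_of_le_of_le' tendsto_const_nhds (dl_mass c C δ hc hδ0)
    (Eventually.of_forall fun n => zero_le) ?_
  filter_upwards [hm, hok, a0_lim.eventually (gt_mem_nhds hc), R_lim.eventually_ge_atTop (C / c1),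
    hη.eventually (gt_mem_nhds he10)] with n hm ok ha0 hR hη
  refine measure_mono ?_
  rintro v ⟨hv1, hv2, hv3, hv4⟩
  refine ⟨hv1, hv2, hv3, ?_⟩
  have hCR : C ≤ (D n).a (D n).R := by
    have h1 := (ok.outer (D n).R ok.R_ge le_rfl).1
    rw [div_le_iff₀ hc1] at hR
    linarith
  obtain ⟨q1, q2, q3⟩ := ok.quant v (ha0.trans_le hv1) (hv2.trans hCR)
  have hb : (D n).r v ∈ (D n).band c C := ⟨q1, hv3, by rw [q3]; exact hv1, by rw [q3]; exact hv2⟩
  have h1 := hm _ hb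
  by_contra hcon
  have h2 : (D n).dl ((D n).r v) ^ θ ≤ δ ^ θ :=
    Real.rpow_le_rpow (ok.dl_nn _) (not_lt.mp hcon) hθ.le
  rw [hδθ] at h2
  have h3 : C0 * (η n + (D n).dl ((D n).r v) ^ θ) < C0 * (e1 + e1) :=
    mul_lt_mul_of_pos_left (by linarith) hC0
  have h4 : C0 * (e1 + e1) = ε := by rw [he1]; field_simp; ring
  linarith

end Claimed.Agent.R286
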