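import Claimed.Agent.R286.Rig.Defs

/-!
# Row 286, unit RIG, file 3: the limiting scalar equation has no gaps          (architect helper24; proofs helper240)

Paper: PE `profile.tex` l.531-567 (end of the proof of Theorem 5.1).  Pure real analysis, Mathlib only.
`U` = limiting cumulative mass (monotone, `U 0 = 0`, NOT assumed right continuous), `rgSupp U` = its growth points in `[0,∞)`,
`G1 = γ0 + ∫_0^t (A τ - B U)`, `G = ∫_0^t G1`   (the limits of `g_n'`, `g_n`).
PROOF of `rg_ode`.  (1) `rgSupp U` is closed, nonempty, unbounded.  (2) `U` is constant on every interval of `[0,∞)` free of growth points.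
(3) if `t* > l := inf supp` is not a growth point: `a1 = sup (supp ∩ [0,t*])`, `a2 = inf (supp ∩ [t*,∞))`, `U = U0` on `(a1,a2)`, `U0 > 0` because `a1 ∈ supp`;
 `G a1 = G a2 = 0` and `G1' = A τ - B U0` give `G1 a1 + G1 a2 = A (a2-a1)^2/6 > 0` (`rg_cubic`), against `hgap`.
(4) so `G = 0` on `[l,∞)`, `G1 = 0` there, `∫_{t1}^{t2} (A τ - B U) = 0`, and monotonicity gives `U τ = A τ/B` for `τ > l`.
(5) `l > 0` is impossible: `U = 0` on `[0,l)`, `G1 τ = -A (l^2-τ^2)/2`, `0 = G l - G 0 = -A l^3/3`.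
-/

set_option autoImplicit false

namespace Claimed.Agent.R286

open MeasureTheory Filter Set Topology

/-- growth points of a monotone function on `[0,∞)` -/
def rgSupp (U : ℝ → ℝ) : Set ℝ := {t | 0 ≤ t ∧ ∀ ε, 0 < ε → U (max (t - ε) 0) < U (t + ε)}

/-- limit of `g_n'` -/
noncomputable def rgG1 (A B γ0 : ℝ) (U : ℝ → ℝ) (t : ℝ) : ℝ := γ0 + ∫ τ in (0:ℝ)..t, (A * τ - B * U τ)

/-- limit of `g_n` -/
noncomputable def rgG (A B γ0 : ℝ) (U : ℝ → ℝ) (t : ℝ) : ℝ := ∫ τ in (0:ℝ)..t, rgG1 A B γ0 U τ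

theorem rg_phi_int (A B : ℝ) (U : ℝ → ℝ) (hU : Monotone U) (a b : ℝ) :
    IntervalIntegrable (fun τ => A * τ - B * U τ) volume a b :=
  ((continuous_const.mul continuous_id).intervalIntegrable a b).sub
    ((hU.intervalIntegrable).const_mul B)

theorem rg_G1_cont (A B γ0 : ℝ) (U : ℝ → ℝ) (hU : Monotone U) : Continuous (rgG1 A B γ0 U) :=
  continuous_const.add (intervalIntegral.continuous_primitive (rg_phi_int A B U hU) 0)

theorem rg_G_deriv (A B γ0 : ℝ) (U : ℝ → ℝ) (hU : Monotone U) (t : ℝ) :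
    HasDerivAt (rgG A B γ0 U) (rgG1 A B γ0 U t) t :=
  ((rg_G1_cont A B γ0 U hU).integral_hasStrictDerivAt 0 t).hasDerivAt

theorem rg_G1_sub (A B γ0 : ℝ) (U : ℝ → ℝ) (hU : Monotone U) (t1 t2 : ℝ) :
    rgG1 A B γ0 U t2 - rgG1 A B γ0 U t1 = ∫ τ in t1..t2, (A * τ - B * U τ) := by
  rw [← intervalIntegral.integral_interval_sub_left (rg_phi_int A B U hU 0 t2)
    (rg_phi_int A B U hU 0 t1)]
  simp only [rgG1]
  ring

theorem rg_G_sub (A B γ0 : ℝ) (U : ℝ → ℝ) (hU : Monotone U) (t1 t2 : ℝ) :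
    rgG A B γ0 U t2 - rgG A B γ0 U t1 = ∫ τ in t1..t2, rgG1 A B γ0 U τ := by
  rw [← intervalIntegral.integral_interval_sub_left
    ((rg_G1_cont A B γ0 U hU).intervalIntegrable 0 t2)
    ((rg_G1_cont A B γ0 U hU).intervalIntegrable 0 t1)]
  rfl

/-- explicit integral of a quadratic polynomial written around the left end point -/
theorem rg_int_quad (p m A a t : ℝ) :
    ∫ x in a..t, (p + m * (x - a) + A * (x - a) ^ 2 / 2)
      = p * (t - a) + m * (t - a) ^ 2 / 2 + A * (t - a) ^ 3 / 6 := by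
  have hd : ∀ x ∈ uIcc a t, HasDerivAt
      (fun x : ℝ => p * (x - a) + m * (x - a) ^ 2 / 2 + A * (x - a) ^ 3 / 6)
      (p + m * (x - a) + A * (x - a) ^ 2 / 2) x := by
    intro x _
    have h := (hasDerivAt_id' x).sub_const a
    have h2 := h.pow 2
    have h3 := h.pow 3
    have H := ((h.const_mul p).add (h2.const_mul (m / 2))).add (h3.const_mul (A / 6))
    refine (H.congr_deriv ?_).congr_of_eventuallyEq (Eventually.of_forall fun y => ?_)
    · norm_num
      ring
    · simp only [Pi.add_apply, Pi.pow_apply]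
      ring
  have hint : IntervalIntegrable (fun x : ℝ => p + m * (x - a) + A * (x - a) ^ 2 / 2)
      volume a t := by
    apply Continuous.intervalIntegrable
    fun_prop
  rw [intervalIntegral.integral_eq_sub_of_hasDerivAt hd hint]
  ring

/-- on an interval where `U` is constant, `G1` and `G` are explicit polynomials -/
theorem rg_gap_poly (A B γ0 a1 a2 U0 : ℝ) (U : ℝ → ℝ) (hU : Monotone U)
    (hc : ∀ t ∈ Ioo a1 a2, U t = U0) {t : ℝ} (ht : t ∈ Icc a1 a2) :
    rgG1 A B γ0 U t = rgG1 A B γ0 U a1 + (A * a1 - B * U0) * (t - a1) + A * (t - a1) ^ 2 / 2 ∧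
    rgG A B γ0 U t = rgG A B γ0 U a1 + rgG1 A B γ0 U a1 * (t - a1)
      + (A * a1 - B * U0) * (t - a1) ^ 2 / 2 + A * (t - a1) ^ 3 / 6 := by
  have key : ∀ y ∈ Icc a1 a2, rgG1 A B γ0 U y
      = rgG1 A B γ0 U a1 + (A * a1 - B * U0) * (y - a1) + A * (y - a1) ^ 2 / 2 := by
    intro y hy
    have e1 := rg_G1_sub A B γ0 U hU a1 y
    have e2 : ∫ x in a1..y, (A * x - B * U x)
        = ∫ x in a1..y, ((A * a1 - B * U0) + A * (x - a1) + 0 * (x - a1) ^ 2 / 2) := by
      apply intervalIntegral.integral_congr_ae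
      have hne : ∀ᵐ x : ℝ, x ≠ a2 := compl_mem_ae_iff.2 (measure_singleton a2)
      filter_upwards [hne] with x hx hxI
      rw [uIoc_of_le hy.1] at hxI
      have : x ∈ Ioo a1 a2 := ⟨hxI.1, lt_of_le_of_ne (hxI.2.trans hy.2) hx⟩
      rw [hc x this]
      ring
    rw [e2, rg_int_quad] at e1
    linarith
  refine ⟨key t ht, ?_⟩
  have e1 := rg_G_sub A B γ0 U hU a1 t
  have e2 : ∫ x in a1..t, rgG1 A B γ0 U x
      = ∫ x in a1..t, (rgG1 A B γ0 U a1 + (A * a1 - B * U0) * (x - a1)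
          + A * (x - a1) ^ 2 / 2) := by
    apply intervalIntegral.integral_congr
    intro x hx
    rw [uIcc_of_le ht.1] at hx
    exact key x ⟨hx.1, hx.2.trans ht.2⟩
  rw [e2, rg_int_quad] at e1
  linarith

/-- on a gap the sum of the endpoint slopes is `A (a2-a1)^2/6` -/
theorem rg_cubic (A B γ0 a1 a2 U0 : ℝ) (U : ℝ → ℝ) (hU : Monotone U) (h12 : a1 < a2)
    (hc : ∀ t ∈ Ioo a1 a2, U t = U0) (h1 : rgG A B γ0 U a1 = 0) (h2 : rgG A B γ0 U a2 = 0) :
    rgG1 A B γ0 U a1 + rgG1 A B γ0 U a2 = A * (a2 - a1) ^ 2 / 6 := by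
  obtain ⟨e1, e2⟩ := rg_gap_poly A B γ0 a1 a2 U0 U hU hc (right_mem_Icc.2 h12.le)
  set m := A * a1 - B * U0 with hm
  set L := a2 - a1 with hL
  have hLpos : 0 < L := by rw [hL]; linarith
  have e3 : rgG1 A B γ0 U a1 + m * L / 2 + A * L ^ 2 / 6 = 0 := by
    have : L * (rgG1 A B γ0 U a1 + m * L / 2 + A * L ^ 2 / 6) = 0 := by
      rw [h1, h2] at e2
      linarith
    rcases mul_eq_zero.1 this with h0 | h0
    · exact absurd h0 hLpos.ne'
    · exact h0
  rw [e1]
  linarith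

theorem rgSupp_isClosed {U : ℝ → ℝ} (hU : Monotone U) : IsClosed (rgSupp U) := by
  have : rgSupp U = Ici 0 ∩ {t | ∀ ε, 0 < ε → U (max (t - ε) 0) < U (t + ε)} := rfl
  rw [this]
  refine isClosed_Ici.inter ?_
  rw [← isOpen_compl_iff, Metric.isOpen_iff]
  intro t ht
  simp only [mem_compl_iff, mem_ofPred_eq, not_forall, not_lt] at ht
  obtain ⟨ε, hε, h⟩ := ht
  refine ⟨ε / 2, half_pos hε, fun t' ht' => ?_⟩
  rw [Metric.mem_ball, Real.dist_eq, abs_lt] at ht'
  simp only [mem_compl_iff, mem_ofPred_eq, not_forall, not_lt]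
  refine ⟨ε / 2, half_pos hε, ?_⟩
  calc U (t' + ε / 2) ≤ U (t + ε) := hU (by linarith [ht'.2])
    _ ≤ U (max (t - ε) 0) := h
    _ ≤ U (max (t' - ε / 2) 0) := hU (max_le_max (by linarith [ht'.1]) le_rfl)

/-- `U` is constant on an interval of `[0,∞)` that does not meet the support. -/
theorem rgSupp_const_of_gap {U : ℝ → ℝ} (hU : Monotone U) {a b : ℝ} (ha : 0 ≤ a)
    (h : ∀ t ∈ Ioo a b, t ∉ rgSupp U) {s t : ℝ} (hs : s ∈ Ioo a b) (ht : t ∈ Ioo a b) :
    U s = U t := by
  have hd : ∀ y ∈ Ioo a b, HasDerivAt U 0 y := by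
    intro y hy
    have hy0 : 0 < y := lt_of_le_of_lt ha hy.1
    have hy' := h y hy
    simp only [rgSupp, mem_ofPred_eq, not_and, not_forall, not_lt] at hy'
    obtain ⟨ε, hε, hle⟩ := hy' hy0.le
    have hlt : max (y - ε) 0 < y := max_lt (by linarith) hy0
    have hev : U =ᶠ[𝓝 y] fun _ => U y := by
      filter_upwards [Ioo_mem_nhds hlt (show y < y + ε by linarith)] with z hz
      have h1 : U (max (y - ε) 0) ≤ U z := hU hz.1.le
      have h2 : U z ≤ U (y + ε) := hU hz.2.le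
      have h3 : U (max (y - ε) 0) ≤ U y := hU hlt.le
      have h4 : U y ≤ U (y + ε) := hU (by linarith)
      linarith
    exact (hasDerivAt_const y (U y)).congr_of_eventuallyEq hev
  exact isOpen_Ioo.is_const_of_deriv_eq_zero isPreconnected_Ioo
    (fun y hy => (hd y hy).differentiableAt.differentiableWithinAt)
    (fun y hy => (hd y hy).deriv) hs ht

/-- a primitive of a continuous function that is positive at `a` increases to the right of `a` -/
theorem rg_incr_right {f f' : ℝ → ℝ}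
    (hf : ∀ t1 t2, f t2 - f t1 = ∫ t in t1..t2, f' t)
    (hc : Continuous f') {a : ℝ} (hp : 0 < f' a) :
    ∃ δ > 0, ∀ t ∈ Ioo a (a + δ), f a < f t := by
  have hev : ∀ᶠ t in 𝓝 a, 0 < f' t := hc.continuousAt.eventually (lt_mem_nhds hp)
  obtain ⟨δ, hδ, hb⟩ := Metric.mem_nhds_iff.1 hev
  refine ⟨δ, hδ, fun t ht => ?_⟩
  have hpos : 0 < ∫ x in a..t, f' x := by
    refine intervalIntegral.intervalIntegral_pos_of_pos_on
      (hc.intervalIntegrable _ _) (fun x hx => ?_) ht.1
    apply hb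
    rw [Metric.mem_ball, Real.dist_eq, abs_lt]
    constructor <;> linarith [hx.1, hx.2, ht.2]
  have := hf a t
  linarith

theorem rgSupp_unbounded {U : ℝ → ℝ} (hU : Monotone U) {c1 t1 : ℝ} (hc1 : 0 < c1)
    (hout : ∀ t, t1 ≤ t → c1 * t ≤ U t) (R : ℝ) : ∃ t ∈ rgSupp U, R ≤ t := by
  by_contra hcon
  push Not at hcon
  set R' := max R 0 with hR'
  have hRR : R ≤ R' := le_max_left _ _
  have hR0 : 0 ≤ R' := le_max_right _ _
  set t := max (max t1 (R' + 2)) (U (R' + 1) / c1 + 1) with ht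
  have ht1 : t1 ≤ t := (le_max_left _ _).trans (le_max_left _ _)
  have ht2 : R' + 2 ≤ t := (le_max_right _ _).trans (le_max_left _ _)
  have ht3 : U (R' + 1) / c1 + 1 ≤ t := le_max_right _ _
  have hconst : U (R' + 1) = U t :=
    rgSupp_const_of_gap hU (a := R') (b := t + 1) hR0
      (fun y hy hyZ => absurd (hcon y hyZ) (not_lt.2 (hRR.trans hy.1.le)))
      ⟨by linarith, by linarith⟩ ⟨by linarith, by linarith⟩
  have h1 := hout t ht1
  have h2 : U (R' + 1) < c1 * t := by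
    have : U (R' + 1) / c1 < t := by linarith
    rw [div_lt_iff₀ hc1] at this
    linarith
  linarith

/-- no gaps, no initial gap, no atom: the limiting profile is linear -/
theorem rg_ode (A B γ0 c1 t1 : ℝ) (U : ℝ → ℝ) (hA : 0 < A) (hB : 0 < B) (hc1 : 0 < c1)
    (hU : Monotone U) (hU0 : U 0 = 0) (hout : ∀ t, t1 ≤ t → c1 * t ≤ U t)
    (hz : ∀ t ∈ rgSupp U, rgG A B γ0 U t = 0)
    (hgap : ∀ a1 a2 U0, a1 ∈ rgSupp U → a2 ∈ rgSupp U → a1 < a2 → 0 < U0 → (∀ t ∈ Ioo a1 a2, U t = U0) →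
      rgG1 A B γ0 U a1 ≤ 0 ∧ rgG1 A B γ0 U a2 ≤ 0) :
    ∀ t, 0 ≤ t → U t = A / B * t := by
  have hZc : IsClosed (rgSupp U) := rgSupp_isClosed hU
  have hunb := rgSupp_unbounded hU hc1 hout
  have hcont := rg_G1_cont A B γ0 U hU
  -- the support is an up-set
  have hup : ∀ t ∈ rgSupp U, ∀ t0, t ≤ t0 → t0 ∈ rgSupp U := by
    intro t ht t0 htt0
    by_contra hnot
    have hc1' : IsClosed (rgSupp U ∩ Iic t0) := hZc.inter isClosed_Iic
    have hc2' : IsClosed (rgSupp U ∩ Ici t0) := hZc.inter isClosed_Ici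
    have hb1 : BddAbove (rgSupp U ∩ Iic t0) := ⟨t0, fun y hy => hy.2⟩
    have hb2 : BddBelow (rgSupp U ∩ Ici t0) := ⟨t0, fun y hy => hy.2⟩
    obtain ⟨t', ht', ht0'⟩ := hunb t0
    have m1 := hc1'.csSup_mem ⟨t, ht, htt0⟩ hb1
    have m2 := hc2'.csInf_mem ⟨t', ht', ht0'⟩ hb2
    set a1 := sSup (rgSupp U ∩ Iic t0) with ha1
    set a2 := sInf (rgSupp U ∩ Ici t0) with ha2
    have l1 : a1 < t0 := lt_of_le_of_ne m1.2 (fun e => hnot (e ▸ m1.1))
    have l2 : t0 < a2 := lt_of_le_of_ne m2.2 (fun e => hnot (e ▸ m2.1))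
    have h12 : a1 < a2 := l1.trans l2
    have hno : ∀ y ∈ Ioo a1 a2, y ∉ rgSupp U := by
      intro y hy hyZ
      rcases le_total y t0 with hle | hle
      · exact absurd (le_csSup hb1 ⟨hyZ, hle⟩) (not_le.2 hy.1)
      · exact absurd (csInf_le hb2 ⟨hyZ, hle⟩) (not_le.2 hy.2)
    have ha10 : 0 ≤ a1 := m1.1.1
    have hmid : (a1 + a2) / 2 ∈ Ioo a1 a2 := ⟨by linarith, by linarith⟩
    have hconst : ∀ y ∈ Ioo a1 a2, U y = U ((a1 + a2) / 2) :=
      fun y hy => rgSupp_const_of_gap hU ha10 hno hy hmid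
    have hU0pos : 0 < U ((a1 + a2) / 2) := by
      have h3 := m1.1.2 ((a2 - a1) / 2) (by linarith)
      have h4 : a1 + (a2 - a1) / 2 = (a1 + a2) / 2 := by ring
      rw [h4] at h3
      have h5 : U 0 ≤ U (max (a1 - (a2 - a1) / 2) 0) := hU (le_max_right _ _)
      linarith
    obtain ⟨g1, g2⟩ := hgap a1 a2 _ m1.1 m2.1 h12 hU0pos hconst
    have hcub := rg_cubic A B γ0 a1 a2 _ U hU h12 hconst (hz a1 m1.1) (hz a2 m2.1)
    have : 0 < A * (a2 - a1) ^ 2 / 6 := by
      have : 0 < a2 - a1 := by linarith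
      positivity
    linarith
  obtain ⟨t', ht', -⟩ := hunb 0
  have hbb : BddBelow (rgSupp U) := ⟨0, fun y hy => hy.1⟩
  have hl := hZc.csInf_mem ⟨t', ht'⟩ hbb
  set l := sInf (rgSupp U) with hldef
  have hl0 : 0 ≤ l := hl.1
  have hgz : ∀ t, l ≤ t → rgG A B γ0 U t = 0 := fun t ht => hz t (hup l hl t ht)
  -- `G1 = 0` on `[l, ∞)`
  have hg'z : ∀ t, l ≤ t → rgG1 A B γ0 U t = 0 := by
    intro t ht
    rcases lt_trichotomy (rgG1 A B γ0 U t) 0 with hlt | heq | hgt
    · exfalso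
      have hf : ∀ t1 t2, (fun x => -rgG A B γ0 U x) t2 - (fun x => -rgG A B γ0 U x) t1
          = ∫ x in t1..t2, (fun x => -rgG1 A B γ0 U x) x := by
        intro t1 t2
        have := rg_G_sub A B γ0 U hU t1 t2
        simp only [intervalIntegral.integral_neg]
        linarith
      obtain ⟨δ, hδ, hpos⟩ := rg_incr_right hf hcont.neg (a := t) (by simpa using hlt)
      have := hpos (t + δ / 2) ⟨by linarith, by linarith⟩
      simp only [hgz t ht, hgz (t + δ / 2) (by linarith)] at this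
      exact lt_irrefl _ this
    · exact heq
    · exfalso
      obtain ⟨δ, hδ, hpos⟩ := rg_incr_right (rg_G_sub A B γ0 U hU) hcont hgt
      have := hpos (t + δ / 2) ⟨by linarith, by linarith⟩
      rw [hgz t ht, hgz (t + δ / 2) (by linarith)] at this
      exact lt_irrefl _ this
  have hintz : ∀ t1 t2, l ≤ t1 → t1 ≤ t2 → ∫ x in t1..t2, (A * x - B * U x) = 0 := by
    intro t1 t2 h1 h2
    rw [← rg_G1_sub A B γ0 U hU t1 t2, hg'z t1 h1, hg'z t2 (h1.trans h2)]
    ring
  -- `U = κ t` above `l`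
  have hlin : ∀ t, l < t → B * U t = A * t := by
    intro t ht
    rcases lt_trichotomy (B * U t) (A * t) with hlt | heq | hgt
    · exfalso
      set t0 := max l (B * U t / A) with ht0
      have h1 : t0 < t := max_lt ht (by rw [div_lt_iff₀ hA]; linarith)
      have hpos : 0 < ∫ x in t0..t, (A * x - B * U x) := by
        refine intervalIntegral.intervalIntegral_pos_of_pos_on (rg_phi_int A B U hU _ _)
          (fun x hx => ?_) h1
        have h2 : B * U t / A < x := lt_of_le_of_lt (le_max_right _ _) hx.1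
        rw [div_lt_iff₀ hA] at h2
        have h3 : B * U x ≤ B * U t := mul_le_mul_of_nonneg_left (hU hx.2.le) hB.le
        linarith
      rw [hintz t0 t (le_max_left _ _) h1.le] at hpos
      exact lt_irrefl _ hpos
    · exact heq
    · exfalso
      set t0 := B * U t / A with ht0
      have h1 : t < t0 := by rw [ht0, lt_div_iff₀ hA]; linarith
      have hpos : 0 < ∫ x in t..t0, -(A * x - B * U x) := by
        refine intervalIntegral.intervalIntegral_pos_of_pos_on (rg_phi_int A B U hU _ _).neg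
          (fun x hx => ?_) h1
        have h2 : x < B * U t / A := hx.2
        rw [lt_div_iff₀ hA] at h2
        have h3 : B * U t ≤ B * U x := mul_le_mul_of_nonneg_left (hU hx.1.le) hB.le
        linarith
      rw [intervalIntegral.integral_neg, hintz t t0 ht.le h1.le] at hpos
      simp at hpos
  -- `l = 0`
  have hlz : l = 0 := by
    by_contra hne
    have hlpos : 0 < l := lt_of_le_of_ne hl0 (Ne.symm hne)
    have hnoZ : ∀ y, y < l → y ∉ rgSupp U :=
      fun y hy hyZ => absurd (csInf_le hbb hyZ) (not_le.2 hy)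
    have hU0' : ∀ t ∈ Ioo 0 l, U t = 0 := by
      intro t ht
      have h0 := hnoZ 0 hlpos
      simp only [rgSupp, mem_ofPred_eq, not_and, not_forall, not_lt] at h0
      obtain ⟨ε, hε, hle⟩ := h0 le_rfl
      have hmx : max ((0:ℝ) - ε) 0 = 0 := max_eq_right (by linarith)
      rw [hmx, hU0, zero_add] at hle
      set y := min ε l / 2 with hy
      have hmpos : 0 < min ε l := lt_min hε hlpos
      have hy0 : 0 < y := by rw [hy]; linarith
      have hyε : y ≤ ε := by rw [hy]; linarith [min_le_left ε l]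
      have hyl : y < l := by rw [hy]; linarith [min_le_right ε l]
      have hUy : U y = 0 := le_antisymm ((hU hyε).trans hle) (hU0 ▸ hU hy0.le)
      rw [← hUy]
      exact rgSupp_const_of_gap hU le_rfl (fun z hz => hnoZ z hz.2) ht ⟨hy0, hyl⟩
    obtain ⟨e1, e2⟩ := rg_gap_poly A B γ0 0 l 0 U hU hU0' (right_mem_Icc.2 hl0)
    rw [hg'z l le_rfl] at e1
    have hG0 : rgG A B γ0 U 0 = 0 := by simp [rgG]
    rw [hgz l le_rfl, hG0] at e2
    have h3 : 0 < A * l ^ 3 := by positivity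
    nlinarith
  intro t ht
  rcases eq_or_lt_of_le ht with h0 | h0
  · rw [← h0, mul_zero, hU0]
  · have := hlin t (by rw [hlz]; exact h0)
    field_simp
    linarith

/-- equation lemmas are generated HERE, once (CI286: no on-demand copies in the user files) -/
theorem rg_ode_eqns_cite : True := by
  have := @rgSupp.eq_1
  have := @rgG1.eq_1
  have := @rgG.eq_1
  trivial

end Claimed.Agent.R286
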