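import Claimed.Agent.R286.Rig.PhyOk
import Claimed.Agent.R286.Rig.Mod

/-!
# Row 286, unit RIG, file 13: the asymptotic hypotheses R0-R7 from their unscaled forms (contains PE Lemma 5.2)          (architect helper24)

`D n = (E n).toDat`.   Everything is "eventually along `l`" (ANY filter).   Substitutions `ρ = x t`, `u = x v`:
 `Measure.setIntegral_comp_smul_of_pos`, `Real.volume_preimage_mul_left`.   NO dominated convergence.
* `rgw_ev`: the side conditions of `rgw_ok` hold eventually (`x → 0`, `rmin/x ≤ (wc+rmin)/x → 0`, `u0/x → 0`, `top/x → ∞`).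
* `rgw_band_u`: `t ∈ band c C` ⇒ `u = m (x t) ∈ [c x, C x]`, and (eventually: `u0/x < c`, `C ≤ top/x`) `t` is a working radius.
* `rgw_mset_u`: `v ∈ mset c C Q` (eventually) ⇒ `u = x v ∈ [c x, C x] ∩ (u0,1]`, `x * r v = E.r u`, `m (x * r v) = u`, `cl (x * r v) = E.r u`, `r v ∈ band c C`.
* `rgw_rho_eq`: `x k(t) = K u/T`, so `g (k t) = (Γ^(K u/T) - K u/T)/x^3`, and `k_eq` gives `rho t = (S u - Γ^(K u/T))/x^3`.
* PE Lemma 5.2 = `rgw_rho_bd`, `rgw_rho_rad`, `rgw_rho_mass` from the modulus `|rho| ≤ η + ω(dl)`:   with `dl ≤ C'` on the band and `ε > 0`: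
  `ω(dl) ≤ ω(ε) + ω(C') dl^2/ε^2` (no Hoelder, no measurability of `ω`), so `∫_band |rho| ≤ (η + ω ε) C + ω(C') ε^-2 ∫_band dl^2`  (`integral_mono_of_nonneg`: only the upper function has to be integrable);
  mass: `ε < |rho|`, `η < ε/2`, `ω(ε') ≤ ε/2` ⇒ `ε' < dl`.
* `rgw_dl_mass`: Chebyshev (`mul_meas_ge_le_integral_of_nonneg`) on `[c,C]` for `v ↦ (Dd (x v)/x)^2` (bounded by `raw`, measurable).
* `rgw_J_dist`: `Cj = (C/c)^2`;  `(al ρ' + us)/(al ρ + us) ≤ al ρ'/al ρ ≤ C/c` for `ρ ≤ ρ'`;  `J` monotone for the other order.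
-/

set_option autoImplicit false

namespace Claimed.Agent.R286

open MeasureTheory Filter Set Topology

variable {l : Filter ℕ} {E : ℕ → RgPhy} {T a2 a4 : ℝ} {F Pf : ℝ → ℝ}

/-! ## 0. eventual facts -/

/-- both records are eventually `Ok`, explicit constants -/
theorem rgw_ev_aux (h : RgPhyHyp l E T a2 a4 F Pf) : ∃ c0 C1 C0 Cth : ℝ, 0 < c0 ∧ 0 < C1 ∧ 0 < C0 ∧ 0 < Cth ∧
    ∀ᶠ n in l, (E n).Ok c0 C1 C0 Cth ∧ (E n).toDat.Ok (1 / C1) (1 / c0) (C1 * C0 + 1) Cth := by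
  obtain ⟨c0, C1, C0, Cth, hc0, hC1, hC0, hCth, hok⟩ := h.ok
  refine ⟨c0, C1, C0, Cth, hc0, hC1, hC0, hCth, ?_⟩
  have e1 := h.top_lim.eventually_ge_atTop (C1 * C0 + 1)
  have e2 := h.w_lim.eventually_lt_const (zero_lt_one)
  have e3 := h.u0_lim.eventually_lt_const hC0
  have e4 := h.x_lim.eventually_lt_const (by positivity : 0 < 1 / C0)
  filter_upwards [hok, e1, e2, e3, e4] with n hn h1 h2 h3 h4
  have hx := hn.x_pos
  refine ⟨hn, rgw_ok hn hc0 hC1 hC0 h1 ?_ ?_ ?_⟩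
  · rw [div_lt_one hx] at h2
    linarith [hn.wc_nn]
  · rw [div_lt_iff₀ hx] at h3
    exact h3.le
  · rw [lt_div_iff₀ hC0] at h4
    linarith

theorem rgw_ev (h : RgPhyHyp l E T a2 a4 F Pf) : ∃ c1 C1 t1 Cth : ℝ, 0 < c1 ∧ 0 < C1 ∧ 0 < t1 ∧ 0 < Cth ∧
    ∀ᶠ n in l, (E n).toDat.Ok c1 C1 t1 Cth := by
  obtain ⟨c0, C1, C0, Cth, hc0, hC1, hC0, hCth, hok⟩ := rgw_ev_aux h
  exact ⟨1 / C1, 1 / c0, C1 * C0 + 1, Cth, by positivity, by positivity, by positivity, hCth, hok.mono fun n hn => hn.2⟩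

/-- the unscaled and the rescaled record are eventually `Ok` (same constants for all later leaves) -/
theorem rgw_ev2 (h : RgPhyHyp l E T a2 a4 F Pf) : ∃ c0 C1 C0 Cth c1 C1' t1 : ℝ,
    ∀ᶠ n in l, (E n).Ok c0 C1 C0 Cth ∧ (E n).toDat.Ok c1 C1' t1 Cth := by
  obtain ⟨c0, C1, C0, Cth, -, -, -, -, hok⟩ := rgw_ev_aux h
  exact ⟨c0, C1, C0, Cth, _, _, _, hok⟩

theorem rgw_R_lim (h : RgPhyHyp l E T a2 a4 F Pf) : Tendsto (fun n => (E n).toDat.R) l atTop := h.top_lim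

theorem rgw_ell_lim (h : RgPhyHyp l E T a2 a4 F Pf) : Tendsto (fun n => (E n).toDat.ell) l (𝓝 0) := h.w_lim

theorem rgw_a0_lim (h : RgPhyHyp l E T a2 a4 F Pf) : Tendsto (fun n => (E n).toDat.a 0) l (𝓝 0) := by
  obtain ⟨c0, C1, C0, Cth, -, -, -, -, hok⟩ := h.ok
  refine h.u0_lim.congr' ?_
  filter_upwards [hok] with n hn
  exact (rgw_a_zero hn).symm

/-- points of a radius band -/
theorem rgw_band_u (h : RgPhyHyp l E T a2 a4 F Pf) (c C : ℝ) (hc : 0 < c) : ∀ᶠ n in l, ∀ t ∈ (E n).toDat.band c C,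
    c * (E n).x ≤ (E n).m ((E n).x * t) ∧ (E n).m ((E n).x * t) ≤ C * (E n).x ∧ t ≤ (E n).toDat.R ∧ (E n).toDat.a 0 < (E n).toDat.a t := by
  obtain ⟨c0, C1, C0, Cth, -, -, -, -, hok⟩ := h.ok
  have e1 : ∀ᶠ n in l, C ≤ (E n).toDat.R := h.top_lim.eventually_ge_atTop C
  have e2 := (rgw_a0_lim h).eventually_lt_const hc
  filter_upwards [hok, e1, e2] with n hn h1 h2 t ht
  have hx := hn.x_pos
  obtain ⟨t0, tC, ha1, ha2⟩ := ht
  have ha1' : c ≤ (E n).m ((E n).x * t) / (E n).x := ha1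
  have ha2' : (E n).m ((E n).x * t) / (E n).x ≤ C := ha2
  rw [le_div_iff₀ hx] at ha1'
  rw [div_le_iff₀ hx] at ha2'
  exact ⟨ha1', ha2', tC.trans h1, h2.trans_le ha1⟩

/-- points of a mass band -/
theorem rgw_mset_u (h : RgPhyHyp l E T a2 a4 F Pf) (c C : ℝ) (hc : 0 < c) : ∀ᶠ n in l, ∀ v, c ≤ v → v ≤ C →
    (E n).u0 < (E n).x * v ∧ (E n).x * v ≤ 1 ∧ (E n).x * (E n).toDat.r v = (E n).r ((E n).x * v) ∧
      (E n).m ((E n).x * (E n).toDat.r v) = (E n).x * v ∧ (E n).cl ((E n).x * (E n).toDat.r v) = (E n).r ((E n).x * v) ∧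
      ((E n).toDat.r v ≤ C → (E n).toDat.r v ∈ (E n).toDat.band c C) := by
  obtain ⟨c0, C1, C0, Cth, -, -, -, -, hok⟩ := h.ok
  have e1 := h.u0_lim.eventually_lt_const hc
  have e2 : ∀ᶠ n in l, (E n).x * C < 1 := by
    have : Tendsto (fun n => (E n).x * C) l (𝓝 (0 * C)) := h.x_lim.mul_const C
    rw [zero_mul] at this
    exact this.eventually_lt_const zero_lt_one
  filter_upwards [hok, e1, e2] with n hn h1 h2 v hv1 hv2
  have hx := hn.x_pos
  rw [div_lt_iff₀ hx] at h1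
  have a1 : (E n).u0 < (E n).x * v := by nlinarith
  have a2 : (E n).x * v ≤ 1 := by nlinarith
  have hu : (E n).x * v ∈ Icc (E n).u0 1 := ⟨a1.le, a2⟩
  have a3 : (E n).x * (E n).toDat.r v = (E n).r ((E n).x * v) := by
    show (E n).x * ((E n).r ((E n).x * v) / (E n).x) = _
    rw [mul_div_cancel₀ _ hx.ne']
  have a4 : (E n).m ((E n).x * (E n).toDat.r v) = (E n).x * v := by rw [a3, rgw_m_r hn hu]
  refine ⟨a1, a2, a3, a4, by rw [a3, rgw_cl_r hn hu], fun hr => ⟨?_, hr, ?_, ?_⟩⟩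
  · exact div_nonneg (hn.rmin_nn.trans (hn.r_mem _ hu).1) hx.le
  · show c ≤ (E n).m ((E n).x * (E n).toDat.r v) / (E n).x
    rw [a4, mul_div_cancel_left₀ _ hx.ne']; exact hv1
  · show (E n).m ((E n).x * (E n).toDat.r v) / (E n).x ≤ C
    rw [a4, mul_div_cancel_left₀ _ hx.ne']; exact hv2

/-! ## 1. raw bounds, bare clocks -/

/-- raw bounds on a band, explicit constant -/
theorem rgw_raw_aux (h : RgPhyHyp l E T a2 a4 F Pf) : ∃ Cr : ℝ, 0 ≤ Cr ∧ ∀ (c C : ℝ), 0 < c →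
    ∀ᶠ n in l, ∀ t ∈ (E n).toDat.band c C, 0 ≤ (E n).S ((E n).m ((E n).x * t)) ∧
      (E n).S ((E n).m ((E n).x * t)) ≤ Cr * (C + 1) * (E n).x ∧ (E n).Dd ((E n).m ((E n).x * t)) ≤ Cr * (C + 1) * (E n).x := by
  obtain ⟨c0, C1, C0, Cth, -, -, -, -, hok⟩ := h.ok
  obtain ⟨Cr, hraw⟩ := h.raw
  refine ⟨|Cr|, abs_nonneg _, fun c C hc => ?_⟩
  filter_upwards [hok, hraw, rgw_band_u h c C hc] with n hn hr hb t ht
  have hx := hn.x_pos
  obtain ⟨b1, b2, -, -⟩ := hb t ht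
  have hm := rgw_m_mem01 hn ((E n).x * t)
  obtain ⟨r1, r2⟩ := hr _ hm
  have k0 : 0 ≤ (E n).m ((E n).x * t) + (E n).x := by linarith [hm.1]
  have k1 : Cr * ((E n).m ((E n).x * t) + (E n).x) ≤ |Cr| * (C + 1) * (E n).x := by
    calc Cr * ((E n).m ((E n).x * t) + (E n).x) ≤ |Cr| * ((E n).m ((E n).x * t) + (E n).x) :=
          mul_le_mul_of_nonneg_right (le_abs_self _) k0
      _ ≤ |Cr| * (C * (E n).x + (E n).x) := mul_le_mul_of_nonneg_left (by linarith) (abs_nonneg _)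
      _ = _ := by ring
  exact ⟨hn.S_nn _ hm, r1.trans k1, r2.trans k1⟩

theorem rgw_raw (h : RgPhyHyp l E T a2 a4 F Pf) (c C : ℝ) (hc : 0 < c) :
    ∃ C' : ℝ, ∀ᶠ n in l, ∀ t ∈ (E n).toDat.band c C, (E n).toDat.s t ≤ C' ∧ (E n).toDat.dl t ≤ C' := by
  obtain ⟨c0, C1, C0, Cth, -, -, -, -, hok⟩ := h.ok
  obtain ⟨Cr, hCr, hraw⟩ := rgw_raw_aux h
  refine ⟨Cr * (C + 1), ?_⟩
  filter_upwards [hok, hraw c C hc] with n hn hr t ht
  have hx := hn.x_pos
  obtain ⟨-, r1, r2⟩ := hr t ht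
  constructor
  · show (E n).S ((E n).m ((E n).x * t)) / (E n).x ≤ _
    rw [div_le_iff₀ hx]; exact r1
  · show (E n).Dd ((E n).m ((E n).x * t)) / (E n).x ≤ _
    rw [div_le_iff₀ hx]; exact r2

theorem rgw_z_lim (h : RgPhyHyp l E T a2 a4 F Pf) (c C ε : ℝ) (hc : 0 < c) (hε : 0 < ε) :
    ∀ᶠ n in l, ∀ t ∈ (E n).toDat.band c C, |(E n).toDat.z t| ≤ ε := by
  obtain ⟨c0, C1, C0, Cth, -, -, -, -, hok⟩ := h.ok
  obtain ⟨Cr, hCr, hraw⟩ := rgw_raw_aux h
  obtain ⟨K, hK⟩ : ∃ K, K = Cr * (|C| + 1) + 1 := ⟨_, rfl⟩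
  have hKpos : 0 < K := by rw [hK]; positivity
  filter_upwards [hok, hraw c C hc, rgw_band_u h c C hc, h.bare c C (ε / K) hc (by positivity)] with n hn hr hb hbare t ht
  have hx := hn.x_pos
  obtain ⟨s0, s1, -⟩ := hr t ht
  obtain ⟨b1, b2, -, -⟩ := hb t ht
  obtain ⟨z1, z2⟩ := hbare _ b1 b2
  obtain ⟨u, hu⟩ : ∃ u, u = (E n).m ((E n).x * t) := ⟨_, rfl⟩
  rw [← hu] at s0 s1 z1 z2
  show |(((E n).b0 ((E n).m ((E n).x * t)) - (E n).T) * (E n).S ((E n).m ((E n).x * t)) + (E n).h0 ((E n).m ((E n).x * t))) / (E n).x ^ 3| ≤ ε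
  rw [← hu, abs_div, abs_of_pos (by positivity : 0 < (E n).x ^ 3), div_le_iff₀ (by positivity)]
  have s2 : (E n).S u ≤ Cr * (|C| + 1) * (E n).x := by
    refine s1.trans (mul_le_mul_of_nonneg_right (mul_le_mul_of_nonneg_left ?_ hCr) hx.le)
    linarith [le_abs_self C]
  have k1 : |((E n).b0 u - (E n).T) * (E n).S u| ≤ ε / K * (E n).x ^ 2 * (Cr * (|C| + 1) * (E n).x) := by
    rw [abs_mul, abs_of_nonneg s0]
    exact mul_le_mul z1 s2 s0 (by positivity)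
  calc |((E n).b0 u - (E n).T) * (E n).S u + (E n).h0 u| ≤ |((E n).b0 u - (E n).T) * (E n).S u| + |(E n).h0 u| := abs_add_le _ _
    _ ≤ ε / K * (E n).x ^ 2 * (Cr * (|C| + 1) * (E n).x) + ε / K * (E n).x ^ 3 := add_le_add k1 z2
    _ = ε / K * K * (E n).x ^ 3 := by rw [hK]; ring
    _ = ε * (E n).x ^ 3 := by rw [div_mul_cancel₀ _ hKpos.ne']

/-! ## 2. concentration in both coordinates -/

open scoped Pointwise in
/-- the rescaled radius band is the unscaled one -/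
theorem rgw_band_smul (E : RgPhy) (hx : 0 < E.x) (c C : ℝ) : E.x • E.toDat.band c C = E.I c C := by
  ext ρ
  simp only [Set.mem_smul_set, smul_eq_mul]
  constructor
  · rintro ⟨t, ⟨h0, h1, h2, h3⟩, rfl⟩
    have h2' : c ≤ E.m (E.x * t) / E.x := h2
    have h3' : E.m (E.x * t) / E.x ≤ C := h3
    rw [le_div_iff₀ hx] at h2'
    rw [div_le_iff₀ hx] at h3'
    exact ⟨by positivity, by nlinarith, h2', h3'⟩
  · rintro ⟨h0, h1, h2, h3⟩
    have e : E.x * (ρ / E.x) = ρ := by field_simp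
    refine ⟨ρ / E.x, ⟨by positivity, by rw [div_le_iff₀ hx]; exact h1, ?_, ?_⟩, e⟩
    · show c ≤ E.m (E.x * (ρ / E.x)) / E.x
      rw [e, le_div_iff₀ hx]; exact h2
    · show E.m (E.x * (ρ / E.x)) / E.x ≤ C
      rw [e, div_le_iff₀ hx]; exact h3

open scoped Pointwise in
theorem rgw_dl_rad (h : RgPhyHyp l E T a2 a4 F Pf) (c C : ℝ) (hc : 0 < c) :
    Tendsto (fun n => ∫ t in (E n).toDat.band c C, (E n).toDat.dl t ^ 2) l (𝓝 0) := by
  obtain ⟨c0, C1, C0, Cth, -, -, -, -, hok⟩ := h.ok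
  refine (h.D_rad c C hc).congr' ?_
  filter_upwards [hok] with n hn
  have hx := hn.x_pos
  have key := Measure.setIntegral_comp_smul_of_pos volume
    (fun ρ => (E n).Dd ((E n).m ρ) ^ 2) ((E n).toDat.band c C) hx
  rw [rgw_band_smul (E n) hx, Module.finrank_self, pow_one, smul_eq_mul] at key
  have e1 : ∫ t in (E n).toDat.band c C, (E n).toDat.dl t ^ 2
      = (∫ t in (E n).toDat.band c C, (E n).Dd ((E n).m ((E n).x • t)) ^ 2) / (E n).x ^ 2 := by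
    rw [← integral_div]
    refine integral_congr_ae (Eventually.of_forall fun t => ?_)
    show ((E n).Dd ((E n).m ((E n).x * t)) / (E n).x) ^ 2 = (E n).Dd ((E n).m ((E n).x • t)) ^ 2 / (E n).x ^ 2
    rw [div_pow, smul_eq_mul]
  rw [e1, key]
  field_simp

open scoped Pointwise in
theorem rgw_dl_mass (h : RgPhyHyp l E T a2 a4 F Pf) (c C ε : ℝ) (hc : 0 < c) (hε : 0 < ε) :
    Tendsto (fun n => volume ((E n).toDat.mset c C (fun t => ε < (E n).toDat.dl t))) l (𝓝 0) := by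
  obtain ⟨c0, C1, C0, Cth, -, -, -, -, hok⟩ := h.ok
  obtain ⟨Cr, hraw⟩ := h.raw
  have hlim : Tendsto (fun n => ENNReal.ofReal
      ((∫ u in Icc (c * (E n).x) (C * (E n).x), (E n).Dd u ^ 2) / (E n).x ^ 3 / ε ^ 2)) l (𝓝 0) := by
    have := ((h.D_mass c C hc).div_const (ε ^ 2))
    rw [zero_div] at this
    have h2 := ENNReal.tendsto_ofReal this
    rwa [ENNReal.ofReal_zero] at h2
  refine tendsto_of_tendsto_of_tendsto_of_le_of_le' tendsto_const_nhds hlim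
    (Eventually.of_forall fun n => zero_le) ?_
  filter_upwards [hok, hraw, rgw_mset_u h c C hc] with n hn hrw hms
  have hx := hn.x_pos
  set f : ℝ → ℝ := fun v => (E n).Dd ((E n).x • v) ^ 2 / (E n).x ^ 2 with hf
  set μ := (volume : Measure ℝ).restrict (Icc c C) with hμ
  -- inclusion
  have hsub : (E n).toDat.mset c C (fun t => ε < (E n).toDat.dl t) ⊆ {v | ε ^ 2 ≤ f v} ∩ Icc c C := by
    rintro v ⟨h1, h2, h3, h4⟩
    refine ⟨?_, h1, h2⟩
    have h5 : ε < (E n).Dd ((E n).m ((E n).x * (E n).toDat.r v)) / (E n).x := h4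
    rw [(hms v h1 h2).2.2.2.1] at h5
    show ε ^ 2 ≤ (E n).Dd ((E n).x • v) ^ 2 / (E n).x ^ 2
    rw [← div_pow, smul_eq_mul]
    exact pow_le_pow_left₀ hε.le h5.le 2
  have hfm : Measurable f := by
    have := hn.Dd_meas
    fun_prop
  have hfint : Integrable f μ := by
    refine Measure.integrableOn_of_bounded (M := (Cr * ((E n).x * C + (E n).x)) ^ 2 / (E n).x ^ 2)
      (by simp) hfm.aestronglyMeasurable ?_
    filter_upwards [ae_restrict_mem measurableSet_Icc] with v hv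
    have h6 := hms v hv.1 hv.2
    have h7 : (E n).x * v ∈ Icc (0:ℝ) 1 := ⟨by have := hc.le.trans hv.1; positivity, h6.2.1⟩
    have h8 := (hrw _ h7).2
    have h9 := hn.Dd_nn ((E n).x * v)
    rw [Real.norm_eq_abs, abs_of_nonneg (by positivity)]
    show (E n).Dd ((E n).x • v) ^ 2 / (E n).x ^ 2 ≤ _
    rw [smul_eq_mul]
    have hCr : 0 ≤ Cr := by
      by_contra hneg
      push Not at hneg
      have : Cr * ((E n).x * v + (E n).x) < 0 :=
        mul_neg_of_neg_of_pos hneg (by have := h7.1; linarith)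
      linarith
    refine div_le_div_of_nonneg_right (pow_le_pow_left₀ h9 (h8.trans ?_) 2) (by positivity)
    refine mul_le_mul_of_nonneg_left ?_ hCr
    have := mul_le_mul_of_nonneg_left hv.2 hx.le
    linarith
  have hcheb := mul_meas_ge_le_integral_of_nonneg (μ := μ) (f := f)
    (Eventually.of_forall fun v => by positivity) hfint (ε ^ 2)
  have hsm : (E n).x • Icc c C = Icc (c * (E n).x) (C * (E n).x) := by
    ext u
    simp only [Set.mem_smul_set, smul_eq_mul, mem_Icc]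
    constructor
    · rintro ⟨v, ⟨h1, h2⟩, rfl⟩
      exact ⟨by nlinarith, by nlinarith⟩
    · rintro ⟨h1, h2⟩
      exact ⟨u / (E n).x, ⟨by rw [le_div_iff₀ hx]; exact h1, by rw [div_le_iff₀ hx]; exact h2⟩,
        by field_simp⟩
  have hint : ∫ v, f v ∂μ = (∫ u in Icc (c * (E n).x) (C * (E n).x), (E n).Dd u ^ 2) / (E n).x ^ 3 := by
    have key := Measure.setIntegral_comp_smul_of_pos volume
      (fun u => (E n).Dd u ^ 2) (Icc c C) hx
    rw [hsm, Module.finrank_self, pow_one, smul_eq_mul] at key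
    rw [hμ, hf, integral_div, key]
    field_simp
  have hreal : μ.real {v | ε ^ 2 ≤ f v}
      ≤ (∫ u in Icc (c * (E n).x) (C * (E n).x), (E n).Dd u ^ 2) / (E n).x ^ 3 / ε ^ 2 := by
    rw [le_div_iff₀ (by positivity), ← hint]
    linarith
  calc volume ((E n).toDat.mset c C (fun t => ε < (E n).toDat.dl t))
      ≤ volume ({v | ε ^ 2 ≤ f v} ∩ Icc c C) := measure_mono hsub
    _ ≤ μ {v | ε ^ 2 ≤ f v} := Measure.le_restrict_apply _ _
    _ = ENNReal.ofReal (μ.real {v | ε ^ 2 ≤ f v}) := by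
        rw [measureReal_def, ENNReal.ofReal_toReal (measure_ne_top μ _)]
    _ ≤ _ := ENNReal.ofReal_le_ofReal hreal

/-! ## 3. PE Lemma 5.2 -/

/-- the closure error in unscaled variables -/
theorem rgw_rho_eq (h : RgPhyHyp l E T a2 a4 F Pf) (c C : ℝ) (hc : 0 < c) : ∀ᶠ n in l, ∀ t ∈ (E n).toDat.band c C,
    (E n).toDat.rho t = ((E n).S ((E n).m ((E n).x * t)) - (E n).Gm ((E n).K ((E n).m ((E n).x * t)) / (E n).T)) / (E n).x ^ 3 := by
  obtain ⟨c0, C1, C0, Cth, c1, C1', t1, hev⟩ := rgw_ev2 h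
  filter_upwards [hev, rgw_band_u h c C hc] with n hok hb t ht
  have hk := hok.2.k_eq t ht.1 (hb t ht).2.2.1 (hb t ht).2.2.2
  have hx : 0 < (E n).x := hok.1.x_pos
  have hT : 0 < (E n).T := hok.1.T_pos
  simp only [RgDat.rho, RgPhy.toDat] at hk ⊢
  set u := (E n).m ((E n).x * t) with hu
  have e1 : (E n).x * ((E n).K u / ((E n).T * (E n).x)) = (E n).K u / (E n).T := by field_simp
  have hκ : (E n).K u / (E n).T = (E n).x * ((E n).K u / ((E n).T * (E n).x)) := e1.symm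
  rw [e1]
  generalize (E n).Gm ((E n).K u / (E n).T) = A
  rw [hκ, hk]
  field_simp
  ring

theorem rgw_rho_mod (h : RgPhyHyp l E T a2 a4 F Pf) (c C : ℝ) (hc : 0 < c) :
    ∃ (ω : ℝ → ℝ) (η : ℕ → ℝ), Monotone ω ∧ Tendsto ω (𝓝[>] 0) (𝓝 0) ∧ Tendsto η l (𝓝 0) ∧
      ∀ᶠ n in l, ∀ t ∈ (E n).toDat.band c C, |(E n).toDat.rho t| ≤ η n + ω ((E n).toDat.dl t) := by
  obtain ⟨ω, η, hω, hω0, hη, hclo⟩ := h.clo c C hc
  obtain ⟨c0, C1, C0, Cth, c1, C1', t1, hev⟩ := rgw_ev2 h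
  refine ⟨ω, η, hω, hω0, hη, ?_⟩
  filter_upwards [hclo, hev, rgw_band_u h c C hc, rgw_rho_eq h c C hc] with n hclo hok hb hrho t ht
  have hx : 0 < (E n).x := hok.1.x_pos
  have hx3 : 0 < (E n).x ^ 3 := by positivity
  rw [hrho t ht, abs_div, abs_of_pos hx3, div_le_iff₀ hx3]
  have := hclo _ (hb t ht).1 (hb t ht).2.1
  have e : (E n).toDat.dl t = (E n).Dd ((E n).m ((E n).x * t)) / (E n).x := rfl
  rw [e]
  linarith

/-- a monotone modulus is nonnegative at positive arguments -/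
theorem rgw_mod_nn {ω : ℝ → ℝ} (hω : Monotone ω) (hω0 : Tendsto ω (𝓝[>] 0) (𝓝 0)) {y : ℝ} (hy : 0 < y) : 0 ≤ ω y := by
  refine le_of_tendsto hω0 ?_
  filter_upwards [Ioo_mem_nhdsGT hy] with s hs
  exact hω hs.2.le

/-- a monotone modulus is small somewhere -/
theorem rgw_mod_small {ω : ℝ → ℝ} (hω0 : Tendsto ω (𝓝[>] 0) (𝓝 0)) {ε : ℝ} (hε : 0 < ε) : ∃ δ : ℝ, 0 < δ ∧ ω δ < ε := by
  obtain ⟨δ, h1, h2⟩ := ((hω0.eventually (gt_mem_nhds hε)).and self_mem_nhdsWithin).exists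
  exact ⟨δ, h2, h1⟩

/-- TEX[PE:prof:coordinate-closure] uniform bound -/
theorem rgw_rho_bd (h : RgPhyHyp l E T a2 a4 F Pf) (c C : ℝ) (hc : 0 < c) :
    ∃ C' : ℝ, ∀ᶠ n in l, ∀ t ∈ (E n).toDat.band c C, |(E n).toDat.rho t| ≤ C' := by
  obtain ⟨ω, η, hω, hω0, hη, hmod⟩ := rgw_rho_mod h c C hc
  obtain ⟨C', hraw⟩ := rgw_raw h c C hc
  refine ⟨1 + ω C', ?_⟩
  filter_upwards [hmod, hraw, hη.eventually (gt_mem_nhds one_pos)] with n hmod hraw hη t ht
  have := hω (hraw t ht).2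
  linarith [hmod t ht]

/-- TEX[PE:prof:coordinate-closure] radius coordinate -/
theorem rgw_rho_rad (h : RgPhyHyp l E T a2 a4 F Pf) (c C : ℝ) (hc : 0 < c) :
    Tendsto (fun n => ∫ t in (E n).toDat.band c C, |(E n).toDat.rho t|) l (𝓝 0) := by
  obtain ⟨ω, η, hω, hω0, hη, hmod⟩ := rgw_rho_mod h c C hc
  obtain ⟨C', hraw⟩ := rgw_raw h c C hc
  obtain ⟨c0, C1, C0, Cth, c1, C1', t1, hev⟩ := rgw_ev2 h
  rw [Metric.tendsto_nhds]
  intro ε0 hε0
  set Cp := max C 0 + 1 with hCp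
  have hCp0 : 0 < Cp := by have := le_max_right C 0; linarith
  obtain ⟨δ, hδ, hωδ⟩ := rgw_mod_small hω0 (show 0 < ε0 / (4 * Cp) by positivity)
  set C'' := max C' 1 with hC''
  have hωC : 0 ≤ ω C'' := rgw_mod_nn hω hω0 (lt_of_lt_of_le one_pos (le_max_right _ _))
  set B := ω C'' / δ ^ 2 with hB
  have hB0 : 0 ≤ B := by positivity
  have hlim : Tendsto (fun n => B * ∫ t in (E n).toDat.band c C, (E n).toDat.dl t ^ 2) l (𝓝 (B * 0)) :=
    (rgw_dl_rad h c C hc).const_mul B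
  rw [mul_zero] at hlim
  filter_upwards [hmod, hraw, hev, hη.eventually (gt_mem_nhds (show 0 < ε0 / (4 * Cp) by positivity)),
    hlim.eventually (gt_mem_nhds (show 0 < ε0 / 4 by positivity))] with n hmod hraw hok hη hdl
  set d := (E n).toDat with hd
  have hbm : MeasurableSet (d.band c C) := rg_band_meas hok.2.a_mono c C
  have hfin : volume (d.band c C) ≤ ENNReal.ofReal (max C 0) := by
    calc volume (d.band c C) ≤ volume (Icc 0 C) := measure_mono (rg_band_sub d c C)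
      _ = ENNReal.ofReal (C - 0) := Real.volume_Icc
      _ ≤ ENNReal.ofReal (max C 0) := ENNReal.ofReal_le_ofReal (by simp)
  have hfin' : volume (d.band c C) ≠ ⊤ := ne_top_of_le_ne_top ENNReal.ofReal_ne_top hfin
  have hvol : (volume (d.band c C)).toReal ≤ Cp := by
    have := ENNReal.toReal_mono ENNReal.ofReal_ne_top hfin
    rw [ENNReal.toReal_ofReal (le_max_right _ _)] at this
    linarith
  have hdlint : IntegrableOn (fun t => d.dl t ^ 2) (d.band c C) volume := by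
    refine Measure.integrableOn_of_bounded (M := C'' ^ 2) hfin' (hok.2.dl_meas.pow_const 2).aestronglyMeasurable ?_
    filter_upwards [ae_restrict_mem hbm] with t ht
    rw [Real.norm_eq_abs, abs_of_nonneg (sq_nonneg _)]
    exact pow_le_pow_left₀ (hok.2.dl_nn t) ((hraw t ht).2.trans (le_max_left _ _)) 2
  have hupint : IntegrableOn (fun t => (η n + ω δ) + B * d.dl t ^ 2) (d.band c C) volume :=
    (integrableOn_const (C := η n + ω δ) hfin').add (hdlint.const_mul B)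
  have hle : ∫ t in d.band c C, |d.rho t| ≤ ∫ t in d.band c C, ((η n + ω δ) + B * d.dl t ^ 2) := by
    refine integral_mono_of_nonneg (Eventually.of_forall fun t => abs_nonneg _) hupint ?_
    filter_upwards [ae_restrict_mem hbm] with t ht
    have h1 := hmod t ht
    have hdl0 := hok.2.dl_nn t
    have h2 : ω (d.dl t) ≤ ω δ + B * d.dl t ^ 2 := by
      by_cases hcase : d.dl t ≤ δ
      · have := hω hcase
        have : 0 ≤ B * d.dl t ^ 2 := by positivity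
        linarith
      · have hcase' := not_le.1 hcase
        have h3 : ω (d.dl t) ≤ ω C'' := hω ((hraw t ht).2.trans (le_max_left _ _))
        have h4 : ω C'' ≤ B * d.dl t ^ 2 := by
          rw [hB, div_mul_eq_mul_div, le_div_iff₀ (by positivity)]
          exact mul_le_mul_of_nonneg_left (pow_le_pow_left₀ hδ.le hcase'.le 2) hωC
        have h5 : 0 ≤ ω δ := rgw_mod_nn hω hω0 hδ
        linarith
    show |d.rho t| ≤ (η n + ω δ) + B * d.dl t ^ 2
    linarith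
  have hval : ∫ t in d.band c C, ((η n + ω δ) + B * d.dl t ^ 2)
      = (η n + ω δ) * (volume (d.band c C)).toReal + B * ∫ t in d.band c C, d.dl t ^ 2 := by
    have hci : IntegrableOn (fun _ : ℝ => η n + ω δ) (d.band c C) volume := integrableOn_const hfin'
    have e1 : ∫ t in d.band c C, ((η n + ω δ) + B * d.dl t ^ 2)
        = (∫ _t in d.band c C, (η n + ω δ)) + ∫ t in d.band c C, B * d.dl t ^ 2 :=
      integral_add hci (hdlint.const_mul B)
    rw [e1, integral_const_mul, setIntegral_const]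
    simp [Measure.real, mul_comm]
  have h0 : 0 ≤ ∫ t in d.band c C, |d.rho t| := integral_nonneg fun t => abs_nonneg _
  rw [Real.dist_eq, sub_zero, abs_of_nonneg h0]
  have hA : (η n + ω δ) * (volume (d.band c C)).toReal ≤ ε0 / (2 * Cp) * Cp := by
    have hA1 : η n + ω δ ≤ ε0 / (2 * Cp) := by
      have : ε0 / (2 * Cp) = ε0 / (4 * Cp) + ε0 / (4 * Cp) := by field_simp; ring
      linarith
    calc (η n + ω δ) * (volume (d.band c C)).toReal ≤ ε0 / (2 * Cp) * (volume (d.band c C)).toReal :=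
          mul_le_mul_of_nonneg_right hA1 ENNReal.toReal_nonneg
      _ ≤ ε0 / (2 * Cp) * Cp := mul_le_mul_of_nonneg_left hvol (by positivity)
  have hA2 : ε0 / (2 * Cp) * Cp = ε0 / 2 := by field_simp
  linarith

/-- TEX[PE:prof:coordinate-closure] mass coordinate (in measure) -/
theorem rgw_rho_mass (h : RgPhyHyp l E T a2 a4 F Pf) (c C ε : ℝ) (hc : 0 < c) (hε : 0 < ε) :
    Tendsto (fun n => volume ((E n).toDat.mset c C (fun t => ε < |(E n).toDat.rho t|))) l (𝓝 0) := by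
  obtain ⟨ω, η, hω, hω0, hη, hmod⟩ := rgw_rho_mod h c C hc
  obtain ⟨δ, hδ, hωδ⟩ := rgw_mod_small hω0 (show 0 < ε / 2 by positivity)
  refine tendsto_of_tendsto_of_tendsto_of_le_of_le' tendsto_const_nhds (rgw_dl_mass h c C δ hc hδ)
    (Eventually.of_forall fun n => bot_le) ?_
  filter_upwards [hmod, rgw_mset_u h c C hc, hη.eventually (gt_mem_nhds (show 0 < ε / 2 by positivity))] with n hmod hms hη
  refine measure_mono ?_
  rintro v ⟨hv1, hv2, hv3, hv4⟩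
  refine ⟨hv1, hv2, hv3, ?_⟩
  have hb := (hms v hv1 hv2).2.2.2.2.2 hv3
  have h1 := hmod _ hb
  by_contra hcon
  have := hω (not_lt.1 hcon)
  linarith

/-! ## 4. floor mass, distortion -/

theorem rgw_floor_mass (h : RgPhyHyp l E T a2 a4 F Pf) (c C : ℝ) (hc : 0 < c) :
    Tendsto (fun n => volume ((E n).toDat.mset c C (fun t => 0 < (E n).toDat.H t))) l (𝓝 0) := by
  obtain ⟨fm, hfm, hfl⟩ := h.floor
  obtain ⟨c0, C1, C0, Cth, -, -, -, -, hok⟩ := h.ok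
  have hlim : Tendsto (fun n => ENNReal.ofReal (fm n / (E n).x)) l (𝓝 0) := by
    have := (ENNReal.continuous_ofReal.tendsto 0).comp hfm
    rw [ENNReal.ofReal_zero] at this
    exact this
  refine tendsto_of_tendsto_of_tendsto_of_le_of_le' tendsto_const_nhds hlim (Eventually.of_forall fun _ => zero_le) ?_
  filter_upwards [hfl, hok, rgw_mset_u h c C hc] with n h1 h2 h3
  have hx := h2.x_pos
  have hsub : (E n).toDat.mset c C (fun t => 0 < (E n).toDat.H t)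
      ⊆ ((E n).x * ·) ⁻¹' {u | (E n).u0 < u ∧ u ≤ 1 ∧ 0 < (E n).H ((E n).r u)} := by
    intro v hv
    obtain ⟨hv1, hv2, -, hv4⟩ := hv
    obtain ⟨g1, g2, -, -, g5, -⟩ := h3 v hv1 hv2
    refine ⟨g1, g2, ?_⟩
    have e : (E n).toDat.H ((E n).toDat.r v) = (E n).H ((E n).cl ((E n).x * (E n).toDat.r v)) / (E n).x ^ 4 := rfl
    rw [e, g5] at hv4
    exact (div_pos_iff_of_pos_right (by positivity)).1 hv4
  refine (measure_mono hsub).trans ?_
  rw [Real.volume_preimage_mul_left hx.ne', abs_of_pos (inv_pos.2 hx), div_eq_inv_mul,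
    ENNReal.ofReal_mul (inv_pos.2 hx).le]
  exact mul_le_mul_right h1 _

theorem rgw_J_dist (h : RgPhyHyp l E T a2 a4 F Pf) (c C : ℝ) (hc : 0 < c) :
    ∃ Cj : ℝ, ∀ᶠ n in l, ∀ t ∈ (E n).toDat.band c C, ∀ t' ∈ (E n).toDat.band c C, (E n).toDat.J t' ≤ Cj * (E n).toDat.J t := by
  obtain ⟨c0, C1, C0, Cth, -, -, -, -, hok⟩ := h.ok
  refine ⟨(C / c) ^ 2, ?_⟩
  filter_upwards [hok] with n h2 t ht t' ht'
  have hx := h2.x_pos
  have hr1 : (E n).rmin ≤ 1 := h2.rmin_top.trans h2.top_le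
  have hcl : ∀ ρ, (E n).cl ρ ∈ Icc (E n).rmin 1 := fun ρ =>
    ⟨le_max_left _ _, max_le hr1 (min_le_right _ _)⟩
  have hcC : c ≤ C := ht.2.2.1.trans ht.2.2.2
  have hC : 0 < C := hc.trans_le hcC
  have h1 : 1 ≤ (C / c) ^ 2 := one_le_pow₀ ((one_le_div hc).2 hcC)
  show (E n).J ((E n).cl ((E n).x * t')) ≤ (C / c) ^ 2 * (E n).J ((E n).cl ((E n).x * t))
  set ρ := (E n).cl ((E n).x * t) with hρ
  set ρ' := (E n).cl ((E n).x * t') with hρ'
  have hJ : 0 < (E n).J ρ := h2.J_pos ρ (hcl _)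
  have ea : ∀ s, (E n).toDat.a s = (E n).al ((E n).cl ((E n).x * s)) / (E n).x := fun s => rfl
  have a1 : c * (E n).x ≤ (E n).al ρ := by
    have := ht.2.2.1
    rw [ea, le_div_iff₀ hx] at this
    exact this
  have a2' : (E n).al ρ' ≤ C * (E n).x := by
    have := ht'.2.2.2
    rw [ea, div_le_iff₀ hx] at this
    exact this
  rcases le_total ρ' ρ with hle | hle
  · calc (E n).J ρ' ≤ (E n).J ρ := h2.J_mono (hcl _) (hcl _) hle
      _ = 1 * (E n).J ρ := (one_mul _).symm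
      _ ≤ (C / c) ^ 2 * (E n).J ρ := mul_le_mul_of_nonneg_right h1 hJ.le
  · have hd := h2.J_dist ρ ρ' (hcl _).1 hle (hcl _).2
    have hus := h2.us_nn
    set A := (E n).al ρ + (E n).us with hA
    set A' := (E n).al ρ' + (E n).us with hA'
    have hA0 : 0 < A := by
      have : 0 < c * (E n).x := mul_pos hc hx
      linarith
    have hA'0 : 0 ≤ A' := by
      have : (E n).al ρ ≤ (E n).al ρ' := h2.al_mono (hcl _) (hcl _) hle
      linarith
    have hAA : c * A' ≤ C * A := by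
      have e1 : c * (E n).al ρ' ≤ c * (C * (E n).x) := mul_le_mul_of_nonneg_left a2' hc.le
      have e2 : C * (c * (E n).x) ≤ C * (E n).al ρ := mul_le_mul_of_nonneg_left a1 hC.le
      have e3 : c * (E n).us ≤ C * (E n).us := mul_le_mul_of_nonneg_right hcC hus
      rw [hA, hA']
      nlinarith
    have hsq : (c * A') ^ 2 ≤ (C * A) ^ 2 := pow_le_pow_left₀ (mul_nonneg hc.le hA'0) hAA 2
    have h3 : (E n).J ρ' * (c ^ 2 * A ^ 2) ≤ (E n).J ρ * C ^ 2 * A ^ 2 := by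
      calc (E n).J ρ' * (c ^ 2 * A ^ 2) = c ^ 2 * ((E n).J ρ' * A ^ 2) := by ring
        _ ≤ c ^ 2 * ((E n).J ρ * A' ^ 2) := mul_le_mul_of_nonneg_left hd (sq_nonneg _)
        _ = (E n).J ρ * (c * A') ^ 2 := by ring
        _ ≤ (E n).J ρ * (C * A) ^ 2 := mul_le_mul_of_nonneg_left hsq hJ.le
        _ = (E n).J ρ * C ^ 2 * A ^ 2 := by ring
    have h4 : (E n).J ρ' * c ^ 2 ≤ (E n).J ρ * C ^ 2 := by
      have hA2 : 0 < A ^ 2 := by positivity
      refine le_of_mul_le_mul_right ?_ hA2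
      calc (E n).J ρ' * c ^ 2 * A ^ 2 = (E n).J ρ' * (c ^ 2 * A ^ 2) := by ring
        _ ≤ _ := h3
    rw [div_pow, div_mul_eq_mul_div, le_div_iff₀ (by positivity)]
    linarith

/-! ## 5. the scalar second derivative -/

theorem rgw_P_lim (h : RgPhyHyp l E T a2 a4 F Pf) (C : ℝ) :
    TendstoUniformlyOn (fun n => (E n).toDat.P) (fun τ => T ^ 3 * a4 ^ 2 * τ) l (Icc 0 C) := by
  obtain ⟨Cs, q0, hq0, hsc⟩ := h.sc
  obtain ⟨c0, C1, C0, Cth, -, -, -, -, hok⟩ := h.ok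
  rw [Metric.tendstoUniformlyOn_iff]
  intro ε hε
  have hlim : Tendsto (fun n => (E n).T ^ 2 * |Cs| * (E n).x * C ^ 2
      + |(E n).T ^ 3 * (E n).a4 ^ 2 - T ^ 3 * a4 ^ 2| * |C|) l (𝓝 0) := by
    have t1 : Tendsto (fun n => (E n).T ^ 2 * |Cs| * (E n).x * C ^ 2) l (𝓝 (T ^ 2 * |Cs| * 0 * C ^ 2)) :=
      (((h.T_lim.pow 2).mul_const _).mul h.x_lim).mul_const _
    have t2 : Tendsto (fun n => |(E n).T ^ 3 * (E n).a4 ^ 2 - T ^ 3 * a4 ^ 2| * |C|) l
        (𝓝 (|T ^ 3 * a4 ^ 2 - T ^ 3 * a4 ^ 2| * |C|)) :=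
      ((((h.T_lim.pow 3).mul (h.a4_lim.pow 2)).sub_const _).abs).mul_const _
    have := t1.add t2
    simpa using this
  have hxC : ∀ᶠ n in l, (E n).x * |C| < q0 := by
    have : Tendsto (fun n => (E n).x * |C|) l (𝓝 (0 * |C|)) := h.x_lim.mul_const _
    rw [zero_mul] at this
    exact this.eventually (gt_mem_nhds hq0)
  filter_upwards [hsc, hok, hlim.eventually (gt_mem_nhds hε), hxC] with n h1 h2 h3 h4 τ hτ
  have hx := h2.x_pos
  have hτC : τ ≤ |C| := hτ.2.trans (le_abs_self _)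
  have hq : (E n).x * τ ∈ Icc (0:ℝ) q0 :=
    ⟨mul_nonneg hx.le hτ.1, ((mul_le_mul_of_nonneg_left hτC hx.le).trans h4.le)⟩
  have b := (h1 _ hq).1
  have eP : (E n).toDat.P τ = (E n).T ^ 2 * (E n).Q3 ((E n).x * τ) / (E n).x := rfl
  rw [Real.dist_eq, abs_sub_comm, eP]
  refine lt_of_le_of_lt ?_ h3
  have e1 : (E n).T ^ 2 * (E n).Q3 ((E n).x * τ) / (E n).x - T ^ 3 * a4 ^ 2 * τ
      = (E n).T ^ 2 * (((E n).Q3 ((E n).x * τ) - (E n).T * (E n).a4 ^ 2 * ((E n).x * τ)) / (E n).x)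
        + ((E n).T ^ 3 * (E n).a4 ^ 2 - T ^ 3 * a4 ^ 2) * τ := by
    field_simp
    ring
  rw [e1]
  refine (abs_add_le _ _).trans (add_le_add ?_ ?_)
  · rw [abs_mul, abs_of_nonneg (sq_nonneg _), abs_div, abs_of_pos hx]
    have b2 : |(E n).Q3 ((E n).x * τ) - (E n).T * (E n).a4 ^ 2 * ((E n).x * τ)| / (E n).x ≤ |Cs| * (E n).x * C ^ 2 := by
      rw [div_le_iff₀ hx]
      refine b.trans ?_
      have hτ2 : τ ^ 2 ≤ C ^ 2 := pow_le_pow_left₀ hτ.1 hτ.2 2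
      calc Cs * ((E n).x * τ) ^ 2 ≤ |Cs| * ((E n).x * τ) ^ 2 := mul_le_mul_of_nonneg_right (le_abs_self _) (sq_nonneg _)
        _ = |Cs| * (E n).x ^ 2 * τ ^ 2 := by ring
        _ ≤ |Cs| * (E n).x ^ 2 * C ^ 2 := mul_le_mul_of_nonneg_left hτ2 (by positivity)
        _ = |Cs| * (E n).x * C ^ 2 * (E n).x := by ring
    calc (E n).T ^ 2 * (|(E n).Q3 ((E n).x * τ) - (E n).T * (E n).a4 ^ 2 * ((E n).x * τ)| / (E n).x)
        ≤ (E n).T ^ 2 * (|Cs| * (E n).x * C ^ 2) := mul_le_mul_of_nonneg_left b2 (sq_nonneg _)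
      _ = (E n).T ^ 2 * |Cs| * (E n).x * C ^ 2 := by ring
  · rw [abs_mul, abs_of_nonneg hτ.1]
    exact mul_le_mul_of_nonneg_left hτC (abs_nonneg _)

theorem rgw_Bc_lim (h : RgPhyHyp l E T a2 a4 F Pf) (C : ℝ) :
    TendstoUniformlyOn (fun n => (E n).toDat.Bc) (fun _ => 2 * T ^ 2 * a2 ^ 3) l (Icc 0 C) := by
  obtain ⟨Cs, q0, hq0, hsc⟩ := h.sc
  obtain ⟨c0, C1, C0, Cth, -, -, -, -, hok⟩ := h.ok
  rw [Metric.tendstoUniformlyOn_iff]
  intro ε hε
  have hlim : Tendsto (fun n => 2 * (E n).T ^ 2 * (|Cs| * ((E n).x * |C|))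
      + |2 * (E n).T ^ 2 * (E n).a2 ^ 3 - 2 * T ^ 2 * a2 ^ 3|) l (𝓝 0) := by
    have t1 : Tendsto (fun n => 2 * (E n).T ^ 2 * (|Cs| * ((E n).x * |C|))) l (𝓝 (2 * T ^ 2 * (|Cs| * (0 * |C|)))) :=
      ((h.T_lim.pow 2).const_mul 2).mul ((h.x_lim.mul_const _).const_mul _)
    have t2 : Tendsto (fun n => |2 * (E n).T ^ 2 * (E n).a2 ^ 3 - 2 * T ^ 2 * a2 ^ 3|) l
        (𝓝 (|2 * T ^ 2 * a2 ^ 3 - 2 * T ^ 2 * a2 ^ 3|)) :=
      ((((h.T_lim.pow 2).const_mul 2).mul (h.a2_lim.pow 3)).sub_const _).abs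
    have := t1.add t2
    simpa using this
  have hxC : ∀ᶠ n in l, (E n).x * |C| < q0 := by
    have : Tendsto (fun n => (E n).x * |C|) l (𝓝 (0 * |C|)) := h.x_lim.mul_const _
    rw [zero_mul] at this
    exact this.eventually (gt_mem_nhds hq0)
  filter_upwards [hsc, hok, hlim.eventually (gt_mem_nhds hε), hxC] with n h1 h2 h3 h4 τ hτ
  have hx := h2.x_pos
  have hτC : τ ≤ |C| := hτ.2.trans (le_abs_self _)
  have hq : (E n).x * τ ∈ Icc (0:ℝ) q0 :=
    ⟨mul_nonneg hx.le hτ.1, ((mul_le_mul_of_nonneg_left hτC hx.le).trans h4.le)⟩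
  have b := (h1 _ hq).2
  have eB : (E n).toDat.Bc τ = 2 * (E n).T ^ 2 * (E n).Q2 ((E n).x * τ) := rfl
  rw [Real.dist_eq, abs_sub_comm, eB]
  refine lt_of_le_of_lt ?_ h3
  have e1 : 2 * (E n).T ^ 2 * (E n).Q2 ((E n).x * τ) - 2 * T ^ 2 * a2 ^ 3
      = 2 * (E n).T ^ 2 * ((E n).Q2 ((E n).x * τ) - (E n).a2 ^ 3)
        + (2 * (E n).T ^ 2 * (E n).a2 ^ 3 - 2 * T ^ 2 * a2 ^ 3) := by ring
  rw [e1]
  refine (abs_add_le _ _).trans (add_le_add ?_ le_rfl)
  rw [abs_mul, abs_of_nonneg (by positivity : (0:ℝ) ≤ 2 * (E n).T ^ 2)]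
  refine mul_le_mul_of_nonneg_left (b.trans ?_) (by positivity)
  calc Cs * ((E n).x * τ) ≤ |Cs| * ((E n).x * τ) :=
        mul_le_mul_of_nonneg_right (le_abs_self _) (mul_nonneg hx.le hτ.1)
    _ ≤ |Cs| * ((E n).x * |C|) := mul_le_mul_of_nonneg_left (mul_le_mul_of_nonneg_left hτC hx.le) (abs_nonneg _)

end Claimed.Agent.R286
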