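import Claimed.Agent.R286.Rig.Phy

/-!
# Row 286, unit RIG, file 12: the rescaled record of an unscaled system is `Ok`          (architect helper24)

Pure bookkeeping: `ρ = x t`, `u = x v`, `q = x τ`.   `E.cl` clamps radii to `[rmin,1]`, `E.m = al ∘ cl` is monotone on the whole line with values in `[u0,1]`.
Sections: 1. clamps;  2. monotone/measurable fields;  3. outer comparability (mass form → radius form) and quantile;  4. scalar clock;  5. scalar defect (substitution `σ = x τ`);  6. potential.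
`rgw_ok` (glue) is proved from the leaves.
* outer: `t1 = C1 C0 + 1`.  For `ρ ∈ [t1 x, top]`, `u = al ρ`:  if `u < C0 x` then `ρ = r u ≤ r (C0 x) ≤ C1 C0 x < ρ`;  so `C0 x ≤ u` and `c0 u ≤ ρ ≤ C1 u`.
* cap: `ρ = cl (x t)`.  If `x t < rmin`: `ρ = rmin`, `ρ + wc ≤ x t + (wc + rmin) < top`, the zero `ρ' ≤ rmin + wc ≤ x t + (wc + rmin)`.
-/

set_option autoImplicit false

namespace Claimed.Agent.R286

open MeasureTheory Filter Set Topology

variable {E : RgPhy} {c0 C1 C0 Cth : ℝ}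

/-! ## 1. clamps -/

theorem rgw_rmin_le_one (h : E.Ok c0 C1 C0 Cth) : E.rmin ≤ 1 := h.rmin_top.trans h.top_le

theorem rgw_cl_mem (h : E.Ok c0 C1 C0 Cth) (ρ : ℝ) : E.cl ρ ∈ Icc E.rmin 1 :=
  ⟨le_max_left _ _, max_le (rgw_rmin_le_one h) (min_le_right _ _)⟩

theorem rgw_cl_mono (E : RgPhy) : Monotone E.cl := fun _ _ hab => max_le_max le_rfl (min_le_min hab le_rfl)

theorem rgw_cl_id {ρ : ℝ} (h1 : E.rmin ≤ ρ) (h2 : ρ ≤ 1) : E.cl ρ = ρ := by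
  unfold RgPhy.cl; rw [min_eq_left h2, max_eq_right h1]

theorem rgw_cl_low (h : E.Ok c0 C1 C0 Cth) {ρ : ℝ} (h1 : ρ ≤ E.rmin) : E.cl ρ = E.rmin := by
  unfold RgPhy.cl
  exact max_eq_left ((min_le_left _ _).trans h1)

theorem rgw_m_mono (h : E.Ok c0 C1 C0 Cth) : Monotone E.m := fun a b hab =>
  h.al_mono (rgw_cl_mem h a) (rgw_cl_mem h b) (rgw_cl_mono E hab)

theorem rgw_m_mem (h : E.Ok c0 C1 C0 Cth) (ρ : ℝ) : E.m ρ ∈ Icc E.u0 1 := by
  have hc := rgw_cl_mem h ρ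
  have h1 := rgw_rmin_le_one h
  constructor
  · rw [← h.al_min]; exact h.al_mono ⟨le_rfl, h1⟩ hc hc.1
  · rw [← h.al_one]; exact h.al_mono hc ⟨h1, le_rfl⟩ hc.2

theorem rgw_m_mem01 (h : E.Ok c0 C1 C0 Cth) (ρ : ℝ) : E.m ρ ∈ Icc (0:ℝ) 1 :=
  ⟨h.u0_nn.trans (rgw_m_mem h ρ).1, (rgw_m_mem h ρ).2⟩

theorem rgw_m_id {ρ : ℝ} (h1 : E.rmin ≤ ρ) (h2 : ρ ≤ 1) : E.m ρ = E.al ρ := by
  unfold RgPhy.m; rw [rgw_cl_id h1 h2]

theorem rgw_m_low (h : E.Ok c0 C1 C0 Cth) {ρ : ℝ} (h1 : ρ ≤ E.rmin) : E.m ρ = E.u0 := by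
  unfold RgPhy.m; rw [rgw_cl_low h h1, h.al_min]

theorem rgw_m_gt (h : E.Ok c0 C1 C0 Cth) {ρ : ℝ} (h1 : E.u0 < E.m ρ) : E.rmin < ρ := by
  by_contra hc
  rw [rgw_m_low h (not_lt.1 hc)] at h1
  exact lt_irrefl _ h1

theorem rgw_m_r (h : E.Ok c0 C1 C0 Cth) {u : ℝ} (hu : u ∈ Icc E.u0 1) : E.m (E.r u) = u := by
  have := h.r_mem u hu
  rw [rgw_m_id this.1 this.2, h.al_r u hu]

theorem rgw_cl_r (h : E.Ok c0 C1 C0 Cth) {u : ℝ} (hu : u ∈ Icc E.u0 1) : E.cl (E.r u) = E.r u :=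
  rgw_cl_id (h.r_mem u hu).1 (h.r_mem u hu).2

theorem rgw_a_zero (h : E.Ok c0 C1 C0 Cth) : E.toDat.a 0 = E.u0 / E.x := by
  show E.m (E.x * 0) / E.x = _
  rw [mul_zero, rgw_m_low h h.rmin_nn]

/-- a rescaled radius of the working interval -/
theorem rgw_work (h : E.Ok c0 C1 C0 Cth) {t : ℝ} (ht : t ≤ E.toDat.R) (ha : E.toDat.a 0 < E.toDat.a t) :
    E.rmin < E.x * t ∧ E.x * t ≤ E.top ∧ E.x * t ≤ 1 ∧ E.m (E.x * t) = E.al (E.x * t) ∧ E.cl (E.x * t) = E.x * t := by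
  have hx := h.x_pos
  have ha' : E.m (E.x * 0) / E.x < E.m (E.x * t) / E.x := ha
  rw [div_lt_div_iff_of_pos_right hx, mul_zero, rgw_m_low h h.rmin_nn] at ha'
  have h1 : E.rmin < E.x * t := rgw_m_gt h ha'
  have h2 : E.x * t ≤ E.top := by
    have : t ≤ E.top / E.x := ht
    rw [le_div_iff₀ hx] at this
    linarith
  have h3 : E.x * t ≤ 1 := h2.trans h.top_le
  exact ⟨h1, h2, h3, rgw_m_id h1.le h3, rgw_cl_id h1.le h3⟩

/-! ## 2. monotone and measurable fields -/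

theorem rgw_ok_mono (h : E.Ok c0 C1 C0 Cth) :
    Monotone E.toDat.a ∧ (∀ t, 0 ≤ E.toDat.a t) ∧ Monotone E.toDat.s ∧ (∀ t, 0 ≤ E.toDat.s t) ∧ Monotone E.toDat.k ∧ (∀ t, 0 ≤ E.toDat.k t) ∧
      Monotone E.toDat.aK ∧ (∀ t, 0 ≤ E.toDat.aK t) ∧ (∀ t, 0 ≤ E.toDat.dl t) := by
  have hx := h.x_pos
  have hT := h.T_pos
  have hl : Monotone fun t : ℝ => E.x * t := fun a b hab => mul_le_mul_of_nonneg_left hab hx.le
  have hm : Monotone fun t : ℝ => E.m (E.x * t) := (rgw_m_mono h).comp hl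
  refine ⟨fun a b hab => ?_, fun t => ?_, fun a b hab => ?_, fun t => ?_, fun a b hab => ?_, fun t => ?_, fun a b hab => ?_,
    fun t => ?_, fun t => ?_⟩
  · exact div_le_div_of_nonneg_right (hm hab) hx.le
  · exact div_nonneg (rgw_m_mem01 h _).1 hx.le
  · exact div_le_div_of_nonneg_right (h.S_mono (rgw_m_mem01 h _) (rgw_m_mem01 h _) (hm hab)) hx.le
  · exact div_nonneg (h.S_nn _ (rgw_m_mem01 h _)) hx.le
  · exact div_le_div_of_nonneg_right (h.K_mono (rgw_m_mem01 h _) (rgw_m_mem01 h _) (hm hab)) (mul_pos hT hx).le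
  · exact div_nonneg (h.K_nn _ (rgw_m_mem01 h _)) (mul_pos hT hx).le
  · exact div_le_div_of_nonneg_right (h.aK_mono (hl hab)) hx.le
  · exact div_nonneg (h.aK_nn _) hx.le
  · exact div_nonneg (h.Dd_nn _) hx.le

theorem rgw_ok_meas (h : E.Ok c0 C1 C0 Cth) :
    Measurable E.toDat.dl ∧ Measurable E.toDat.e ∧ Measurable E.toDat.p ∧ Measurable E.toDat.z ∧ Measurable E.toDat.J := by
  have hx := h.x_pos
  have hl : Monotone fun t : ℝ => E.x * t := fun a b hab => mul_le_mul_of_nonneg_left hab hx.le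
  have hlm : Measurable fun t : ℝ => E.x * t := measurable_const.mul measurable_id
  have hm : Monotone fun t : ℝ => E.m (E.x * t) := (rgw_m_mono h).comp hl
  have hmm : Measurable fun t : ℝ => E.m (E.x * t) := hm.measurable
  have hS : Measurable fun t : ℝ => E.S (E.m (E.x * t)) :=
    Monotone.measurable fun a b hab => h.S_mono (rgw_m_mem01 h _) (rgw_m_mem01 h _) (hm hab)
  have hJ : Measurable fun t : ℝ => E.J (E.cl (E.x * t)) :=
    Monotone.measurable fun a b hab => h.J_mono (rgw_cl_mem h _) (rgw_cl_mem h _) (rgw_cl_mono E (hl hab))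
  refine ⟨?_, ?_, ?_, ?_, hJ⟩
  · exact (h.Dd_meas.comp hmm).div_const _
  · exact (h.e_meas.comp hlm).div_const _
  · exact h.p_meas.comp hlm
  · exact ((((h.b0_meas.comp hmm).sub_const _).mul hS).add (h.h0_meas.comp hmm)).div_const _

/-! ## 3. outer comparability and the quantile -/

theorem rgw_ok_outer (h : E.Ok c0 C1 C0 Cth) (hc0 : 0 < c0) (hC1 : 0 < C1) (hC0 : 0 < C0)
    (h2 : E.rmin ≤ E.x) (h3 : E.u0 ≤ C0 * E.x) (h4 : C0 * E.x ≤ 1) :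
    ∀ t, C1 * C0 + 1 ≤ t → t ≤ E.toDat.R → 1 / C1 * t ≤ E.toDat.a t ∧ E.toDat.a t ≤ 1 / c0 * t := by
  intro t ht1 htR
  have hx := h.x_pos
  have hCC : 0 < C1 * C0 := mul_pos hC1 hC0
  have hρ2 : E.x * t ≤ E.top := by
    have : t ≤ E.top / E.x := htR
    rw [le_div_iff₀ hx] at this
    linarith
  have hρ3 : E.x * t ≤ 1 := hρ2.trans h.top_le
  have hρ0 : E.x * (C1 * C0 + 1) ≤ E.x * t := mul_le_mul_of_nonneg_left ht1 hx.le
  have hxCC : 0 < E.x * (C1 * C0) := mul_pos hx hCC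
  have hρ1 : E.rmin ≤ E.x * t := by nlinarith
  have hmem : E.x * t ∈ Icc E.rmin 1 := ⟨hρ1, hρ3⟩
  have hu : E.m (E.x * t) ∈ Icc E.u0 1 := rgw_m_mem h _
  have hmal : E.m (E.x * t) = E.al (E.x * t) := rgw_m_id hρ1 hρ3
  have hr : E.r (E.m (E.x * t)) = E.x * t := by rw [hmal]; exact h.r_al _ hmem
  have hC0u : C0 * E.x ≤ E.m (E.x * t) := by
    by_contra hcon
    have hlt := not_le.1 hcon
    have h5 : E.r (E.m (E.x * t)) ≤ E.r (C0 * E.x) := h.r_mono hu ⟨h3, h4⟩ hlt.le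
    have h6 := (h.reg (C0 * E.x) le_rfl h4 h3).2
    rw [hr] at h5
    nlinarith
  obtain ⟨r1, r2⟩ := h.reg _ hC0u hu.2 hu.1
  rw [hr] at r1 r2
  constructor
  · show 1 / C1 * t ≤ E.m (E.x * t) / E.x
    rw [le_div_iff₀ hx, div_mul_eq_mul_div, one_mul, div_mul_eq_mul_div, div_le_iff₀ hC1]
    linarith
  · show E.m (E.x * t) / E.x ≤ 1 / c0 * t
    rw [div_le_iff₀ hx, div_mul_eq_mul_div, one_mul, div_mul_eq_mul_div, le_div_iff₀ hc0]
    linarith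

theorem rgw_ok_quant (h : E.Ok c0 C1 C0 Cth) :
    ∀ v, E.toDat.a 0 < v → v ≤ E.toDat.a E.toDat.R → 0 ≤ E.toDat.r v ∧ E.toDat.r v ≤ E.toDat.R ∧ E.toDat.a (E.toDat.r v) = v := by
  intro v hv0 hvR
  have hx := h.x_pos
  rw [rgw_a_zero h, div_lt_iff₀ hx] at hv0
  have hvR' : v ≤ E.m (E.x * (E.top / E.x)) / E.x := hvR
  rw [mul_div_cancel₀ _ hx.ne', le_div_iff₀ hx, rgw_m_id h.rmin_top h.top_le] at hvR'
  have htop : E.top ∈ Icc E.rmin 1 := ⟨h.rmin_top, h.top_le⟩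
  have hal : E.al E.top ∈ Icc E.u0 1 := by
    have := rgw_m_mem h E.top
    rwa [rgw_m_id h.rmin_top h.top_le] at this
  have hu : E.x * v ∈ Icc E.u0 1 := ⟨by linarith, by linarith [hal.2]⟩
  have hr := h.r_mem _ hu
  refine ⟨?_, ?_, ?_⟩
  · exact div_nonneg (h.rmin_nn.trans hr.1) hx.le
  · show E.r (E.x * v) / E.x ≤ E.top / E.x
    refine div_le_div_of_nonneg_right ?_ hx.le
    have := h.r_mono hu hal (by linarith)
    rwa [h.r_al _ htop] at this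
  · show E.m (E.x * (E.r (E.x * v) / E.x)) / E.x = v
    rw [mul_div_cancel₀ _ hx.ne', rgw_m_r h hu]
    field_simp

/-! ## 4. strength and scalar clock -/

theorem rgw_k_xt (h : E.Ok c0 C1 C0 Cth) {t : ℝ} (h0 : 0 ≤ t) (ht : t ≤ E.toDat.R) :
    0 ≤ E.x * t ∧ E.x * t ≤ E.top := by
  refine ⟨mul_nonneg h.x_pos.le h0, ?_⟩
  have : t ≤ E.top / E.x := ht
  rw [le_div_iff₀ h.x_pos] at this
  linarith

theorem rgw_ok_e (h : E.Ok c0 C1 C0 Cth) :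
    (∀ t, 0 ≤ t → t ≤ E.toDat.R → 0 < E.toDat.e t) ∧ (∀ t, 0 ≤ t → t ≤ E.toDat.R → E.toDat.x ^ 2 * E.toDat.e t ≤ Cth) := by
  have hx := h.x_pos
  constructor
  · intro t h0 ht
    obtain ⟨a1, a2⟩ := rgw_k_xt h h0 ht
    exact div_pos (h.e_pos _ ⟨a1, a2.trans h.top_le⟩) (by positivity)
  · intro t h0 ht
    obtain ⟨a1, a2⟩ := rgw_k_xt h h0 ht
    show E.x ^ 2 * (E.e (E.x * t) / E.x ^ 2) ≤ Cth
    rw [mul_div_cancel₀ _ (by positivity)]
    exact h.e_le _ ⟨a1, a2.trans h.top_le⟩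

theorem rgw_ok_k (h : E.Ok c0 C1 C0 Cth) : ∀ t, 0 ≤ t → t ≤ E.toDat.R → E.toDat.a 0 < E.toDat.a t →
    E.toDat.k t = t + (1 - E.toDat.x ^ 2 * E.toDat.e t / E.toDat.T) * (E.toDat.s t - t) + E.toDat.x ^ 2 * E.toDat.z t / E.toDat.T := by
  intro t h0 ht ha
  obtain ⟨w1, w2, w3, w4, w5⟩ := rgw_work h ht ha
  have hx := h.x_pos
  have hT := h.T_pos
  show E.K (E.m (E.x * t)) / (E.T * E.x) = t + (1 - E.x ^ 2 * (E.e (E.x * t) / E.x ^ 2) / E.T) * (E.S (E.m (E.x * t)) / E.x - t)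
    + E.x ^ 2 * (((E.b0 (E.m (E.x * t)) - E.T) * E.S (E.m (E.x * t)) + E.h0 (E.m (E.x * t))) / E.x ^ 3) / E.T
  rw [w4, h.K_eq _ w1 w3]
  field_simp
  ring

theorem rgw_ok_aK (h : E.Ok c0 C1 C0 Cth) :
    (∀ t τ, 0 ≤ t → t ≤ E.toDat.R → E.toDat.k t ≤ τ → E.toDat.a t ≤ E.toDat.aK τ) ∧
    (∀ t τ, 0 ≤ t → t ≤ E.toDat.R → τ < E.toDat.k t → E.toDat.aK τ ≤ E.toDat.a t) := by
  have hx := h.x_pos
  have hT := h.T_pos
  constructor
  · intro t τ h0 ht hk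
    show E.m (E.x * t) / E.x ≤ E.aK (E.x * τ) / E.x
    refine div_le_div_of_nonneg_right (h.aK_ge _ (rgw_m_mem01 h _) _ ?_) hx.le
    have hk' : E.K (E.m (E.x * t)) / (E.T * E.x) ≤ τ := hk
    rw [div_le_iff₀ (by positivity)] at hk'
    rw [div_le_iff₀ hT]
    linarith
  · intro t τ h0 ht hk
    show E.aK (E.x * τ) / E.x ≤ E.m (E.x * t) / E.x
    refine div_le_div_of_nonneg_right (h.aK_le _ (rgw_m_mem01 h _) _ ?_) hx.le
    have hk' : τ < E.K (E.m (E.x * t)) / (E.T * E.x) := hk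
    rw [lt_div_iff₀ (by positivity)] at hk'
    rw [lt_div_iff₀ hT]
    linarith

/-! ## 5. the scalar defect -/

theorem rgw_k_maps (h : E.Ok c0 C1 C0 Cth) : MapsTo (fun τ => E.x * τ) (Icc 0 E.toDat.R) (Icc 0 E.top) := by
  intro τ hτ
  exact rgw_k_xt h hτ.1 hτ.2

theorem rgw_ok_cont (h : E.Ok c0 C1 C0 Cth) :
    ContinuousOn E.toDat.P (Icc 0 E.toDat.R) ∧ ContinuousOn E.toDat.Bc (Icc 0 E.toDat.R) := by
  have hm := rgw_k_maps h
  have hc : ContinuousOn (fun τ => E.x * τ) (Icc 0 E.toDat.R) := (continuous_const.mul continuous_id).continuousOn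
  constructor
  · show ContinuousOn (fun τ => E.T ^ 2 * E.Q3 (E.x * τ) / E.x) _
    exact ((h.Q3_cont.comp hc hm).const_mul _).div_const _
  · show ContinuousOn (fun τ => 2 * E.T ^ 2 * E.Q2 (E.x * τ)) _
    exact (h.Q2_cont.comp hc hm).const_mul _

/-- the integrand of `Γ^''` is interval integrable inside `[0,top]` -/
theorem rgw_Gm2_int (h : E.Ok c0 C1 C0 Cth) {a b : ℝ} (ha : a ∈ Icc 0 E.top) (hb : b ∈ Icc 0 E.top) :
    IntervalIntegrable (fun σ => E.T ^ 2 * (E.Q3 σ - 2 * E.aK σ * E.Q2 σ)) volume a b := by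
  have hsub : uIcc a b ⊆ Icc 0 E.top := uIcc_subset_Icc ha hb
  have h3 : IntervalIntegrable E.Q3 volume a b := (h.Q3_cont.mono hsub).intervalIntegrable
  have hK : IntervalIntegrable E.aK volume a b := h.aK_mono.intervalIntegrable
  have h2 : IntervalIntegrable (fun σ => E.aK σ * E.Q2 σ) volume a b := hK.mul_continuousOn (h.Q2_cont.mono hsub)
  have := (h3.sub (h2.const_mul 2)).const_mul (E.T ^ 2)
  refine this.congr ?_
  intro σ _
  show E.T ^ 2 * (E.Q3 σ - 2 * (E.aK σ * E.Q2 σ)) = E.T ^ 2 * (E.Q3 σ - 2 * E.aK σ * E.Q2 σ)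
  ring

theorem rgw_Gm1_cont (h : E.Ok c0 C1 C0 Cth) : ContinuousOn E.Gm1 (Icc 0 E.top) := by
  by_cases htop : 0 ≤ E.top
  swap
  · rw [Icc_eq_empty (by simpa using htop)]; exact continuousOn_empty _
  have h0 : (0:ℝ) ∈ Icc 0 E.top := ⟨le_rfl, htop⟩
  have h1 : E.top ∈ Icc 0 E.top := ⟨htop, le_rfl⟩
  have hI := rgw_Gm2_int h h0 h1
  have hc : ContinuousOn (fun q => ∫ σ in (0:ℝ)..q, E.T ^ 2 * (E.Q3 σ - 2 * E.aK σ * E.Q2 σ)) (uIcc 0 E.top) :=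
    intervalIntegral.continuousOn_primitive_interval' hI left_mem_uIcc
  rw [uIcc_of_le htop] at hc
  exact (continuousOn_const.add hc).congr fun q hq => h.Gm1_eq q hq

theorem rgw_ok_g (h : E.Ok c0 C1 C0 Cth) :
    ∀ t, 0 ≤ t → t ≤ E.toDat.R → E.toDat.g t = ∫ τ in (0:ℝ)..t, E.toDat.g1 τ := by
  intro t h0 ht
  have hx := h.x_pos
  obtain ⟨a1, a2⟩ := rgw_k_xt h h0 ht
  show (E.Gm (E.x * t) - E.x * t) / E.x ^ 3 = ∫ τ in (0:ℝ)..t, (E.Gm1 (E.x * τ) - 1) / E.x ^ 2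
  rw [h.Gm_eq _ ⟨a1, a2⟩]
  have hcont : ContinuousOn E.Gm1 (uIcc 0 (E.x * t)) := by
    rw [uIcc_of_le a1]
    exact (rgw_Gm1_cont h).mono (Icc_subset_Icc le_rfl a2)
  have hsub : (∫ τ in (0:ℝ)..t, E.Gm1 (E.x * τ)) = E.x⁻¹ • ∫ σ in (E.x * 0)..(E.x * t), E.Gm1 σ :=
    intervalIntegral.integral_comp_mul_left (fun σ => E.Gm1 σ) hx.ne'
  have hint : IntervalIntegrable (fun τ => E.Gm1 (E.x * τ)) volume 0 t := by
    have := (hcont.intervalIntegrable).comp_mul_left (c := E.x)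
    simpa [hx.ne'] using this
  rw [intervalIntegral.integral_div, intervalIntegral.integral_sub hint (by simp), hsub]
  simp only [mul_zero, intervalIntegral.integral_const, sub_zero, smul_eq_mul, mul_one]
  field_simp

theorem rgw_ok_g1 (h : E.Ok c0 C1 C0 Cth) :
    ∀ t, 0 ≤ t → t ≤ E.toDat.R → E.toDat.g1 t = E.toDat.g1 0 + ∫ τ in (0:ℝ)..t, (E.toDat.P τ - E.toDat.Bc τ * E.toDat.aK τ) := by
  intro t h0 ht
  have hx := h.x_pos
  obtain ⟨a1, a2⟩ := rgw_k_xt h h0 ht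
  show (E.Gm1 (E.x * t) - 1) / E.x ^ 2 = (E.Gm1 (E.x * 0) - 1) / E.x ^ 2 +
    ∫ τ in (0:ℝ)..t, (E.T ^ 2 * E.Q3 (E.x * τ) / E.x - 2 * E.T ^ 2 * E.Q2 (E.x * τ) * (E.aK (E.x * τ) / E.x))
  rw [h.Gm1_eq _ ⟨a1, a2⟩, mul_zero]
  have hsub : (∫ τ in (0:ℝ)..t, (fun σ => E.T ^ 2 * (E.Q3 σ - 2 * E.aK σ * E.Q2 σ)) (E.x * τ))
      = E.x⁻¹ • ∫ σ in (E.x * 0)..(E.x * t), E.T ^ 2 * (E.Q3 σ - 2 * E.aK σ * E.Q2 σ) :=
    intervalIntegral.integral_comp_mul_left (fun σ => E.T ^ 2 * (E.Q3 σ - 2 * E.aK σ * E.Q2 σ)) hx.ne'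
  have he : (∫ τ in (0:ℝ)..t, (E.T ^ 2 * E.Q3 (E.x * τ) / E.x - 2 * E.T ^ 2 * E.Q2 (E.x * τ) * (E.aK (E.x * τ) / E.x)))
      = (∫ τ in (0:ℝ)..t, (fun σ => E.T ^ 2 * (E.Q3 σ - 2 * E.aK σ * E.Q2 σ)) (E.x * τ)) / E.x := by
    rw [← intervalIntegral.integral_div]
    congr 1
    funext τ
    field_simp
  rw [he, hsub]
  simp only [mul_zero, smul_eq_mul]
  field_simp
  ring

/-! ## 6. the potential -/

theorem rgw_ok_J (h : E.Ok c0 C1 C0 Cth) :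
    (∀ t, 0 < E.toDat.J t) ∧ (∀ t t', 0 ≤ t → t ≤ t' → t' ≤ E.toDat.R → E.toDat.J t ≤ E.toDat.J t') := by
  refine ⟨fun t => h.J_pos _ (rgw_cl_mem h _), fun t t' _ htt' _ => ?_⟩
  exact h.J_mono (rgw_cl_mem h _) (rgw_cl_mem h _)
    (rgw_cl_mono E (mul_le_mul_of_nonneg_left htt' h.x_pos.le))

/-- `gam(t) = G(x t)/x^3` on the working interval -/
theorem rgw_gam_eq (h : E.Ok c0 C1 C0 Cth) {t : ℝ} (h1 : E.rmin < E.x * t) (h2 : E.x * t ≤ 1) :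
    E.toDat.gam t = E.G (E.x * t) / E.x ^ 3 := by
  have hx := h.x_pos
  have ht : 0 < t := by
    by_contra hcon
    have : E.x * t ≤ 0 := mul_nonpos_of_nonneg_of_nonpos hx.le (not_lt.1 hcon)
    linarith [h.rmin_nn]
  have hm : E.m (E.x * t) = E.al (E.x * t) := rgw_m_id h1.le h2
  show E.e (E.x * t) / E.x ^ 2 * ((2 - E.p (E.x * t)) * t - 2 * (1 - E.p (E.x * t)) * (E.S (E.m (E.x * t)) / E.x)
    - E.p (E.x * t) * ((E.S (E.m (E.x * t)) / E.x) ^ 2 + (E.Dd (E.m (E.x * t)) / E.x) ^ 2) / t) = _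
  rw [hm]
  unfold RgPhy.G
  field_simp

theorem rgw_ok_H (h : E.Ok c0 C1 C0 Cth) :
    (∀ t t', 0 ≤ t → t ≤ t' → t' ≤ E.toDat.R → E.toDat.a 0 < E.toDat.a t →
      IntervalIntegrable (fun τ => E.toDat.J τ * E.toDat.gam τ) volume t t') ∧
    (∀ t t', 0 ≤ t → t ≤ t' → t' ≤ E.toDat.R → E.toDat.a 0 < E.toDat.a t →
      E.toDat.H t' - E.toDat.H t = ∫ τ in t..t', E.toDat.J τ * E.toDat.gam τ) := by
  have hx := h.x_pos
  have key : ∀ t t', 0 ≤ t → t ≤ t' → t' ≤ E.toDat.R → E.toDat.a 0 < E.toDat.a t →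
      (E.rmin < E.x * t ∧ E.x * t ≤ E.x * t' ∧ E.x * t' ≤ 1 ∧ E.cl (E.x * t) = E.x * t ∧ E.cl (E.x * t') = E.x * t') ∧
      ∀ τ ∈ Icc t t', E.toDat.J τ * E.toDat.gam τ = (fun σ => E.J σ * E.G σ) (E.x * τ) * (1 / E.x ^ 3) := by
    intro t t' _ htt' ht' ha
    obtain ⟨w1, -, -, -, w5⟩ := rgw_work h (htt'.trans ht') ha
    have hxt' : E.x * t' ≤ E.top := by
      have : t' ≤ E.top / E.x := ht'
      rw [le_div_iff₀ hx] at this
      linarith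
    have hle : E.x * t ≤ E.x * t' := mul_le_mul_of_nonneg_left htt' hx.le
    have h1' : E.x * t' ≤ 1 := hxt'.trans h.top_le
    refine ⟨⟨w1, hle, h1', w5, rgw_cl_id (by linarith) h1'⟩, fun τ hτ => ?_⟩
    have a1 : E.x * t ≤ E.x * τ := mul_le_mul_of_nonneg_left hτ.1 hx.le
    have a2 : E.x * τ ≤ E.x * t' := mul_le_mul_of_nonneg_left hτ.2 hx.le
    rw [rgw_gam_eq h (by linarith) (by linarith)]
    show E.J (E.cl (E.x * τ)) * _ = _
    rw [rgw_cl_id (by linarith) (by linarith)]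
    simp only
    ring
  have hint : ∀ t t', 0 ≤ t → t ≤ t' → t' ≤ E.toDat.R → E.toDat.a 0 < E.toDat.a t →
      IntervalIntegrable (fun τ => (fun σ => E.J σ * E.G σ) (E.x * τ) * (1 / E.x ^ 3)) volume t t' := by
    intro t t' h0 htt' ht' ha
    obtain ⟨⟨w1, w2, w3, -, -⟩, -⟩ := key t t' h0 htt' ht' ha
    have := (h.H_int _ _ w1 w2 w3).comp_mul_left (c := E.x)
    rw [mul_div_cancel_left₀ _ hx.ne', mul_div_cancel_left₀ _ hx.ne'] at this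
    exact this.mul_const _
  constructor
  · intro t t' h0 htt' ht' ha
    obtain ⟨-, hk⟩ := key t t' h0 htt' ht' ha
    refine (hint t t' h0 htt' ht' ha).congr ?_
    rw [uIoc_of_le htt']
    intro τ hτ
    exact (hk τ ⟨hτ.1.le, hτ.2⟩).symm
  · intro t t' h0 htt' ht' ha
    obtain ⟨⟨w1, w2, w3, w4, w5⟩, hk⟩ := key t t' h0 htt' ht' ha
    have e1 : ∫ τ in t..t', E.toDat.J τ * E.toDat.gam τ
        = ∫ τ in t..t', (fun σ => E.J σ * E.G σ) (E.x * τ) * (1 / E.x ^ 3) := by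
      apply intervalIntegral.integral_congr
      intro τ hτ
      rw [uIcc_of_le htt'] at hτ
      exact hk τ hτ
    rw [e1, intervalIntegral.integral_mul_const,
      intervalIntegral.integral_comp_mul_left (fun σ => E.J σ * E.G σ) hx.ne', ← h.H_eq _ _ w1 w2 w3]
    show E.H (E.cl (E.x * t')) / E.x ^ 4 - E.H (E.cl (E.x * t)) / E.x ^ 4 = _
    rw [w4, w5, smul_eq_mul]
    field_simp

theorem rgw_ok_cap (h : E.Ok c0 C1 C0 Cth) :
    ∀ t, 0 ≤ t → t + E.toDat.ell < E.toDat.R → E.toDat.H t < 0 → ∃ t', t < t' ∧ t' ≤ t + E.toDat.ell ∧ E.toDat.H t' = 0 := by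
  intro t ht0 htR hH
  have hx := h.x_pos
  have hx4 : 0 < E.x ^ 4 := by positivity
  have hH' : E.H (E.cl (E.x * t)) < 0 := by
    have : E.H (E.cl (E.x * t)) / E.x ^ 4 < 0 := hH
    rw [div_lt_iff₀ hx4] at this
    linarith
  have hsum : E.x * t + (E.wc + E.rmin) < E.top := by
    have : t + (E.wc + E.rmin) / E.x < E.top / E.x := htR
    rw [lt_div_iff₀ hx] at this
    have e : (t + (E.wc + E.rmin) / E.x) * E.x = E.x * t + (E.wc + E.rmin) := by field_simp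
    linarith
  have hxt0 : 0 ≤ E.x * t := mul_nonneg hx.le ht0
  have hxt1 : E.x * t ≤ 1 := by linarith [h.top_le, h.wc_nn, h.rmin_nn]
  have hcl1 : E.x * t ≤ E.cl (E.x * t) := by
    unfold RgPhy.cl
    rw [min_eq_left hxt1]
    exact le_max_right _ _
  have hcl2 : E.cl (E.x * t) ≤ E.x * t + E.rmin := by
    unfold RgPhy.cl
    rw [min_eq_left hxt1]
    exact max_le (by linarith) (by linarith [h.rmin_nn])
  have hcl3 := (rgw_cl_mem h (E.x * t)).1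
  obtain ⟨ρ', hρ1, hρ2, hρ3⟩ := h.cap (E.cl (E.x * t)) hcl3 (by linarith) hH'
  refine ⟨ρ' / E.x, ?_, ?_, ?_⟩
  · rw [lt_div_iff₀ hx]; linarith
  · show ρ' / E.x ≤ t + (E.wc + E.rmin) / E.x
    rw [div_le_iff₀ hx]
    have e : (t + (E.wc + E.rmin) / E.x) * E.x = E.x * t + (E.wc + E.rmin) := by field_simp
    linarith
  · show E.H (E.cl (E.x * (ρ' / E.x))) / E.x ^ 4 = 0
    rw [mul_div_cancel₀ _ hx.ne', rgw_cl_id (by linarith) (by linarith [h.top_le]), hρ3, zero_div]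

/-! ## glue -/

/-- **the rescaled record is `Ok`** -/
theorem rgw_ok (h : E.Ok c0 C1 C0 Cth) (hc0 : 0 < c0) (hC1 : 0 < C1) (hC0 : 0 < C0)
    (h1 : C1 * C0 + 1 ≤ E.top / E.x) (h2 : E.rmin ≤ E.x) (h3 : E.u0 ≤ C0 * E.x) (h4 : C0 * E.x ≤ 1) :
    E.toDat.Ok (1 / C1) (1 / c0) (C1 * C0 + 1) Cth := by
  obtain ⟨m1, m2, m3, m4, m5, m6, m7, m8, m9⟩ := rgw_ok_mono h
  obtain ⟨e1, e2, e3, e4, e5⟩ := rgw_ok_meas h
  exact
    { x_pos := h.x_pos
      T_pos := h.T_pos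
      ell_nn := div_nonneg (add_nonneg h.wc_nn h.rmin_nn) h.x_pos.le
      R_ge := h1
      a_mono := m1
      a_nn := m2
      s_mono := m3
      s_nn := m4
      k_mono := m5
      k_nn := m6
      aK_mono := m7
      aK_nn := m8
      dl_nn := m9
      dl_meas := e1
      e_meas := e2
      p_meas := e3
      z_meas := e4
      J_meas := e5
      outer := rgw_ok_outer h hc0 hC1 hC0 h2 h3 h4
      quant := rgw_ok_quant h
      e_pos := (rgw_ok_e h).1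
      e_le := (rgw_ok_e h).2
      p_nn := fun t => h.p_nn _
      p_le := fun t => h.p_le _
      k_eq := rgw_ok_k h
      aK_ge := (rgw_ok_aK h).1
      aK_le := (rgw_ok_aK h).2
      P_cont := (rgw_ok_cont h).1
      Bc_cont := (rgw_ok_cont h).2
      g_eq := rgw_ok_g h
      g1_eq := rgw_ok_g1 h
      J_pos := (rgw_ok_J h).1
      J_mono := (rgw_ok_J h).2
      H_int := (rgw_ok_H h).1
      H_eq := (rgw_ok_H h).2
      cap := rgw_ok_cap h }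

end Claimed.Agent.R286
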