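import Claimed.Agent.R286.Rig.Defs

/-!
# Row 286, unit RIG, file 2: filter tools for monotone functions          (architect helper24; proofs helper21)

Paper free, Mathlib only.  Frame D1: limits along an ultrafilter, so NO dominated convergence (an ultrafilter on `ℕ` is not countably generated, and pointwise
ultralimits of measurable functions need not be measurable).  For MONOTONE functions pointwise convergence along ANY filter gives `L^1` and (continuous limit) uniform convergence:
on a cell `[t_i, t_{i+1}]`:  `|f_n - F| ≤ |f_n(t_{i+1}) - F(t_{i+1})| + |f_n(t_i) - F(t_i)| + (F(t_{i+1}) - F(t_i))`.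
-/

set_option autoImplicit false

namespace Claimed.Agent.R286

open MeasureTheory Filter Set Topology

/-- a sequence that is eventually bounded converges along an ultrafilter -/
theorem rg_ulim (𝒰 : Ultrafilter ℕ) (f : ℕ → ℝ) (M : ℝ) (h : ∀ᶠ n in (𝒰 : Filter ℕ), |f n| ≤ M) :
    Tendsto f (𝒰 : Filter ℕ) (𝓝 (limUnder (𝒰 : Filter ℕ) f)) := by
  have hc : IsCompact (Icc (-M) M) := isCompact_Icc
  have hle : ((𝒰.map f : Ultrafilter ℝ) : Filter ℝ) ≤ 𝓟 (Icc (-M) M) := by
    rw [le_principal_iff]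
    change Icc (-M) M ∈ Filter.map f (𝒰 : Filter ℕ)
    rw [mem_map]
    filter_upwards [h] with n hn
    exact abs_le.mp hn
  obtain ⟨x, -, hx⟩ := hc.ultrafilter_le_nhds (𝒰.map f) hle
  exact tendsto_nhds_limUnder ⟨x, hx⟩

/-- the bound on a cell of a partition -/
theorem rg_cell_bound {f F : ℝ → ℝ} {s : Set ℝ} (hf : MonotoneOn f s) (hF : MonotoneOn F s)
    {p q t : ℝ} (hp : p ∈ s) (hq : q ∈ s) (ht : t ∈ s) (h1 : p ≤ t) (h2 : t ≤ q) :
    |f t - F t| ≤ |f q - F q| + |f p - F p| + (F q - F p) := by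
  have a1 := hf hp ht h1
  have a2 := hf ht hq h2
  have b1 := hF hp ht h1
  have b2 := hF ht hq h2
  have c1 := le_abs_self (f q - F q)
  have c2 := neg_abs_le (f p - F p)
  have c3 := abs_nonneg (f q - F q)
  have c4 := abs_nonneg (f p - F p)
  rw [abs_le]
  constructor <;> linarith

/-- every point of `[a,b]` lies in a cell of the uniform partition -/
theorem rg_cell_exists (a b : ℝ) (N : ℕ) (hN : 0 < N) (t : ℝ) (ht : t ∈ Icc a b) :
    ∃ i < N, t ∈ Icc (a + (i : ℝ) * ((b - a) / N)) (a + ((i + 1 : ℕ) : ℝ) * ((b - a) / N)) := by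
  classical
  have hN' : (N : ℝ) ≠ 0 := by positivity
  have hab : a ≤ b := ht.1.trans ht.2
  have hex : ∃ k : ℕ, t ≤ a + (k : ℝ) * ((b - a) / N) := ⟨N, by
    have : a + (N : ℝ) * ((b - a) / N) = b := by field_simp; ring
    rw [this]; exact ht.2⟩
  have hk := Nat.find_spec hex
  have hkN : Nat.find hex ≤ N := Nat.find_min' hex (by
    have : a + (N : ℝ) * ((b - a) / N) = b := by field_simp; ring
    rw [this]; exact ht.2)
  rcases Nat.eq_zero_or_pos (Nat.find hex) with h0 | hpos
  · rw [h0] at hk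
    refine ⟨0, hN, ?_, ?_⟩
    · simpa using ht.1
    · have : 0 ≤ (b - a) / N := div_nonneg (by linarith) (by positivity)
      simp only [Nat.cast_zero, zero_mul, add_zero] at hk
      push_cast
      linarith
  · obtain ⟨i, hi⟩ : ∃ i, Nat.find hex = i + 1 := ⟨Nat.find hex - 1, by omega⟩
    have hlt : ¬ t ≤ a + (i : ℝ) * ((b - a) / N) := Nat.find_min hex (by omega)
    refine ⟨i, by omega, (not_le.mp hlt).le, ?_⟩
    rw [hi] at hk
    exact hk

/-- the points of the uniform partition lie in `[a,b]` -/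
theorem rg_pt_mem {a b : ℝ} (hab : a ≤ b) {N i : ℕ} (hi : i ≤ N) (hN : 0 < N) :
    a + (i : ℝ) * ((b - a) / N) ∈ Icc a b := by
  have hN' : (0 : ℝ) < N := by exact_mod_cast hN
  have h0 : 0 ≤ (b - a) / N := div_nonneg (by linarith) hN'.le
  have hi' : (i : ℝ) ≤ N := by exact_mod_cast hi
  constructor
  · have : 0 ≤ (i : ℝ) * ((b - a) / N) := by positivity
    linarith
  · have : (i : ℝ) * ((b - a) / N) ≤ N * ((b - a) / N) := mul_le_mul_of_nonneg_right hi' h0
    have e : (N : ℝ) * ((b - a) / N) = b - a := by field_simp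
    linarith

/-- the bound on the `i`-th cell of the uniform partition, with the total error at the nodes -/
theorem rg_cell_bound' {f F : ℝ → ℝ} {a b : ℝ} (hab : a ≤ b) (hf : MonotoneOn f (Icc a b))
    (hF : MonotoneOn F (Icc a b)) {N i : ℕ} (hi : i < N) {t : ℝ}
    (ht : t ∈ Icc (a + (i : ℝ) * ((b - a) / N)) (a + ((i + 1 : ℕ) : ℝ) * ((b - a) / N))) :
    |f t - F t| ≤ 2 * (∑ j ∈ Finset.range (N + 1),
        |f (a + (j : ℝ) * ((b - a) / N)) - F (a + (j : ℝ) * ((b - a) / N))|)
      + (F (a + ((i + 1 : ℕ) : ℝ) * ((b - a) / N)) - F (a + (i : ℝ) * ((b - a) / N))) := by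
  have hN : 0 < N := by omega
  have hp := rg_pt_mem hab (N := N) (i := i) (by omega) hN
  have hq := rg_pt_mem hab (N := N) (i := i + 1) (by omega) hN
  have htm : t ∈ Icc a b := ⟨hp.1.trans ht.1, ht.2.trans hq.2⟩
  have h := rg_cell_bound hf hF hp hq htm ht.1 ht.2
  have s1 : |f (a + (i : ℝ) * ((b - a) / N)) - F (a + (i : ℝ) * ((b - a) / N))|
      ≤ ∑ j ∈ Finset.range (N + 1),
        |f (a + (j : ℝ) * ((b - a) / N)) - F (a + (j : ℝ) * ((b - a) / N))| :=
    Finset.single_le_sum
      (f := fun j : ℕ => |f (a + (j : ℝ) * ((b - a) / N)) - F (a + (j : ℝ) * ((b - a) / N))|)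
      (fun j _ => abs_nonneg _) (Finset.mem_range.mpr (by omega))
  have s2 : |f (a + ((i + 1 : ℕ) : ℝ) * ((b - a) / N)) - F (a + ((i + 1 : ℕ) : ℝ) * ((b - a) / N))|
      ≤ ∑ j ∈ Finset.range (N + 1),
        |f (a + (j : ℝ) * ((b - a) / N)) - F (a + (j : ℝ) * ((b - a) / N))| :=
    Finset.single_le_sum
      (f := fun j : ℕ => |f (a + (j : ℝ) * ((b - a) / N)) - F (a + (j : ℝ) * ((b - a) / N))|)
      (fun j _ => abs_nonneg _) (Finset.mem_range.mpr (by omega))
  linarith

/-- the total error at the nodes tends to zero -/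
theorem rg_nodes_lim (l : Filter ℕ) (f : ℕ → ℝ → ℝ) (F : ℝ → ℝ) (a b : ℝ) (hab : a ≤ b)
    (hlim : ∀ t ∈ Icc a b, Tendsto (fun n => f n t) l (𝓝 (F t))) {N : ℕ} (hN : 0 < N) :
    Tendsto (fun n => ∑ j ∈ Finset.range (N + 1),
        |f n (a + (j : ℝ) * ((b - a) / N)) - F (a + (j : ℝ) * ((b - a) / N))|) l (𝓝 0) := by
  have : Tendsto (fun n => ∑ j ∈ Finset.range (N + 1),
        |f n (a + (j : ℝ) * ((b - a) / N)) - F (a + (j : ℝ) * ((b - a) / N))|) l
        (𝓝 (∑ j ∈ Finset.range (N + 1), (0 : ℝ))) := by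
    refine tendsto_finsetSum _ fun j hj => ?_
    have hj' : j ≤ N := by
      have := Finset.mem_range.mp hj
      omega
    have h := hlim _ (rg_pt_mem hab hj' hN)
    have h2 := (h.sub_const (F (a + (j : ℝ) * ((b - a) / N)))).abs
    simpa using h2
  simpa using this

/-- the limit of monotone functions is monotone -/
theorem rg_lim_mono (l : Filter ℕ) [l.NeBot] (f : ℕ → ℝ → ℝ) (F : ℝ → ℝ) (s : Set ℝ)
    (hm : ∀ᶠ n in l, MonotoneOn (f n) s)
    (hlim : ∀ t ∈ s, Tendsto (fun n => f n t) l (𝓝 (F t))) : MonotoneOn F s := by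
  intro x hx y hy hxy
  exact le_of_tendsto_of_tendsto (hlim x hx) (hlim y hy) (hm.mono fun n hn => hn hx hy hxy)

/-- pointwise convergence of monotone functions to a continuous limit is uniform on a compact interval -/
theorem rg_mono_unif (l : Filter ℕ) (f : ℕ → ℝ → ℝ) (F : ℝ → ℝ) (a b : ℝ) (hab : a ≤ b)
    (hm : ∀ᶠ n in l, MonotoneOn (f n) (Icc a b)) (hF : ContinuousOn F (Icc a b))
    (hlim : ∀ t ∈ Icc a b, Tendsto (fun n => f n t) l (𝓝 (F t))) :
    TendstoUniformlyOn f F l (Icc a b) := by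
  rw [Metric.tendstoUniformlyOn_iff]
  intro ε hε
  rcases l.eq_or_neBot with rfl | hl
  · exact Filter.eventually_bot
  have hFm := rg_lim_mono l f F _ hm hlim
  have huc := isCompact_Icc.uniformContinuousOn_of_continuous hF
  rw [Metric.uniformContinuousOn_iff] at huc
  obtain ⟨δ, hδ, hδ'⟩ := huc (ε / 2) (by positivity)
  obtain ⟨N, hNgt⟩ := exists_nat_gt ((b - a) / δ)
  have hN0 : (0 : ℝ) < N := lt_of_le_of_lt (div_nonneg (by linarith) hδ.le) hNgt
  have hN : 0 < N := by exact_mod_cast hN0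
  have hmesh : (b - a) / N < δ := by
    rw [div_lt_iff₀ hN0]
    rw [div_lt_iff₀ hδ] at hNgt
    linarith
  have hnod := rg_nodes_lim l f F a b hab hlim hN
  have hev := (tendsto_order.1 hnod).2 (ε / 4) (by positivity)
  filter_upwards [hm, hev] with n hn he t ht
  obtain ⟨i, hi, hti⟩ := rg_cell_exists a b N hN t ht
  have hb := rg_cell_bound' hab hn hFm hi hti
  have hp := rg_pt_mem hab (N := N) (i := i) (by omega) hN
  have hq := rg_pt_mem hab (N := N) (i := i + 1) (by omega) hN
  have hd : dist (a + ((i + 1 : ℕ) : ℝ) * ((b - a) / N)) (a + (i : ℝ) * ((b - a) / N)) < δ := by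
    rw [Real.dist_eq]
    have : a + ((i + 1 : ℕ) : ℝ) * ((b - a) / N) - (a + (i : ℝ) * ((b - a) / N)) = (b - a) / N := by
      push_cast; ring
    rw [this, abs_of_nonneg (div_nonneg (by linarith) hN0.le)]
    exact hmesh
  have hF2 := hδ' _ hq _ hp hd
  rw [Real.dist_eq] at hF2
  have hF3 := (le_abs_self _).trans_lt hF2
  rw [Real.dist_eq, abs_sub_comm]
  linarith

/-- pointwise convergence of monotone functions along any filter implies `L^1` convergence on a compact interval -/
theorem rg_mono_L1 (l : Filter ℕ) (f : ℕ → ℝ → ℝ) (F : ℝ → ℝ) (a b : ℝ) (hab : a ≤ b)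
    (hm : ∀ᶠ n in l, MonotoneOn (f n) (Icc a b))
    (hlim : ∀ t ∈ Icc a b, Tendsto (fun n => f n t) l (𝓝 (F t))) :
    Tendsto (fun n => ∫ t in a..b, |f n t - F t|) l (𝓝 0) := by
  rcases l.eq_or_neBot with rfl | hl
  · exact tendsto_bot
  have hFm := rg_lim_mono l f F _ hm hlim
  have hFab : 0 ≤ F b - F a := sub_nonneg.mpr (hFm (left_mem_Icc.mpr hab) (right_mem_Icc.mpr hab) hab)
  -- the deterministic bound
  have key : ∀ N : ℕ, 0 < N → ∀ n, MonotoneOn (f n) (Icc a b) →
      ∫ t in a..b, |f n t - F t| ≤ 2 * (b - a) * (∑ j ∈ Finset.range (N + 1),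
        |f n (a + (j : ℝ) * ((b - a) / N)) - F (a + (j : ℝ) * ((b - a) / N))|)
        + (b - a) / N * (F b - F a) := by
    intro N hN n hn
    have hN0 : (0 : ℝ) < N := by exact_mod_cast hN
    have hint : IntervalIntegrable (fun t => |f n t - F t|) volume a b := by
      have h1 : IntervalIntegrable (f n) volume a b :=
        MonotoneOn.intervalIntegrable (by rwa [uIcc_of_le hab])
      have h2 : IntervalIntegrable F volume a b :=
        MonotoneOn.intervalIntegrable (by rwa [uIcc_of_le hab])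
      exact (h1.sub h2).abs
    have hle : ∀ i : ℕ, a + (i : ℝ) * ((b - a) / N) ≤ a + ((i + 1 : ℕ) : ℝ) * ((b - a) / N) := by
      intro i
      have : 0 ≤ (b - a) / N := div_nonneg (by linarith) hN0.le
      push_cast
      nlinarith
    have hsub : ∀ i < N, IntervalIntegrable (fun t => |f n t - F t|) volume
        (a + (i : ℝ) * ((b - a) / N)) (a + ((i + 1 : ℕ) : ℝ) * ((b - a) / N)) := by
      intro i hi
      refine hint.mono_set ?_
      rw [uIcc_of_le (hle i), uIcc_of_le hab]
      exact Icc_subset_Icc (rg_pt_mem hab (N := N) (i := i) (by omega) hN).1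
        (rg_pt_mem hab (N := N) (i := i + 1) (by omega) hN).2
    have hsum := intervalIntegral.sum_integral_adjacent_intervals
      (a := fun i : ℕ => a + (i : ℝ) * ((b - a) / N)) (n := N) (μ := volume)
      (f := fun t => |f n t - F t|) hsub
    have e0 : a + ((0 : ℕ) : ℝ) * ((b - a) / N) = a := by simp
    have eN : a + (N : ℝ) * ((b - a) / N) = b := by field_simp; ring
    simp only [e0, eN] at hsum
    rw [← hsum]
    have hcell : ∀ i ∈ Finset.range N,
        ∫ t in (a + (i : ℝ) * ((b - a) / N))..(a + ((i + 1 : ℕ) : ℝ) * ((b - a) / N)), |f n t - F t|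
        ≤ (b - a) / N * (2 * (∑ j ∈ Finset.range (N + 1),
            |f n (a + (j : ℝ) * ((b - a) / N)) - F (a + (j : ℝ) * ((b - a) / N))|)
          + (F (a + ((i + 1 : ℕ) : ℝ) * ((b - a) / N)) - F (a + (i : ℝ) * ((b - a) / N)))) := by
      intro i hi
      have hi' := Finset.mem_range.mp hi
      have := intervalIntegral.integral_mono_on (hle i) (hsub i hi')
        (intervalIntegrable_const (c := 2 * (∑ j ∈ Finset.range (N + 1),
            |f n (a + (j : ℝ) * ((b - a) / N)) - F (a + (j : ℝ) * ((b - a) / N))|)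
          + (F (a + ((i + 1 : ℕ) : ℝ) * ((b - a) / N)) - F (a + (i : ℝ) * ((b - a) / N)))))
        (fun t ht => rg_cell_bound' hab hn hFm hi' ht)
      refine this.trans (le_of_eq ?_)
      rw [intervalIntegral.integral_const, smul_eq_mul]
      congr 1
      push_cast; ring
    refine (Finset.sum_le_sum hcell).trans (le_of_eq ?_)
    rw [← Finset.mul_sum, Finset.sum_add_distrib, Finset.sum_const, Finset.card_range,
      Finset.sum_range_sub (fun i : ℕ => F (a + (i : ℝ) * ((b - a) / N))), e0, eN, nsmul_eq_mul]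
    field_simp
  rw [tendsto_order]
  constructor
  · intro c hc
    exact Eventually.of_forall fun n => hc.trans_le
      (intervalIntegral.integral_nonneg hab fun t _ => abs_nonneg _)
  · intro ε hε
    obtain ⟨N, hNgt⟩ := exists_nat_gt ((b - a) * (F b - F a) / (ε / 2))
    have hN0 : (0 : ℝ) < N :=
      lt_of_le_of_lt (div_nonneg (mul_nonneg (by linarith) hFab) (by positivity)) hNgt
    have hN : 0 < N := by exact_mod_cast hN0
    have hmesh : (b - a) / N * (F b - F a) < ε / 2 := by
      rw [div_mul_eq_mul_div, div_lt_iff₀ hN0]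
      rw [div_lt_iff₀ (by positivity)] at hNgt
      linarith
    have hnod := (rg_nodes_lim l f F a b hab hlim hN).const_mul (2 * (b - a))
    rw [mul_zero] at hnod
    have hev := (tendsto_order.1 hnod).2 (ε / 2) (by positivity)
    filter_upwards [hm, hev] with n hn he
    have := key N hN n hn
    linarith

end Claimed.Agent.R286
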