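import Claimed.Agent.R286.Rig.PhyLim
import Claimed.Agent.R286.Rig.Tools

/-!
# Row 286, unit RIG, file 14: the regime dichotomy R8 for the profile `e(ρ) = λ f(λ ρ/d^3)`          (architect helper24)

`Λ_n = λ/x^2`, `μ_n = λ x/d^3`.   Rescaled: `e t = Λ_n F(μ_n t)`, `p t = Pf(μ_n t)`.   `0 < μ_n ≤ x/d ≤ Cd` (`λ ≤ d^2`).   `Λ_n ≥ Λ_n F(μ_n) = e(x)/x^2 ≥ ce`.
Along an ULTRAFILTER either `Λ_n → ∞` or `Λ_n` is eventually bounded.
* DIVERGING: `μ_n^2 = λ^2 x^2/d^6 ≤ x^2/d^2·(λ/d^2)^2.. ≤ x^2/λ·(λ/d^2)^3 ≤ 1/Λ_n → 0`; so for `t ≤ C` eventually `μ_n t ≤ 1`: `e t = Λ_n`, `p t = 0`.   `Λ_n ell = λ (wc+rmin)/x^3 → 0` (`lam_w`).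
  `rel`: by `mis0` the set is NULL eventually: `u = x v`, `r u ≤ C x`, `wc ≤ x`: `p(r u + wc) = Pf(μ_n (r u + wc)/x) = 0`.
* BOUNDED: `Λ_n → Λ ∈ [ce, M]`, `μ_n → μ ∈ [0,Cd]` (`rg_ulim`/`Ultrafilter` limits of bounded sequences); `h1 t = Λ F(μ t)`, `pin t = Pf(μ t)`, `t0 = 1/(Cd+1)`; uniform convergence on `[0,C]` by uniform continuity of `F`, `Pf` on `[0,(Cd+1)(C+1)]`.
  `rel`: by `mis C` the set is NULL eventually, `Crel = Cg`.
Null sets: `{v | x v ∈ N}` is null if `N` is (`Real.volume_preimage_mul_left`).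
-/

set_option autoImplicit false

namespace Claimed.Agent.R286

open MeasureTheory Filter Set Topology

variable {𝒰 : Ultrafilter ℕ} {l : Filter ℕ} {E : ℕ → RgPhy} {T a2 a4 : ℝ} {F Pf : ℝ → ℝ}

/-- the rescaled strength and slope -/
theorem rgw_e_resc (h : RgPhyHyp l E T a2 a4 F Pf) : ∀ᶠ n in l, ∀ t,
    (E n).toDat.e t = (E n).lam / (E n).x ^ 2 * F ((E n).lam * (E n).x / (E n).d ^ 3 * t) ∧
    (E n).toDat.p t = Pf ((E n).lam * (E n).x / (E n).d ^ 3 * t) := by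
  filter_upwards [h.e_eq, h.p_eq] with n he hp t
  have e : (E n).lam * ((E n).x * t) / (E n).d ^ 3 = (E n).lam * (E n).x / (E n).d ^ 3 * t := by ring
  constructor
  · show (E n).e ((E n).x * t) / (E n).x ^ 2 = _
    rw [he, e]; ring
  · show (E n).p ((E n).x * t) = _
    rw [hp, e]

theorem rgw_mu_bd (h : RgPhyHyp l E T a2 a4 F Pf) : ∃ Cd : ℝ, 0 < Cd ∧ ∀ᶠ n in l,
    0 < (E n).lam * (E n).x / (E n).d ^ 3 ∧ (E n).lam * (E n).x / (E n).d ^ 3 ≤ Cd ∧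
    ((E n).lam * (E n).x / (E n).d ^ 3) ^ 2 * ((E n).lam / (E n).x ^ 2) ≤ 1 := by
  obtain ⟨c0, C1, C0, Cth, -, -, -, -, hok⟩ := h.ok
  obtain ⟨Cd, hCd⟩ := h.x_d
  refine ⟨|Cd| + 1, by positivity, ?_⟩
  filter_upwards [hok, hCd, h.lam_d] with n hn hxd hl
  obtain ⟨l0, d0, ld⟩ := hl
  have hx := hn.x_pos
  refine ⟨by positivity, ?_, ?_⟩
  · rw [div_le_iff₀ (by positivity)]
    have h1 : (E n).x ≤ (|Cd| + 1) * (E n).d := hxd.trans (mul_le_mul_of_nonneg_right (by linarith [le_abs_self Cd]) d0.le)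
    calc (E n).lam * (E n).x ≤ (E n).d ^ 2 * ((|Cd| + 1) * (E n).d) := mul_le_mul ld h1 hx.le (by positivity)
      _ = _ := by ring
  · have e : ((E n).lam * (E n).x / (E n).d ^ 3) ^ 2 * ((E n).lam / (E n).x ^ 2) = (E n).lam ^ 3 / ((E n).d ^ 2) ^ 3 := by
      field_simp
    rw [e, div_le_one (by positivity)]
    exact pow_le_pow_left₀ l0.le ld 3

theorem rgw_Lam_lb (h : RgPhyHyp l E T a2 a4 F Pf) : ∃ ce : ℝ, 0 < ce ∧ ∀ᶠ n in l, ce ≤ (E n).lam / (E n).x ^ 2 := by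
  obtain ⟨c0, C1, C0, Cth, -, -, -, -, hok⟩ := h.ok
  obtain ⟨ce, hce, hex⟩ := h.e_x
  refine ⟨ce, hce, ?_⟩
  filter_upwards [hok, hex, h.e_eq, h.lam_d] with n hn he heq hl
  have hx := hn.x_pos
  rw [le_div_iff₀ (by positivity)]
  rw [heq] at he
  refine he.trans ?_
  have := mul_le_mul_of_nonneg_left (h.F_le ((E n).lam * (E n).x / (E n).d ^ 3)) hl.1.le
  linarith

/-- a property which holds for a.e. mass holds for a.e. rescaled mass -/
theorem rgw_ae_resc {x : ℝ} (hx : 0 < x) {Q : ℝ → Prop} (hQ : ∀ᵐ u, Q u) : ∀ᵐ v, Q (x * v) := by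
  rw [ae_iff] at hQ ⊢
  have h1 := Real.volume_preimage_mul_left hx.ne' {u | ¬ Q u}
  rw [hQ, mul_zero] at h1
  exact h1

/-- in the diverging regime the slope vanishes on every compact set of rescaled radii -/
theorem rgw_div_mu (h : RgPhyHyp l E T a2 a4 F Pf) (hd : Tendsto (fun n => (E n).lam / (E n).x ^ 2) l atTop) (C : ℝ) :
    ∀ᶠ n in l, ∀ t, t ≤ C → (E n).lam * (E n).x / (E n).d ^ 3 * t ≤ 1 := by
  obtain ⟨Cd, -, hmu⟩ := rgw_mu_bd h
  filter_upwards [hmu, hd.eventually_ge_atTop ((|C| + 1) ^ 2)] with n hm hL t ht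
  obtain ⟨m0, -, m2⟩ := hm
  obtain ⟨μ, hμ⟩ : ∃ μ, μ = (E n).lam * (E n).x / (E n).d ^ 3 := ⟨_, rfl⟩
  rw [← hμ] at m0 m2 ⊢
  have h1 : (μ * (|C| + 1)) ^ 2 ≤ 1 := by
    calc (μ * (|C| + 1)) ^ 2 = μ ^ 2 * (|C| + 1) ^ 2 := by ring
      _ ≤ μ ^ 2 * ((E n).lam / (E n).x ^ 2) := mul_le_mul_of_nonneg_left hL (sq_nonneg _)
      _ ≤ 1 := m2
  have h2 : μ * (|C| + 1) ≤ 1 := by
    have := abs_le_one_iff_mul_self_le_one.2 (by nlinarith : μ * (|C| + 1) * (μ * (|C| + 1)) ≤ 1)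
    exact (le_abs_self _).trans this
  calc μ * t ≤ μ * (|C| + 1) := mul_le_mul_of_nonneg_left (by linarith [le_abs_self C]) m0.le
    _ ≤ 1 := h2

theorem rgw_div_rel (h : RgPhyHyp l E T a2 a4 F Pf) (hd : Tendsto (fun n => (E n).lam / (E n).x ^ 2) l atTop) (c C : ℝ) (hc : 0 < c) :
    Tendsto (fun n => volume ((E n).toDat.mset c C
      (fun t => (E n).toDat.H t ≤ 0 ∧ (E n).toDat.ell < |(E n).toDat.s t - t|))) l (𝓝 0) := by
  obtain ⟨c0, C1, C0, Cth, -, -, -, -, hok⟩ := h.ok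
  refine tendsto_const_nhds.congr' ?_
  filter_upwards [h.mis0, hok, rgw_mset_u h c C hc, rgw_div_mu h hd (C + 1), h.p_eq,
    h.w_lim.eventually_lt_const zero_lt_one] with n hn hokn hms hmu hp hw
  symm
  have hx : 0 < (E n).x := hokn.x_pos
  have hae := rgw_ae_resc hx hn
  rw [measure_eq_zero_iff_ae_notMem]
  filter_upwards [hae] with v hv hmem
  obtain ⟨hcv, hvC, hrC, hH, hlt⟩ := hmem
  obtain ⟨hu0, hu1, hr, hm, hcl, -⟩ := hms v hcv hvC
  have hH' : (E n).H ((E n).r ((E n).x * v)) ≤ 0 := by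
    have h1 : (E n).H ((E n).cl ((E n).x * (E n).toDat.r v)) / (E n).x ^ 4 ≤ 0 := hH
    rw [hcl] at h1
    by_contra hcon
    rw [not_le] at hcon
    have : 0 < (E n).H ((E n).r ((E n).x * v)) / (E n).x ^ 4 := by positivity
    linarith
  have hwc : (E n).wc ≤ (E n).x := by
    rw [div_lt_one hx] at hw
    linarith [hokn.rmin_nn]
  have hp0 : (E n).p ((E n).r ((E n).x * v) + (E n).wc) = 0 := by
    rw [hp]
    apply h.Pf_zero
    have e : (E n).lam * ((E n).r ((E n).x * v) + (E n).wc) / (E n).d ^ 3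
        = (E n).lam * (E n).x / (E n).d ^ 3 * (((E n).r ((E n).x * v) + (E n).wc) / (E n).x) := by
      field_simp
    rw [e]
    apply hmu
    rw [div_le_iff₀ hx, ← hr]
    nlinarith
  have hb := hv hu0 hu1 hH' hp0
  have hlt' : ((E n).wc + (E n).rmin) / (E n).x
      < |(E n).S ((E n).m ((E n).x * (E n).toDat.r v)) / (E n).x - (E n).r ((E n).x * v) / (E n).x| := hlt
  rw [hm] at hlt'
  have e1 : (E n).S ((E n).x * v) / (E n).x - (E n).r ((E n).x * v) / (E n).x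
      = ((E n).S ((E n).x * v) - (E n).r ((E n).x * v)) / (E n).x := by ring
  rw [e1, abs_div, abs_of_pos hx, div_lt_div_iff_of_pos_right hx] at hlt'
  linarith

theorem rgw_div (h : RgPhyHyp l E T a2 a4 F Pf) (hd : Tendsto (fun n => (E n).lam / (E n).x ^ 2) l atTop) :
    RgDiv l (fun n => (E n).toDat) := by
  obtain ⟨c0, C1, C0, Cth, -, -, -, -, hok⟩ := h.ok
  refine ⟨⟨fun n => (E n).lam / (E n).x ^ 2, hd, ?_, fun C => ?_⟩, rgw_div_rel h hd⟩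
  · refine h.lam_w.congr' ?_
    filter_upwards [hok] with n hn
    have hx := hn.x_pos
    show _ = (E n).lam / (E n).x ^ 2 * (((E n).wc + (E n).rmin) / (E n).x)
    field_simp
  · filter_upwards [rgw_e_resc h, rgw_div_mu h hd C] with n hn hmu t _ ht
    rw [(hn t).1, (hn t).2, h.F_one _ (hmu t ht), h.Pf_zero _ (hmu t ht), mul_one]
    exact ⟨rfl, rfl⟩

theorem rgw_bdd_rel (h : RgPhyHyp l E T a2 a4 F Pf) (c C : ℝ) (hc : 0 < c) :
    ∃ Crel : ℝ, 0 < Crel ∧ Tendsto (fun n => volume ((E n).toDat.mset c C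
      (fun t => (E n).toDat.H t ≤ 0 ∧ Crel * ((E n).toDat.dl t + (E n).toDat.ell) < |(E n).toDat.s t - t|))) l (𝓝 0) := by
  obtain ⟨Cg, hCg, hmis⟩ := h.mis C
  obtain ⟨c0, C1, C0, Cth, -, -, -, -, hok⟩ := h.ok
  refine ⟨Cg, hCg, ?_⟩
  refine tendsto_const_nhds.congr' ?_
  filter_upwards [hmis, hok, rgw_mset_u h c C hc] with n hn hokn hms
  symm
  have hx : 0 < (E n).x := hokn.x_pos
  have hae := rgw_ae_resc hx hn
  rw [measure_eq_zero_iff_ae_notMem]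
  filter_upwards [hae] with v hv hmem
  obtain ⟨hcv, hvC, -, hH, hlt⟩ := hmem
  obtain ⟨hu0, hu1, hr, hm, hcl, -⟩ := hms v hcv hvC
  have hH' : (E n).H ((E n).r ((E n).x * v)) ≤ 0 := by
    have h1 : (E n).H ((E n).cl ((E n).x * (E n).toDat.r v)) / (E n).x ^ 4 ≤ 0 := hH
    rw [hcl] at h1
    by_contra hcon
    rw [not_le] at hcon
    have : 0 < (E n).H ((E n).r ((E n).x * v)) / (E n).x ^ 4 := by positivity
    linarith
  have hb := hv hu0 (by nlinarith) hH'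
  have hlt' : Cg * ((E n).Dd ((E n).m ((E n).x * (E n).toDat.r v)) / (E n).x + ((E n).wc + (E n).rmin) / (E n).x)
      < |(E n).S ((E n).m ((E n).x * (E n).toDat.r v)) / (E n).x - (E n).r ((E n).x * v) / (E n).x| := hlt
  rw [hm] at hlt'
  have e1 : (E n).S ((E n).x * v) / (E n).x - (E n).r ((E n).x * v) / (E n).x
      = ((E n).S ((E n).x * v) - (E n).r ((E n).x * v)) / (E n).x := by ring
  rw [e1, abs_div, abs_of_pos hx] at hlt'
  have e2 : Cg * ((E n).Dd ((E n).x * v) / (E n).x + ((E n).wc + (E n).rmin) / (E n).x)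
      = Cg * ((E n).Dd ((E n).x * v) + (E n).wc + (E n).rmin) / (E n).x := by ring
  rw [e2, div_lt_div_iff_of_pos_right hx] at hlt'
  linarith

theorem rgw_unif_aux (Φ : ℝ × ℝ → ℝ → ℝ) (hΦ : Continuous fun z : (ℝ × ℝ) × ℝ => Φ z.1 z.2) (g : ℕ → ℝ × ℝ) (y : ℝ × ℝ)
    (hg : Tendsto g l (𝓝 y)) (C : ℝ) : TendstoUniformlyOn (fun n => Φ (g n)) (Φ y) l (Icc 0 C) := by
  have : CompactSpace (Icc (0:ℝ) C) := isCompact_iff_compactSpace.mp isCompact_Icc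
  have h1 := Continuous.tendstoUniformly (fun (p : ℝ × ℝ) (t : Icc (0:ℝ) C) => Φ p t)
    (hΦ.comp (continuous_fst.prodMk (continuous_subtype_val.comp continuous_snd))) y
  rw [tendstoUniformlyOn_iff_tendstoUniformly_comp_coe]
  intro u hu
  exact hg.eventually (h1 u hu)

theorem rgw_bdd (h : RgPhyHyp (𝒰 : Filter ℕ) E T a2 a4 F Pf) (M : ℝ) (hb : ∀ᶠ n in (𝒰 : Filter ℕ), (E n).lam / (E n).x ^ 2 ≤ M) :
    RgBdd (𝒰 : Filter ℕ) (fun n => (E n).toDat) := by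
  obtain ⟨Cd, hCd, hmu⟩ := rgw_mu_bd h
  obtain ⟨ce, hce, hLam⟩ := rgw_Lam_lb h
  have hres := rgw_e_resc h
  set Lm : ℕ → ℝ := fun n => (E n).lam / (E n).x ^ 2 with hLm
  set mu : ℕ → ℝ := fun n => (E n).lam * (E n).x / (E n).d ^ 3 with hmudef
  have hL1 : Tendsto Lm (𝒰 : Filter ℕ) (𝓝 (limUnder (𝒰 : Filter ℕ) Lm)) := by
    refine rg_ulim 𝒰 Lm M ?_
    filter_upwards [hb, hLam] with n h1 h2
    rw [abs_of_nonneg (hce.le.trans h2)]
    exact h1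
  have hM1 : Tendsto mu (𝒰 : Filter ℕ) (𝓝 (limUnder (𝒰 : Filter ℕ) mu)) := by
    refine rg_ulim 𝒰 mu Cd ?_
    filter_upwards [hmu] with n h1
    rw [abs_of_pos h1.1]
    exact h1.2.1
  set Λ := limUnder (𝒰 : Filter ℕ) Lm with hΛ
  set μ := limUnder (𝒰 : Filter ℕ) mu with hμ
  have hΛpos : 0 < Λ := lt_of_lt_of_le hce (ge_of_tendsto hL1 hLam)
  have hg : Tendsto (fun n => (Lm n, mu n)) (𝒰 : Filter ℕ) (𝓝 (Λ, μ)) := hL1.prodMk_nhds hM1
  refine ⟨⟨fun t => Λ * F (μ * t), fun t => Pf (μ * t), 1 / (Cd + 1), by positivity, ?_, ?_, ?_, ?_, ?_, ?_⟩, rgw_bdd_rel h⟩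
  · exact continuous_const.mul (h.F_cont.comp (continuous_const.mul continuous_id))
  · exact h.Pf_cont.comp (continuous_const.mul continuous_id)
  · intro t _
    exact mul_pos hΛpos (h.F_pos _)
  · intro C
    have h1 := rgw_unif_aux (l := (𝒰 : Filter ℕ)) (fun p t => p.1 * F (p.2 * t))
      ((continuous_fst.comp continuous_fst).mul (h.F_cont.comp ((continuous_snd.comp continuous_fst).mul continuous_snd)))
      (fun n => (Lm n, mu n)) (Λ, μ) hg C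
    refine h1.congr ?_
    filter_upwards [hres] with n hn t _
    exact ((hn t).1).symm
  · intro C
    have h1 := rgw_unif_aux (l := (𝒰 : Filter ℕ)) (fun p t => Pf (p.2 * t))
      (h.Pf_cont.comp ((continuous_snd.comp continuous_fst).mul continuous_snd))
      (fun n => (Lm n, mu n)) (Λ, μ) hg C
    refine h1.congr ?_
    filter_upwards [hres] with n hn t _
    exact ((hn t).2).symm
  · filter_upwards [hres, hmu] with n hn hm t ht0 ht
    rw [(hn t).2]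
    apply h.Pf_zero
    have h1 : (E n).lam * (E n).x / (E n).d ^ 3 * t ≤ Cd * (1 / (Cd + 1)) :=
      mul_le_mul hm.2.1 ht ht0 hCd.le
    have h2 : Cd * (1 / (Cd + 1)) ≤ 1 := by
      rw [mul_one_div, div_le_one (by positivity)]
      linarith
    linarith

theorem rgw_regime (h : RgPhyHyp (𝒰 : Filter ℕ) E T a2 a4 F Pf) :
    RgDiv (𝒰 : Filter ℕ) (fun n => (E n).toDat) ∨ RgBdd (𝒰 : Filter ℕ) (fun n => (E n).toDat) := by
  by_cases hb : ∃ M : ℝ, ∀ᶠ n in (𝒰 : Filter ℕ), (E n).lam / (E n).x ^ 2 ≤ M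
  · obtain ⟨M, hM⟩ := hb
    exact Or.inr (rgw_bdd h M hM)
  · refine Or.inl (rgw_div h ?_)
    rw [tendsto_atTop]
    intro M
    have h1 : ¬ ∀ᶠ n in (𝒰 : Filter ℕ), (E n).lam / (E n).x ^ 2 ≤ M := fun hc => hb ⟨M, hc⟩
    rw [← Ultrafilter.eventually_not] at h1
    exact h1.mono fun n hn => (not_le.1 hn).le

end Claimed.Agent.R286
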