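import Claimed.Agent.R286.Rig.Lim

/-!
# Row 286, unit RIG, file 7: the first variation potential on a virtual gap          (architect helper24; proofs helper166)

Paper: PE `profile.tex` l.402-529 (Lemma 5.6), WITHOUT the weak-star limit `j` and without a limiting potential: the sign argument is run at finite `n`.
A gap: `a1 < a2` growth points of `U`, `U = U0 > 0` on `(a1,a2)`.  Band of the gap: `c = U0/2`, `C = rgGC U a2 = max (U (a2+1) + 1) (a2+1)`.  A band is order connected (`a` monotone).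
`rg_gam_bdd`.  bdd: `e ≤ sup h1 + 1`, `s, dl ≤ C'` (`raw`), `p = 0` for `t ≤ t0`, `p (s^2+dl^2)/t ≤ 2 C'^2/t0` else.   div: `p = 0`, `gam = 2 e (t - s) = -2 T_n (rho + g(k) + z/T_n)`, `rho_bd`, `z_lim`, `k ≤ C''` by `k_eq`, `rg_lin`.
`rg_H_lower`.  `H t < 0`: `cap` gives `t' ∈ (t, t+ell]`, `H t' = 0`, `H t = -∫_t^{t'} J gam ≥ - ell Cγ Cj J t`.
`rg_pot_left`.  Fix `t' ∈ (a1,b)`, `0 < ε < ι < t' - a1`.  Eventually: reference `τ ∈ [a1-ε, a1+ε]` (`rg_ref_left`), `[τ, b + ell] ⊆ band`.  `H τ ≤ 0`, `H b ≥ -K ell J b`, so `∫_τ^b J gam ≥ -K ell Cj J τ`.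
 `∫_τ^{a1+ι} J gam ≤ 2 ι Cγ Cj J τ`;   `∫_{a1+ι}^b J gam ≤ J τ ∫ F + Cj J τ ∫ |gam - F|`  (`F ≤ 0`, `J ≥ J τ`).   Divide by `J τ`, pass to the limit: `∫_{a1+ι}^b |F| ≤ 2 ι Cγ Cj`; let `ι → 0`.
`rg_pot_right`: mirror image with `σ ∈ [a2-ε, a2+ε]`, normalisation `J b`.
-/

set_option autoImplicit false

namespace Claimed.Agent.R286

open MeasureTheory Filter Set Topology

variable {𝒰 : Ultrafilter ℕ} {D : ℕ → RgDat} {T A B : ℝ}

/-- a gap of the limiting support carrying positive cumulative mass -/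
structure RgGap (U : ℝ → ℝ) (a1 a2 U0 : ℝ) : Prop where
  m1 : a1 ∈ rgSupp U
  m2 : a2 ∈ rgSupp U
  lt : a1 < a2
  pos : 0 < U0
  cst : ∀ t ∈ Ioo a1 a2, U t = U0

/-- upper constant of the band of a gap -/
noncomputable def rgGC (U : ℝ → ℝ) (a2 : ℝ) : ℝ := max (U (a2 + 1) + 1) (a2 + 1)

/-- a band is order connected -/
theorem rg_band_ord {d : RgDat} {c C : ℝ} (hm : Monotone d.a) {t t' τ : ℝ} (h1 : t ∈ d.band c C)
    (h2 : t' ∈ d.band c C) (ha : t ≤ τ) (hb : τ ≤ t') : τ ∈ d.band c C :=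
  ⟨h1.1.trans ha, hb.trans h2.2.1, h1.2.2.1.trans (hm ha), (hm hb).trans h2.2.2.2⟩

/-- the scalar clock is bounded on a band -/
theorem rg_pot_k_bdd (h : RgHyp (𝒰 : Filter ℕ) D T A B) (c C : ℝ) (hc : 0 < c) :
    ∃ Ck : ℝ, ∀ᶠ n in (𝒰 : Filter ℕ), ∀ t ∈ (D n).band c C, (D n).k t ∈ Icc (0:ℝ) Ck := by
  obtain ⟨c1, C1, t1, Cth, hc1, hC1, ht1, hCth, hok⟩ := h.ok
  obtain ⟨C', hraw⟩ := h.raw c C hc
  have hTp := h.T_pos
  have hz := h.z_lim c C 1 hc one_pos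
  have hT1 : ∀ᶠ n in (𝒰 : Filter ℕ), T / 2 < (D n).T := h.T_lim.eventually (lt_mem_nhds (by linarith))
  have hx : ∀ᶠ n in (𝒰 : Filter ℕ), |(D n).x| < 1 := by
    have := h.x_lim.abs
    rw [abs_zero] at this
    exact this.eventually (gt_mem_nhds one_pos)
  have ha0 : ∀ᶠ n in (𝒰 : Filter ℕ), (D n).a 0 < c := h.a0_lim.eventually (gt_mem_nhds hc)
  have hR : ∀ᶠ n in (𝒰 : Filter ℕ), C ≤ (D n).R := h.R_lim.eventually (eventually_ge_atTop _)
  refine ⟨C + (1 + Cth / (T / 2)) * (C' + C) + 1 / (T / 2), ?_⟩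
  filter_upwards [hok, hraw, hz, hT1, hx, ha0, hR] with n ok hraw hz hT1 hx ha0 hR t ht
  refine ⟨ok.k_nn t, ?_⟩
  have ht0 : 0 ≤ t := ht.1
  have htC : t ≤ C := ht.2.1
  have htR : t ≤ (D n).R := htC.trans hR
  have hat : (D n).a 0 < (D n).a t := lt_of_lt_of_le ha0 ht.2.2.1
  rw [ok.k_eq t ht0 htR hat]
  have hs0 := ok.s_nn t
  have hs1 := (hraw t ht).1
  have hzt := hz t ht
  have hTn : 0 < (D n).T := ok.T_pos
  have hT2 : (0:ℝ) < T / 2 := by linarith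
  have hx2 : (D n).x ^ 2 ≤ 1 := by
    rw [← sq_abs]
    have := abs_nonneg (D n).x
    nlinarith
  have hx20 : 0 ≤ (D n).x ^ 2 := sq_nonneg _
  have he0 := (ok.e_pos t ht0 htR).le
  have he1 := ok.e_le t ht0 htR
  have hy0 : 0 ≤ (D n).x ^ 2 * (D n).e t / (D n).T := div_nonneg (mul_nonneg hx20 he0) hTn.le
  have hy1 : (D n).x ^ 2 * (D n).e t / (D n).T ≤ Cth / (T / 2) :=
    div_le_div₀ hCth.le he1 hT2 hT1.le
  have hA1 : (1 - (D n).x ^ 2 * (D n).e t / (D n).T) * ((D n).s t - t)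
      ≤ (1 + Cth / (T / 2)) * (C' + C) := by
    have h1 : |(1 - (D n).x ^ 2 * (D n).e t / (D n).T)| ≤ 1 + Cth / (T / 2) := by
      rw [abs_le]; constructor <;> linarith
    have h2 : |(D n).s t - t| ≤ C' + C := by
      rw [abs_le]; constructor <;> linarith
    calc _ ≤ |(1 - (D n).x ^ 2 * (D n).e t / (D n).T) * ((D n).s t - t)| := le_abs_self _
      _ = |(1 - (D n).x ^ 2 * (D n).e t / (D n).T)| * |(D n).s t - t| := abs_mul _ _
      _ ≤ _ := mul_le_mul h1 h2 (abs_nonneg _) (by positivity)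
  have hA2 : (D n).x ^ 2 * (D n).z t / (D n).T ≤ 1 / (T / 2) := by
    have h1 : (D n).x ^ 2 * (D n).z t ≤ 1 := by
      have := (abs_le.mp hzt).2
      nlinarith
    exact div_le_div₀ zero_le_one h1 hT2 hT1.le
  linarith

theorem rg_gam_bdd (h : RgHyp (𝒰 : Filter ℕ) D T A B) (c C : ℝ) (hc : 0 < c) :
    ∃ Cγ : ℝ, ∀ᶠ n in (𝒰 : Filter ℕ), ∀ t ∈ (D n).band c C, |(D n).gam t| ≤ Cγ := by
  obtain ⟨c1, C1, t1, Cth, hc1, hC1, ht1, hCth, hok⟩ := h.ok
  obtain ⟨C', hraw⟩ := h.raw c C hc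
  have hTp := h.T_pos
  rcases h.regime with hd | hb
  · obtain ⟨lam, -, -, hprof⟩ := hd.ex
    obtain ⟨Cr, hrho⟩ := h.rho_bd c C hc
    have hz := h.z_lim c C 1 hc one_pos
    obtain ⟨Ck, hk⟩ := rg_pot_k_bdd h c C hc
    obtain ⟨M, hM⟩ := rg_lin h Ck
    have hT2 : ∀ᶠ n in (𝒰 : Filter ℕ), (D n).T < T + 1 := h.T_lim.eventually (gt_mem_nhds (by linarith))
    refine ⟨2 * ((T + 1) * (Cr + M)) + 2, ?_⟩
    filter_upwards [hok, hrho, hz, hk, hM, hT2, hprof C] with n ok hrho hz hk hM hT2 hprof t ht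
    obtain ⟨he, hp⟩ := hprof t ht.1 ht.2.1
    have hTn : 0 < (D n).T := ok.T_pos
    have hr := hrho t ht
    have hzt := hz t ht
    have hg := hM.2 _ (hk t ht)
    have key : (D n).gam t = -2 * ((D n).T * ((D n).rho t + (D n).g ((D n).k t))) - 2 * (D n).z t := by
      unfold RgDat.gam RgDat.rho
      rw [hp]
      field_simp
      ring
    rw [key]
    have h1 : |(D n).T * ((D n).rho t + (D n).g ((D n).k t))| ≤ (T + 1) * (Cr + M) := by
      rw [abs_mul, abs_of_pos hTn]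
      have h2 : |(D n).rho t + (D n).g ((D n).k t)| ≤ Cr + M := (abs_add_le _ _).trans (add_le_add hr hg)
      exact mul_le_mul hT2.le h2 (abs_nonneg _) (by linarith)
    rw [abs_le] at h1 hzt ⊢
    constructor <;> linarith [h1.1, h1.2, hzt.1, hzt.2]
  · obtain ⟨h1, pin, t0, ht0, hh1, -, -, he, -, hp0⟩ := hb.ex
    obtain ⟨M, hM⟩ := isCompact_Icc.exists_bound_of_continuousOn (hh1.continuousOn (s := Icc 0 C))
    have he1 := (Metric.tendstoUniformlyOn_iff.mp (he C)) 1 one_pos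
    refine ⟨(M + 1) * (2 * C + 2 * C' + 2 * C' ^ 2 / t0), ?_⟩
    filter_upwards [hok, hraw, he1, hp0] with n ok hraw he1 hp0 t ht
    have ht0' : 0 ≤ t := ht.1
    have htC : t ≤ C := ht.2.1
    have hs0 := ok.s_nn t
    have hd0 := ok.dl_nn t
    obtain ⟨hs1, hd1⟩ := hraw t ht
    have hpn := ok.p_nn t
    have hpl := ok.p_le t
    have hMt := hM t ⟨ht0', htC⟩
    have het := he1 t ⟨ht0', htC⟩
    rw [Real.dist_eq] at het
    rw [Real.norm_eq_abs] at hMt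
    have hE : |(D n).e t| ≤ M + 1 := by
      have : (D n).e t = h1 t - (h1 t - (D n).e t) := by ring
      rw [this]
      exact (abs_sub _ _).trans (by linarith)
    have hC'0 : 0 ≤ C' := hs0.trans hs1
    have hq : 0 ≤ (D n).p t * ((D n).s t ^ 2 + (D n).dl t ^ 2) / t ∧
        (D n).p t * ((D n).s t ^ 2 + (D n).dl t ^ 2) / t ≤ 2 * C' ^ 2 / t0 := by
      refine ⟨by positivity, ?_⟩
      rcases le_or_gt t t0 with hle | hlt
      · rw [hp0 t ht0' hle]; simp; positivity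
      · have h2 : (D n).p t * ((D n).s t ^ 2 + (D n).dl t ^ 2) ≤ 2 * C' ^ 2 := by
          have a1 : (D n).s t ^ 2 ≤ C' ^ 2 := pow_le_pow_left₀ hs0 hs1 2
          have a2 : (D n).dl t ^ 2 ≤ C' ^ 2 := pow_le_pow_left₀ hd0 hd1 2
          have a3 : 0 ≤ (D n).s t ^ 2 + (D n).dl t ^ 2 := by positivity
          nlinarith
        exact div_le_div₀ (by positivity) h2 ht0 hlt.le
    unfold RgDat.gam
    rw [abs_mul]
    refine mul_le_mul hE ?_ (abs_nonneg _) (by linarith [abs_nonneg ((D n).e t)])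
    have b1 : 0 ≤ (2 - (D n).p t) * t ∧ (2 - (D n).p t) * t ≤ 2 * C := by
      constructor
      · exact mul_nonneg (by linarith) ht0'
      · nlinarith
    have b2 : 0 ≤ 2 * (1 - (D n).p t) * (D n).s t ∧ 2 * (1 - (D n).p t) * (D n).s t ≤ 2 * C' := by
      constructor
      · exact mul_nonneg (by linarith) hs0
      · nlinarith
    have hC0 : 0 ≤ C := ht0'.trans htC
    rw [abs_le]
    constructor <;> linarith [b1.1, b1.2, b2.1, b2.2, hq.1, hq.2]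

/-- the constants of a band: bound of `gam`, distortion of `J`; the structural facts hold on the band -/
theorem rg_band_cst (h : RgHyp (𝒰 : Filter ℕ) D T A B) (c C : ℝ) (hc : 0 < c) :
    ∃ Cγ Cj c1 C1 t1 Cth : ℝ, 0 ≤ Cγ ∧ 0 ≤ Cj ∧ ∀ᶠ n in (𝒰 : Filter ℕ), (D n).Ok c1 C1 t1 Cth ∧ C < (D n).R ∧
      (D n).a 0 < c ∧ (∀ t ∈ (D n).band c C, |(D n).gam t| ≤ Cγ) ∧
      ∀ t ∈ (D n).band c C, ∀ t' ∈ (D n).band c C, (D n).J t' ≤ Cj * (D n).J t := by
  obtain ⟨c1, C1, t1, Cth, hc1, hC1, ht1, hCth, hok⟩ := h.ok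
  obtain ⟨Cγ, hγ⟩ := rg_gam_bdd h c C hc
  obtain ⟨Cj, hj⟩ := h.J_dist c C hc
  have ha0 : ∀ᶠ n in (𝒰 : Filter ℕ), (D n).a 0 < c := h.a0_lim.eventually (gt_mem_nhds hc)
  have hR : ∀ᶠ n in (𝒰 : Filter ℕ), C < (D n).R := h.R_lim.eventually (eventually_gt_atTop _)
  refine ⟨max Cγ 0, max Cj 0, c1, C1, t1, Cth, le_max_right _ _, le_max_right _ _, ?_⟩
  filter_upwards [hok, hγ, hj, ha0, hR] with n ok hγ hj ha0 hR
  refine ⟨ok, hR, ha0, fun t ht => (hγ t ht).trans (le_max_left _ _), fun t ht t' ht' => ?_⟩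
  exact (hj t ht t' ht').trans (mul_le_mul_of_nonneg_right (le_max_left _ _) (ok.J_pos t).le)

/-- the integral of `J gam` over a piece of a band -/
theorem rg_Jgam_le {d : RgDat} {c C c1 C1 t1 Cth Cγ Cj : ℝ} (ok : d.Ok c1 C1 t1 Cth)
    (hγ : ∀ t ∈ d.band c C, |d.gam t| ≤ Cγ)
    (hj : ∀ t ∈ d.band c C, ∀ t' ∈ d.band c C, d.J t' ≤ Cj * d.J t)
    {t t' τ : ℝ} (ht : t ∈ d.band c C) (ht' : t' ∈ d.band c C) (hτ : τ ∈ d.band c C) (hle : t ≤ t') :
    |∫ u in t..t', d.J u * d.gam u| ≤ (t' - t) * (Cγ * Cj * d.J τ) := by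
  have hb : ∀ u ∈ Set.uIoc t t', ‖d.J u * d.gam u‖ ≤ Cγ * Cj * d.J τ := by
    intro u hu
    rw [uIoc_of_le hle] at hu
    have hub : u ∈ d.band c C := rg_band_ord ok.a_mono ht ht' hu.1.le hu.2
    rw [Real.norm_eq_abs, abs_mul, abs_of_pos (ok.J_pos u)]
    have h1 := hj τ hτ u hub
    have h2 := hγ u hub
    calc d.J u * |d.gam u| ≤ (Cj * d.J τ) * Cγ :=
          mul_le_mul h1 h2 (abs_nonneg _) ((ok.J_pos u).le.trans h1)
      _ = Cγ * Cj * d.J τ := by ring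
  have := intervalIntegral.norm_integral_le_of_norm_le_const hb
  rw [Real.norm_eq_abs, abs_of_nonneg (sub_nonneg.mpr hle)] at this
  linarith

theorem rg_H_lower (h : RgHyp (𝒰 : Filter ℕ) D T A B) (c C : ℝ) (hc : 0 < c) :
    ∃ K : ℝ, ∀ᶠ n in (𝒰 : Filter ℕ), ∀ t, t ∈ (D n).band c C → t + (D n).ell ∈ (D n).band c C →
      -(K * (D n).ell * (D n).J t) ≤ (D n).H t := by
  obtain ⟨Cγ, Cj, c1, C1, t1, Cth, hγ0, hj0, hev⟩ := rg_band_cst h c C hc
  refine ⟨Cγ * Cj, ?_⟩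
  filter_upwards [hev] with n hn t ht htl
  obtain ⟨ok, hR, ha0, hγ, hj⟩ := hn
  have hJ := (ok.J_pos t).le
  have hell := ok.ell_nn
  rcases le_or_gt 0 ((D n).H t) with hH | hH
  · have : 0 ≤ Cγ * Cj * (D n).ell * (D n).J t := by positivity
    linarith
  · obtain ⟨t', h1, h2, h3⟩ := ok.cap t ht.1 (lt_of_le_of_lt htl.2.1 hR) hH
    have ht' : t' ∈ (D n).band c C := rg_band_ord ok.a_mono ht htl h1.le h2
    have hat : (D n).a 0 < (D n).a t := lt_of_lt_of_le ha0 ht.2.2.1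
    have e := ok.H_eq t t' ht.1 h1.le (ht'.2.1.trans hR.le) hat
    have b := rg_Jgam_le ok hγ hj ht ht' ht h1.le
    rw [← e, h3] at b
    have b2 := (le_abs_self _).trans b
    have b3 : (t' - t) * (Cγ * Cj * (D n).J t) ≤ (D n).ell * (Cγ * Cj * (D n).J t) :=
      mul_le_mul_of_nonneg_right (by linarith) (by positivity)
    linarith

theorem rg_gap_band (h : RgHyp (𝒰 : Filter ℕ) D T A B) {a1 a2 U0 : ℝ} (G : RgGap (rgU (𝒰 : Filter ℕ) D) a1 a2 U0)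
    (t' t'' : ℝ) (h1 : a1 < t') (h2 : t' ≤ t'') (h3 : t'' < a2) :
    ∀ᶠ n in (𝒰 : Filter ℕ), Icc t' t'' ⊆ (D n).band (U0 / 2) (rgGC (rgU (𝒰 : Filter ℕ) D) a2) := by
  obtain ⟨c1, C1, t1, Cth, hc1, hC1, ht1, hCth, hok⟩ := h.ok
  have hU0 := G.pos
  have e1 : ∀ᶠ n in (𝒰 : Filter ℕ), U0 / 2 < (D n).a t' := by
    have := rg_U_lim h t'
    rw [G.cst t' ⟨h1, h2.trans_lt h3⟩] at this
    exact this.eventually (lt_mem_nhds (by linarith))
  have e2 : ∀ᶠ n in (𝒰 : Filter ℕ), (D n).a t'' < U0 + 1 := by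
    have := rg_U_lim h t''
    rw [G.cst t'' ⟨h1.trans_le h2, h3⟩] at this
    exact this.eventually (gt_mem_nhds (by linarith))
  have hUm : U0 ≤ rgU (𝒰 : Filter ℕ) D (a2 + 1) := by
    rw [← G.cst t'' ⟨h1.trans_le h2, h3⟩]
    exact rg_U_mono h (by linarith)
  filter_upwards [hok, e1, e2] with n ok e1 e2 t ht
  have ha1 : 0 ≤ a1 := G.m1.1
  refine ⟨by linarith [ht.1], ?_, e1.le.trans (ok.a_mono ht.1), ?_⟩
  · exact le_trans (by linarith [ht.2]) (le_max_right _ _)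
  · exact le_trans ((ok.a_mono ht.2).trans (by linarith)) (le_max_left _ _)

theorem rg_ref_left (h : RgHyp (𝒰 : Filter ℕ) D T A B) {a1 a2 U0 : ℝ} (G : RgGap (rgU (𝒰 : Filter ℕ) D) a1 a2 U0)
    (ε : ℝ) (hε : 0 < ε) :
    ∀ᶠ n in (𝒰 : Filter ℕ), ∃ τ, a1 - ε ≤ τ ∧ τ ≤ a1 + ε ∧ (D n).Good ε τ ∧
      τ ∈ (D n).band (U0 / 2) (rgGC (rgU (𝒰 : Filter ℕ) D) a2) := by
  have hlt := G.lt
  have hU0 := G.pos
  set η := min ε ((a2 - a1) / 2) with hη
  have hη0 : 0 < η := lt_min hε (by linarith)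
  have hη1 : η ≤ ε := min_le_left _ _
  have hη2 : η ≤ (a2 - a1) / 2 := min_le_right _ _
  have hw := G.m1.2 η hη0
  have hUt : rgU (𝒰 : Filter ℕ) D (a1 + η) = U0 := G.cst _ ⟨by linarith, by linarith⟩
  have hUm : U0 ≤ rgU (𝒰 : Filter ℕ) D (a2 + 1) := by
    rw [← hUt]
    exact rg_U_mono h (by linarith)
  have hnn := rg_U_nn h (max (a1 - η) 0)
  filter_upwards [rg_good_window h _ _ ε (le_max_right (a1 - η) 0) hw hε] with n hn
  obtain ⟨τ, b1, b2, b3, b4, b5⟩ := hn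
  rw [hUt] at b4 b5
  have b0 : a1 - η < τ := lt_of_le_of_lt (le_max_left _ _) b1
  refine ⟨τ, by linarith, by linarith, b3, b3.1, ?_, by linarith, ?_⟩
  · exact le_trans (by linarith) (le_max_right _ _)
  · exact le_trans (by linarith) (le_max_left _ _)

theorem rg_ref_right (h : RgHyp (𝒰 : Filter ℕ) D T A B) {a1 a2 U0 : ℝ} (G : RgGap (rgU (𝒰 : Filter ℕ) D) a1 a2 U0)
    (ε : ℝ) (hε : 0 < ε) :
    ∀ᶠ n in (𝒰 : Filter ℕ), ∃ σ, a2 - ε ≤ σ ∧ σ ≤ a2 + ε ∧ (D n).Good ε σ ∧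
      σ ∈ (D n).band (U0 / 2) (rgGC (rgU (𝒰 : Filter ℕ) D) a2) := by
  have hlt := G.lt
  have hU0 := G.pos
  have ha1 : 0 ≤ a1 := G.m1.1
  set η := min ε (min 1 ((a2 - a1) / 2)) with hη
  have hη0 : 0 < η := lt_min hε (lt_min one_pos (by linarith))
  have hη1 : η ≤ ε := min_le_left _ _
  have hη2 : η ≤ 1 := (min_le_right _ _).trans (min_le_left _ _)
  have hη3 : η ≤ (a2 - a1) / 2 := (min_le_right _ _).trans (min_le_right _ _)
  have hw := G.m2.2 η hη0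
  have hmax : max (a2 - η) 0 = a2 - η := max_eq_left (by linarith)
  rw [hmax] at hw
  have hUt : rgU (𝒰 : Filter ℕ) D (a2 - η) = U0 := G.cst _ ⟨by linarith, by linarith⟩
  have hUm : rgU (𝒰 : Filter ℕ) D (a2 + η) ≤ rgU (𝒰 : Filter ℕ) D (a2 + 1) := rg_U_mono h (by linarith)
  filter_upwards [rg_good_window h (a2 - η) (a2 + η) ε (by linarith) hw hε] with n hn
  obtain ⟨σ, b1, b2, b3, b4, b5⟩ := hn
  rw [hUt] at b4 hw
  refine ⟨σ, by linarith, by linarith, b3, b3.1, ?_, by linarith, ?_⟩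
  · exact le_trans (by linarith) (le_max_right _ _)
  · exact le_trans (by linarith) (le_max_left _ _)

theorem rg_pot_gam_meas {d : RgDat} {c1 C1 t1 Cth : ℝ} (ok : d.Ok c1 C1 t1 Cth) : Measurable d.gam := by
  have hs := ok.s_mono.measurable
  have he := ok.e_meas
  have hp := ok.p_meas
  have hd := ok.dl_meas
  unfold RgDat.gam
  fun_prop

theorem rg_gam_int {d : RgDat} {c C c1 C1 t1 Cth Cγ : ℝ} (ok : d.Ok c1 C1 t1 Cth)
    (hγ : ∀ t ∈ d.band c C, |d.gam t| ≤ Cγ) {t t' : ℝ} (ht : t ∈ d.band c C) (ht' : t' ∈ d.band c C)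
    (hle : t ≤ t') : IntervalIntegrable d.gam volume t t' := by
  rw [intervalIntegrable_iff_integrableOn_Ioc_of_le hle]
  refine Measure.integrableOn_of_bounded (M := Cγ) (by simp) (rg_pot_gam_meas ok).aestronglyMeasurable ?_
  rw [ae_restrict_iff' measurableSet_Ioc]
  refine Eventually.of_forall fun u hu => ?_
  rw [Real.norm_eq_abs]
  exact hγ u (rg_band_ord ok.a_mono ht ht' hu.1.le hu.2)

/-- the sign argument at finite `n`, left end of the gap -/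
theorem rg_pot_left_fin {d : RgDat} {c C c1 C1 t1 Cth Cγ Cj K : ℝ} (ok : d.Ok c1 C1 t1 Cth)
    (hR : C < d.R) (ha0 : d.a 0 < c) (hK : 0 ≤ K)
    (hγ : ∀ t ∈ d.band c C, |d.gam t| ≤ Cγ)
    (hj : ∀ t ∈ d.band c C, ∀ t' ∈ d.band c C, d.J t' ≤ Cj * d.J t)
    {τ m b : ℝ} (hτ : τ ∈ d.band c C) (hb : b ∈ d.band c C) (h1 : τ ≤ m) (h2 : m ≤ b)
    (hHτ : d.H τ ≤ 0) (hHb : -(K * d.ell * d.J b) ≤ d.H b)
    (F : ℝ → ℝ) (hFi : IntervalIntegrable F volume m b) (hneg : ∀ᵐ t, t ∈ Ioo m b → F t ≤ 0) :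
    ∫ t in m..b, |F t| ≤ (m - τ) * (Cγ * Cj) + K * d.ell * Cj + Cj * ∫ t in m..b, |d.gam t - F t| := by
  have hm : m ∈ d.band c C := rg_band_ord ok.a_mono hτ hb h1 h2
  have hJτ := ok.J_pos τ
  have hat : d.a 0 < d.a τ := lt_of_lt_of_le ha0 hτ.2.2.1
  have ham : d.a 0 < d.a m := lt_of_lt_of_le ha0 hm.2.2.1
  have hbR : b ≤ d.R := hb.2.1.trans hR.le
  have e := ok.H_eq τ b hτ.1 (h1.trans h2) hbR hat
  have i1 := ok.H_int τ m hτ.1 h1 (h2.trans hbR) hat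
  have i2 := ok.H_int m b hm.1 h2 hbR ham
  rw [← intervalIntegral.integral_add_adjacent_intervals i1 i2] at e
  have p1 := (le_abs_self _).trans (rg_Jgam_le ok hγ hj hτ hm hτ h1)
  have ig := rg_gam_int ok hγ hm hb h2
  have iabs : IntervalIntegrable (fun t => |d.gam t - F t|) volume m b := (ig.sub hFi).abs
  have p2 : ∫ u in m..b, d.J u * d.gam u ≤ ∫ u in m..b, (d.J τ * F u + Cj * d.J τ * |d.gam u - F u|) := by
    refine intervalIntegral.integral_mono_ae_restrict h2 i2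
      ((hFi.const_mul _).add (iabs.const_mul _)) ?_
    rw [EventuallyLE, ae_restrict_iff' measurableSet_Icc]
    have n1 : ∀ᵐ t : ℝ, t ≠ m := by simp [ae_iff]
    have n2 : ∀ᵐ t : ℝ, t ≠ b := by simp [ae_iff]
    filter_upwards [hneg, n1, n2] with u hu n1 n2 hmem
    have hu0 := hu ⟨lt_of_le_of_ne hmem.1 (Ne.symm n1), lt_of_le_of_ne hmem.2 n2⟩
    have hub : u ∈ d.band c C := rg_band_ord ok.a_mono hm hb hmem.1 hmem.2
    have j1 : d.J τ ≤ d.J u := ok.J_mono τ u hτ.1 (h1.trans hmem.1) (hmem.2.trans hbR)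
    have j2 : d.J u ≤ Cj * d.J τ := hj τ hτ u hub
    have q1 : d.J u * F u ≤ d.J τ * F u := mul_le_mul_of_nonpos_right j1 hu0
    have q2 : d.J u * (d.gam u - F u) ≤ Cj * d.J τ * |d.gam u - F u| :=
      (mul_le_mul_of_nonneg_left (le_abs_self _) (ok.J_pos u).le).trans
        (mul_le_mul_of_nonneg_right j2 (abs_nonneg _))
    have : d.J u * d.gam u = d.J u * F u + d.J u * (d.gam u - F u) := by ring
    rw [this]
    exact add_le_add q1 q2
  rw [intervalIntegral.integral_add (hFi.const_mul _) (iabs.const_mul _),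
    intervalIntegral.integral_const_mul, intervalIntegral.integral_const_mul] at p2
  have eF : ∫ t in m..b, |F t| = -∫ t in m..b, F t := by
    rw [← intervalIntegral.integral_neg]
    refine intervalIntegral.integral_congr_ae ?_
    have n2 : ∀ᵐ t : ℝ, t ≠ b := by simp [ae_iff]
    filter_upwards [hneg, n2] with u hu n2 hmem
    rw [uIoc_of_le h2] at hmem
    exact abs_of_nonpos (hu ⟨hmem.1, lt_of_le_of_ne hmem.2 n2⟩)
  have jb : d.J b ≤ Cj * d.J τ := hj τ hτ b hb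
  have hKl : 0 ≤ K * d.ell := mul_nonneg hK ok.ell_nn
  have p3 : K * d.ell * d.J b ≤ K * d.ell * (Cj * d.J τ) := mul_le_mul_of_nonneg_left jb hKl
  rw [eF]
  have fin : d.J τ * (-∫ t in m..b, F t) ≤ d.J τ * ((m - τ) * (Cγ * Cj) + K * d.ell * Cj
      + Cj * ∫ t in m..b, |d.gam t - F t|) := by
    have : d.J τ * ((m - τ) * (Cγ * Cj) + K * d.ell * Cj + Cj * ∫ t in m..b, |d.gam t - F t|)
        = (m - τ) * (Cγ * Cj * d.J τ) + K * d.ell * (Cj * d.J τ)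
          + Cj * d.J τ * ∫ t in m..b, |d.gam t - F t| := by ring
    rw [this]
    linarith
  exact le_of_mul_le_mul_left fin hJτ

/-- the sign argument at finite `n`, right end of the gap -/
theorem rg_pot_right_fin {d : RgDat} {c C c1 C1 t1 Cth Cγ Cj K : ℝ} (ok : d.Ok c1 C1 t1 Cth)
    (hR : C < d.R) (ha0 : d.a 0 < c)
    (hγ : ∀ t ∈ d.band c C, |d.gam t| ≤ Cγ)
    (hj : ∀ t ∈ d.band c C, ∀ t' ∈ d.band c C, d.J t' ≤ Cj * d.J t)
    {σ m b : ℝ} (hσ : σ ∈ d.band c C) (hb : b ∈ d.band c C) (h1 : b ≤ m) (h2 : m ≤ σ)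
    (hHσ : d.H σ ≤ 0) (hHb : -(K * d.ell * d.J b) ≤ d.H b)
    (F : ℝ → ℝ) (hFi : IntervalIntegrable F volume b m) (hpos : ∀ᵐ t, t ∈ Ioo b m → 0 ≤ F t) :
    ∫ t in b..m, |F t| ≤ (σ - m) * (Cγ * Cj) + K * d.ell + Cj * ∫ t in b..m, |d.gam t - F t| := by
  have hm : m ∈ d.band c C := rg_band_ord ok.a_mono hb hσ h1 h2
  have hJb := ok.J_pos b
  have hab : d.a 0 < d.a b := lt_of_lt_of_le ha0 hb.2.2.1
  have ham : d.a 0 < d.a m := lt_of_lt_of_le ha0 hm.2.2.1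
  have hσR : σ ≤ d.R := hσ.2.1.trans hR.le
  have e := ok.H_eq b σ hb.1 (h1.trans h2) hσR hab
  have i1 := ok.H_int b m hb.1 h1 (h2.trans hσR) hab
  have i2 := ok.H_int m σ hm.1 h2 hσR ham
  rw [← intervalIntegral.integral_add_adjacent_intervals i1 i2] at e
  have p1 := (neg_abs_le _).trans' (neg_le_neg (rg_Jgam_le ok hγ hj hm hσ hb h2))
  have ig := rg_gam_int ok hγ hb hm h1
  have iabs : IntervalIntegrable (fun t => |d.gam t - F t|) volume b m := (ig.sub hFi).abs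
  have p2 : ∫ u in b..m, (d.J b * F u - Cj * d.J b * |d.gam u - F u|) ≤ ∫ u in b..m, d.J u * d.gam u := by
    refine intervalIntegral.integral_mono_ae_restrict h1
      ((hFi.const_mul _).sub (iabs.const_mul _)) i1 ?_
    rw [EventuallyLE, ae_restrict_iff' measurableSet_Icc]
    have n1 : ∀ᵐ t : ℝ, t ≠ m := by simp [ae_iff]
    have n2 : ∀ᵐ t : ℝ, t ≠ b := by simp [ae_iff]
    filter_upwards [hpos, n1, n2] with u hu n1 n2 hmem
    have hu0 := hu ⟨lt_of_le_of_ne hmem.1 (Ne.symm n2), lt_of_le_of_ne hmem.2 n1⟩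
    have hub : u ∈ d.band c C := rg_band_ord ok.a_mono hb hm hmem.1 hmem.2
    have j1 : d.J b ≤ d.J u := ok.J_mono b u hb.1 hmem.1 (hmem.2.trans (h2.trans hσR))
    have j2 : d.J u ≤ Cj * d.J b := hj b hb u hub
    have q1 : d.J b * F u ≤ d.J u * F u := mul_le_mul_of_nonneg_right j1 hu0
    have q2 : -(Cj * d.J b * |d.gam u - F u|) ≤ d.J u * (d.gam u - F u) := by
      have a1 : -(d.J u * |d.gam u - F u|) ≤ d.J u * (d.gam u - F u) := by
        rw [← mul_neg]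
        exact mul_le_mul_of_nonneg_left (neg_abs_le _) (ok.J_pos u).le
      have a2 : d.J u * |d.gam u - F u| ≤ Cj * d.J b * |d.gam u - F u| :=
        mul_le_mul_of_nonneg_right j2 (abs_nonneg _)
      linarith
    have : d.J u * d.gam u = d.J u * F u + d.J u * (d.gam u - F u) := by ring
    rw [this]
    linarith
  rw [intervalIntegral.integral_sub (hFi.const_mul _) (iabs.const_mul _),
    intervalIntegral.integral_const_mul, intervalIntegral.integral_const_mul] at p2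
  have eF : ∫ t in b..m, |F t| = ∫ t in b..m, F t := by
    refine intervalIntegral.integral_congr_ae ?_
    have n1 : ∀ᵐ t : ℝ, t ≠ m := by simp [ae_iff]
    filter_upwards [hpos, n1] with u hu n1 hmem
    rw [uIoc_of_le h1] at hmem
    exact abs_of_nonneg (hu ⟨hmem.1, lt_of_le_of_ne hmem.2 n1⟩)
  rw [eF]
  have fin : d.J b * (∫ t in b..m, F t) ≤ d.J b * ((σ - m) * (Cγ * Cj) + K * d.ell
      + Cj * ∫ t in b..m, |d.gam t - F t|) := by
    have : d.J b * ((σ - m) * (Cγ * Cj) + K * d.ell + Cj * ∫ t in b..m, |d.gam t - F t|)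
        = (σ - m) * (Cγ * Cj * d.J b) + K * d.ell * d.J b
          + Cj * d.J b * ∫ t in b..m, |d.gam t - F t| := by ring
    rw [this]
    linarith
  exact le_of_mul_le_mul_left fin hJb

/-- a nonnegative quantity bounded by every small multiple of a constant vanishes -/
theorem rg_le_zero_of_small {x M δ : ℝ} (hδ : 0 < δ) (hM : 0 ≤ M)
    (h : ∀ ι, 0 < ι → ι < δ → x ≤ ι * M) : x ≤ 0 := by
  by_contra hx
  push Not at hx
  have hM1 : 0 < M + 1 := by linarith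
  set ι := min (δ / 2) (x / (2 * (M + 1))) with hι
  have h0 : 0 < ι := lt_min (by linarith) (by positivity)
  have h1 : ι < δ := lt_of_le_of_lt (min_le_left _ _) (by linarith)
  have h2 : ι ≤ x / (2 * (M + 1)) := min_le_right _ _
  have h3 := h ι h0 h1
  have h4 : ι * M ≤ x / (2 * (M + 1)) * (M + 1) :=
    mul_le_mul h2 (by linarith) hM (by positivity)
  have h5 : x / (2 * (M + 1)) * (M + 1) = x / 2 := by field_simp
  linarith

/-- the stationarity limit cannot be `≤ 0` and nonzero immediately to the right of `a1` -/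
theorem rg_pot_left (h : RgHyp (𝒰 : Filter ℕ) D T A B) {a1 a2 U0 : ℝ} (G : RgGap (rgU (𝒰 : Filter ℕ) D) a1 a2 U0)
    (F : ℝ → ℝ) (b : ℝ) (hb : b ∈ Ioo a1 a2)
    (hFi : ∀ t' t'', a1 < t' → t' ≤ t'' → t'' < a2 → IntervalIntegrable F volume t' t'')
    (hF : ∀ t' t'', a1 < t' → t' ≤ t'' → t'' < a2 →
      Tendsto (fun n => ∫ t in t'..t'', |(D n).gam t - F t|) (𝒰 : Filter ℕ) (𝓝 0))
    (hneg : ∀ᵐ t, t ∈ Ioo a1 b → F t ≤ 0) :
    ∀ t' ∈ Ioo a1 b, ∫ t in t'..b, |F t| ≤ 0 := by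
  intro t' ht'
  have hc : 0 < U0 / 2 := by linarith [G.pos]
  obtain ⟨Cγ, Cj, c1, C1, t1, Cth, hγ0, hj0, hev⟩ :=
    rg_band_cst h (U0 / 2) (rgGC (rgU (𝒰 : Filter ℕ) D) a2) hc
  obtain ⟨K, hK⟩ := rg_H_lower h (U0 / 2) (rgGC (rgU (𝒰 : Filter ℕ) D) a2) hc
  have hbb := rg_gap_band h G b ((b + a2) / 2) hb.1 (by linarith [hb.2]) (by linarith [hb.2])
  have hell : ∀ᶠ n in (𝒰 : Filter ℕ), (D n).ell < (a2 - b) / 2 :=
    h.ell_lim.eventually (gt_mem_nhds (by linarith [hb.2]))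
  refine rg_le_zero_of_small (δ := t' - a1) (M := 2 * (Cγ * Cj)) (by linarith [ht'.1]) (by positivity) ?_
  intro ι hι0 hι1
  have hm1 : a1 < a1 + ι := by linarith
  have hm2 : a1 + ι ≤ b := by linarith [ht'.2]
  have hFm := hFi (a1 + ι) b hm1 hm2 hb.2
  have step1 : ∫ t in t'..b, |F t| ≤ ∫ t in (a1 + ι)..b, |F t| :=
    intervalIntegral.integral_mono_interval (by linarith) ht'.2.le le_rfl
      (Eventually.of_forall fun t => abs_nonneg _) hFm.abs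
  refine step1.trans ?_
  have hlim : Tendsto (fun n => 2 * ι * (Cγ * Cj) + max K 0 * (D n).ell * Cj
      + Cj * ∫ t in (a1 + ι)..b, |(D n).gam t - F t|) (𝒰 : Filter ℕ) (𝓝 (ι * (2 * (Cγ * Cj)))) := by
    have l1 := ((h.ell_lim.const_mul (max K 0)).mul_const Cj)
    have l2 := (hF (a1 + ι) b hm1 hm2 hb.2).const_mul Cj
    have := (l1.const_add (2 * ι * (Cγ * Cj))).add l2
    convert this using 2
    ring
  refine ge_of_tendsto hlim ?_
  filter_upwards [hev, hK, hbb, hell, rg_ref_left h G ι hι0] with n hn hK hbb hell href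
  obtain ⟨ok, hR, ha0, hγ, hj⟩ := hn
  obtain ⟨τ, r1, r2, r3, r4⟩ := href
  have hbm : b ∈ (D n).band (U0 / 2) (rgGC (rgU (𝒰 : Filter ℕ) D) a2) :=
    hbb ⟨le_rfl, by linarith [hb.2]⟩
  have hbl : b + (D n).ell ∈ (D n).band (U0 / 2) (rgGC (rgU (𝒰 : Filter ℕ) D) a2) :=
    hbb ⟨by linarith [ok.ell_nn], by linarith⟩
  have hHb : -(max K 0 * (D n).ell * (D n).J b) ≤ (D n).H b := by
    refine le_trans ?_ (hK b hbm hbl)
    have : K * (D n).ell * (D n).J b ≤ max K 0 * (D n).ell * (D n).J b :=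
      mul_le_mul_of_nonneg_right (mul_le_mul_of_nonneg_right (le_max_left _ _) ok.ell_nn) (ok.J_pos b).le
    linarith
  have hneg' : ∀ᵐ t, t ∈ Ioo (a1 + ι) b → F t ≤ 0 := by
    filter_upwards [hneg] with t ht hmem
    exact ht ⟨by linarith [hmem.1], hmem.2⟩
  have key := rg_pot_left_fin ok hR ha0 (le_max_right K 0) hγ hj r4 hbm r2 hm2 r3.2.2.1 hHb F hFm hneg'
  have : (a1 + ι - τ) * (Cγ * Cj) ≤ 2 * ι * (Cγ * Cj) :=
    mul_le_mul_of_nonneg_right (by linarith) (by positivity)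
  linarith

/-- the stationarity limit cannot be `≥ 0` and nonzero immediately to the left of `a2` -/
theorem rg_pot_right (h : RgHyp (𝒰 : Filter ℕ) D T A B) {a1 a2 U0 : ℝ} (G : RgGap (rgU (𝒰 : Filter ℕ) D) a1 a2 U0)
    (F : ℝ → ℝ) (b : ℝ) (hb : b ∈ Ioo a1 a2)
    (hFi : ∀ t' t'', a1 < t' → t' ≤ t'' → t'' < a2 → IntervalIntegrable F volume t' t'')
    (hF : ∀ t' t'', a1 < t' → t' ≤ t'' → t'' < a2 →
      Tendsto (fun n => ∫ t in t'..t'', |(D n).gam t - F t|) (𝒰 : Filter ℕ) (𝓝 0))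
    (hpos : ∀ᵐ t, t ∈ Ioo b a2 → 0 ≤ F t) :
    ∀ t'' ∈ Ioo b a2, ∫ t in b..t'', |F t| ≤ 0 := by
  intro t'' ht''
  have hc : 0 < U0 / 2 := by linarith [G.pos]
  obtain ⟨Cγ, Cj, c1, C1, t1, Cth, hγ0, hj0, hev⟩ :=
    rg_band_cst h (U0 / 2) (rgGC (rgU (𝒰 : Filter ℕ) D) a2) hc
  obtain ⟨K, hK⟩ := rg_H_lower h (U0 / 2) (rgGC (rgU (𝒰 : Filter ℕ) D) a2) hc
  have hbb := rg_gap_band h G b ((b + a2) / 2) hb.1 (by linarith [hb.2]) (by linarith [hb.2])
  have hell : ∀ᶠ n in (𝒰 : Filter ℕ), (D n).ell < (a2 - b) / 2 :=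
    h.ell_lim.eventually (gt_mem_nhds (by linarith [hb.2]))
  refine rg_le_zero_of_small (δ := a2 - t'') (M := 2 * (Cγ * Cj)) (by linarith [ht''.2]) (by positivity) ?_
  intro ι hι0 hι1
  have hm1 : a2 - ι < a2 := by linarith
  have hm2 : b ≤ a2 - ι := by linarith [ht''.1]
  have hFm := hFi b (a2 - ι) hb.1 hm2 hm1
  have step1 : ∫ t in b..t'', |F t| ≤ ∫ t in b..(a2 - ι), |F t| :=
    intervalIntegral.integral_mono_interval le_rfl ht''.1.le (by linarith)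
      (Eventually.of_forall fun t => abs_nonneg _) hFm.abs
  refine step1.trans ?_
  have hlim : Tendsto (fun n => 2 * ι * (Cγ * Cj) + K * (D n).ell
      + Cj * ∫ t in b..(a2 - ι), |(D n).gam t - F t|) (𝒰 : Filter ℕ) (𝓝 (ι * (2 * (Cγ * Cj)))) := by
    have l1 := h.ell_lim.const_mul K
    have l2 := (hF b (a2 - ι) hb.1 hm2 hm1).const_mul Cj
    have := (l1.const_add (2 * ι * (Cγ * Cj))).add l2
    convert this using 2
    ring
  refine ge_of_tendsto hlim ?_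
  filter_upwards [hev, hK, hbb, hell, rg_ref_right h G ι hι0] with n hn hK hbb hell href
  obtain ⟨ok, hR, ha0, hγ, hj⟩ := hn
  obtain ⟨σ, r1, r2, r3, r4⟩ := href
  have hbm : b ∈ (D n).band (U0 / 2) (rgGC (rgU (𝒰 : Filter ℕ) D) a2) :=
    hbb ⟨le_rfl, by linarith [hb.2]⟩
  have hbl : b + (D n).ell ∈ (D n).band (U0 / 2) (rgGC (rgU (𝒰 : Filter ℕ) D) a2) :=
    hbb ⟨by linarith [ok.ell_nn], by linarith⟩
  have hpos' : ∀ᵐ t, t ∈ Ioo b (a2 - ι) → 0 ≤ F t := by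
    filter_upwards [hpos] with t ht hmem
    exact ht ⟨hmem.1, by linarith [hmem.2]⟩
  have key := rg_pot_right_fin ok hR ha0 hγ hj r4 hbm hm2 r1 r3.2.2.1 (hK b hbm hbl) F hFm hpos'
  have : (σ - (a2 - ι)) * (Cγ * Cj) ≤ 2 * ι * (Cγ * Cj) :=
    mul_le_mul_of_nonneg_right (by linarith) (by positivity)
  linarith

/-- equation lemmas are generated HERE, once (CI286: no on-demand copies in the user files) -/
theorem rg_pot_eqns_cite : True := by
  have := @rgGC.eq_1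
  trivial

end Claimed.Agent.R286
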