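import Claimed.Agent.R286.Rig.Tools
import Claimed.Agent.R286.Rig.Ode

/-!
# Row 286, unit RIG, file 4: good points and the limiting mass distribution          (architect helper24; proofs helper21)

Paper: PE `profile.tex` l.257-290 (limiting mass distribution, selection of nonfloor points with `D = o(x)`).
`rg_good`: every mass interval `(v1,v2)`, `0 < v1`, eventually contains a mass whose radius `t` is GOOD: off the floor, `s ≈ t`, `k ≈ t`, `g_n(k) ≈ 0`.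
 PROOF.  `C := max v2 (max t1 (v2/c1))`; for `v ∈ (v1,v2)`: `a 0 < v ≤ a R` eventually, `t = r v ≤ C` by `outer` (`t ≥ t1 → c1 t ≤ a t = v`), so `t ∈ band v1 C`.
 The four bad sets (`floor_mass`, `dl_mass`, `rho_mass`, `rel` of the regime) have outer measure `→ 0 < v2 - v1`: pick `v` outside.  Then `|s - t| ≤ Crel (ε' + ell)` (resp. `≤ ell`),
 `|k - t| ≤ (1 + Cth/T_n)|s - t| + x^2 |z|/T_n` by `k_eq`, and `g(k) = e (s-t)/T_n - rho - z/T_n` with `e ≤ sup h1 + 1` (resp. `e |s-t| ≤ lam ell → 0`).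
-/

set_option autoImplicit false

namespace Claimed.Agent.R286

open MeasureTheory Filter Set Topology

variable {𝒰 : Ultrafilter ℕ} {D : ℕ → RgDat} {T A B : ℝ}

/-- a good radius -/
def RgDat.Good (d : RgDat) (ε t : ℝ) : Prop :=
  0 ≤ t ∧ t ≤ d.R ∧ d.H t ≤ 0 ∧ |d.s t - t| ≤ ε ∧ |d.k t - t| ≤ ε ∧ |d.g (d.k t)| ≤ ε

/-- limiting cumulative mass -/
noncomputable def rgU (l : Filter ℕ) (D : ℕ → RgDat) (t : ℝ) : ℝ := limUnder l (fun n => (D n).a t)

theorem RgDat.Good.mono {d : RgDat} {ε ε' t : ℝ} (h : d.Good ε t) (he : ε ≤ ε') : d.Good ε' t :=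
  ⟨h.1, h.2.1, h.2.2.1, h.2.2.2.1.trans he, h.2.2.2.2.1.trans he, h.2.2.2.2.2.trans he⟩

/-- deterministic part of `rg_good` -/
theorem rg_good_of {d : RgDat} {c1 C1 t1 Cth : ℝ} (hok : d.Ok c1 C1 t1 Cth) {t η T : ℝ} (hT : 0 < T)
    (hCth : 0 < Cth) (hTn : T / 2 ≤ d.T) (hx : d.x ^ 2 ≤ 1) (ht0 : 0 ≤ t) (htR : t ≤ d.R)
    (ha : d.a 0 < d.a t) (hH : d.H t ≤ 0) (hs : |d.s t - t| ≤ η) (hes : d.e t * |d.s t - t| ≤ η)
    (hrho : |d.rho t| ≤ η) (hz : |d.z t| ≤ η) :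
    d.Good ((2 + 2 * Cth / T + 4 / T) * η) t := by
  have hη : 0 ≤ η := (abs_nonneg _).trans hs
  have hTn0 : 0 < d.T := hok.T_pos
  have hinv : 1 / d.T ≤ 2 / T := by
    rw [div_le_div_iff₀ hTn0 hT]
    linarith
  have hinv0 : 0 ≤ 1 / d.T := by positivity
  have he0 := hok.e_pos t ht0 htR
  have hele := hok.e_le t ht0 htR
  have hx0 : 0 ≤ d.x ^ 2 := sq_nonneg _
  have hCT : 0 ≤ Cth / T := by positivity
  have h1T : 0 ≤ 1 / T := by positivity
  -- `z / T`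
  have hzT : |d.z t / d.T| ≤ 2 / T * η := by
    rw [abs_div, abs_of_pos hTn0, div_eq_mul_one_div, mul_comm]
    exact mul_le_mul hinv hz (abs_nonneg _) (by positivity)
  have hxe : 0 ≤ d.x ^ 2 * d.e t := by positivity
  refine ⟨ht0, htR, hH, ?_, ?_, ?_⟩
  · have : η ≤ (2 + 2 * Cth / T + 4 / T) * η := by
      have : 0 ≤ (1 + 2 * Cth / T + 4 / T) * η := by positivity
      nlinarith
    exact hs.trans this
  · have hk := hok.k_eq t ht0 htR ha
    have e1 : d.k t - t = (1 - d.x ^ 2 * d.e t / d.T) * (d.s t - t) + d.x ^ 2 * (d.z t / d.T) := by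
      rw [hk]; ring
    rw [e1]
    have b1 : |(1 - d.x ^ 2 * d.e t / d.T) * (d.s t - t)| ≤ (1 + 2 * Cth / T) * η := by
      rw [abs_mul]
      refine mul_le_mul ?_ hs (abs_nonneg _) (by positivity)
      have q0 : 0 ≤ d.x ^ 2 * d.e t / d.T := by positivity
      have q1 : d.x ^ 2 * d.e t / d.T ≤ 2 * Cth / T := by
        have e2 : 2 * Cth / T = Cth * (2 / T) := by ring
        rw [div_eq_mul_one_div, e2]
        exact mul_le_mul hele hinv hinv0 hCth.le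
      rw [abs_le]
      constructor <;> linarith
    have b2 : |d.x ^ 2 * (d.z t / d.T)| ≤ 2 / T * η := by
      rw [abs_mul, abs_of_nonneg hx0]
      calc d.x ^ 2 * |d.z t / d.T| ≤ 1 * |d.z t / d.T| := mul_le_mul_of_nonneg_right hx (abs_nonneg _)
        _ ≤ 2 / T * η := by rw [one_mul]; exact hzT
    have b3 := abs_add_le ((1 - d.x ^ 2 * d.e t / d.T) * (d.s t - t)) (d.x ^ 2 * (d.z t / d.T))
    have : (1 + 2 * Cth / T) * η + 2 / T * η ≤ (2 + 2 * Cth / T + 4 / T) * η := by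
      have : 0 ≤ (1 + 2 / T) * η := by positivity
      have e : 4 / T = 2 / T + 2 / T := by ring
      rw [e]
      nlinarith
    linarith
  · have e1 : d.g (d.k t) = d.e t * (d.s t - t) / d.T - d.rho t - d.z t / d.T := by
      unfold RgDat.rho; ring
    rw [e1]
    have b1 : |d.e t * (d.s t - t) / d.T| ≤ 2 / T * η := by
      rw [abs_div, abs_of_pos hTn0, abs_mul, abs_of_pos he0, div_eq_mul_one_div, mul_comm]
      exact mul_le_mul hinv hes (by positivity) (by positivity)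
    have b3 := abs_sub (d.e t * (d.s t - t) / d.T - d.rho t) (d.z t / d.T)
    have b4 := abs_sub (d.e t * (d.s t - t) / d.T) (d.rho t)
    have : 2 / T * η + η + 2 / T * η ≤ (2 + 2 * Cth / T + 4 / T) * η := by
      have : 0 ≤ (1 + 2 * Cth / T) * η := by positivity
      have e : 4 / T = 2 / T + 2 / T := by ring
      rw [e]
      nlinarith
    linarith

/-- a set of small outer measure misses a point of an interval -/
theorem rg_pick {v1 v2 : ℝ} {S : Set ℝ} (h : volume S < ENNReal.ofReal (v2 - v1)) :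
    ∃ v ∈ Ioo v1 v2, v ∉ S := by
  by_contra hc
  push Not at hc
  have : volume (Ioo v1 v2) ≤ volume S := measure_mono hc
  rw [Real.volume_Ioo] at this
  exact absurd h (not_lt.mpr this)


/-- eventual bound of the cumulative mass -/
theorem rg_a_bdd (h : RgHyp (𝒰 : Filter ℕ) D T A B) (t : ℝ) :
    ∃ M : ℝ, ∀ᶠ n in (𝒰 : Filter ℕ), |(D n).a t| ≤ M := by
  obtain ⟨c1, C1, t1, Cth, hc1, hC1, ht1, hCth, hok⟩ := h.ok
  refine ⟨C1 * max t t1, ?_⟩
  filter_upwards [hok, h.R_lim.eventually_ge_atTop (max t t1)] with n hn hR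
  rw [abs_of_nonneg (hn.a_nn t)]
  exact (hn.a_mono (le_max_left t t1)).trans (hn.outer _ (le_max_right t t1) hR).2

theorem rg_U_lim (h : RgHyp (𝒰 : Filter ℕ) D T A B) (t : ℝ) :
    Tendsto (fun n => (D n).a t) (𝒰 : Filter ℕ) (𝓝 (rgU (𝒰 : Filter ℕ) D t)) := by
  obtain ⟨M, hM⟩ := rg_a_bdd h t
  exact rg_ulim 𝒰 _ M hM

theorem rg_U_mono (h : RgHyp (𝒰 : Filter ℕ) D T A B) : Monotone (rgU (𝒰 : Filter ℕ) D) := by
  obtain ⟨c1, C1, t1, Cth, hc1, hC1, ht1, hCth, hok⟩ := h.ok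
  intro s t hst
  exact le_of_tendsto_of_tendsto (rg_U_lim h s) (rg_U_lim h t) (hok.mono fun n hn => hn.a_mono hst)

theorem rg_U_nn (h : RgHyp (𝒰 : Filter ℕ) D T A B) (t : ℝ) : 0 ≤ rgU (𝒰 : Filter ℕ) D t := by
  obtain ⟨c1, C1, t1, Cth, hc1, hC1, ht1, hCth, hok⟩ := h.ok
  exact ge_of_tendsto (rg_U_lim h t) (hok.mono fun n hn => hn.a_nn t)

theorem rg_U_zero (h : RgHyp (𝒰 : Filter ℕ) D T A B) : rgU (𝒰 : Filter ℕ) D 0 = 0 :=
  tendsto_nhds_unique (rg_U_lim h 0) h.a0_lim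

theorem rg_U_outer (h : RgHyp (𝒰 : Filter ℕ) D T A B) :
    ∃ c1 C1 t1 : ℝ, 0 < c1 ∧ 0 < C1 ∧ 0 < t1 ∧
      ∀ t, t1 ≤ t → c1 * t ≤ rgU (𝒰 : Filter ℕ) D t ∧ rgU (𝒰 : Filter ℕ) D t ≤ C1 * t := by
  obtain ⟨c1, C1, t1, Cth, hc1, hC1, ht1, hCth, hok⟩ := h.ok
  refine ⟨c1, C1, t1, hc1, hC1, ht1, fun t ht => ⟨?_, ?_⟩⟩
  · refine ge_of_tendsto (rg_U_lim h t) ?_
    filter_upwards [hok, h.R_lim.eventually_ge_atTop t] with n hn hR
    exact (hn.outer t ht hR).1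
  · refine le_of_tendsto (rg_U_lim h t) ?_
    filter_upwards [hok, h.R_lim.eventually_ge_atTop t] with n hn hR
    exact (hn.outer t ht hR).2

/-- the radius of a mass of `(v1,v2)` lies in the band -/
theorem rg_mass_band {d : RgDat} {c1 C1 t1 Cth : ℝ} (hok : d.Ok c1 C1 t1 Cth) (hc1 : 0 < c1) {v1 v2 v : ℝ}
    (hv : v ∈ Ioo v1 v2) (h0 : d.a 0 < v1) (hR : v2 ≤ c1 * d.R) :
    0 ≤ d.r v ∧ d.r v ≤ d.R ∧ d.a (d.r v) = v ∧ d.r v ≤ max v2 (max t1 (v2 / c1)) ∧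
      d.r v ∈ d.band v1 (max v2 (max t1 (v2 / c1))) := by
  have hvR : v ≤ d.a d.R := hv.2.le.trans (hR.trans (hok.outer d.R hok.R_ge le_rfl).1)
  obtain ⟨q0, q1, q2⟩ := hok.quant v (h0.trans hv.1) hvR
  have hC : d.r v ≤ max v2 (max t1 (v2 / c1)) := by
    rcases le_total t1 (d.r v) with ht | ht
    · have := (hok.outer _ ht q1).1
      rw [q2] at this
      have : d.r v ≤ v2 / c1 := by
        rw [le_div_iff₀ hc1]
        nlinarith [hv.2]
      exact this.trans ((le_max_right _ _).trans (le_max_right _ _))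
    · exact ht.trans ((le_max_left _ _).trans (le_max_right _ _))
  refine ⟨q0, q1, q2, hC, q0, hC, ?_, ?_⟩
  · rw [q2]; exact hv.1.le
  · rw [q2]; exact hv.2.le.trans (le_max_left _ _)


theorem rg_not_mset {d : RgDat} {c C v : ℝ} {Q : ℝ → Prop} (h1 : c ≤ v) (h2 : v ≤ C) (h3 : d.r v ≤ C)
    (h : v ∉ d.mset c C Q) : ¬ Q (d.r v) := fun hq => h ⟨h1, h2, h3, hq⟩

theorem rg_good (h : RgHyp (𝒰 : Filter ℕ) D T A B) (v1 v2 ε : ℝ) (hv1 : 0 < v1) (hv : v1 < v2) (hε : 0 < ε) :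
    ∀ᶠ n in (𝒰 : Filter ℕ), ∃ v ∈ Ioo v1 v2, (D n).a ((D n).r v) = v ∧ (D n).Good ε ((D n).r v) := by
  obtain ⟨c1, C1, t1, Cth, hc1, hC1, ht1, hCth, hok⟩ := h.ok
  have hT := h.T_pos
  obtain ⟨K, hK, hKdef⟩ : ∃ K : ℝ, 0 < K ∧ K = 2 + 2 * Cth / T + 4 / T := ⟨_, by positivity, rfl⟩
  obtain ⟨η, hη, hηdef⟩ : ∃ η : ℝ, 0 < η ∧ K * η = ε := ⟨ε / K, by positivity, by field_simp⟩
  obtain ⟨C, hCdef⟩ : ∃ C : ℝ, C = max v2 (max t1 (v2 / c1)) := ⟨_, rfl⟩
  have hpos : (0 : ENNReal) < ENNReal.ofReal (v2 - v1) := ENNReal.ofReal_pos.mpr (by linarith)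
  have e_a0 : ∀ᶠ n in (𝒰 : Filter ℕ), (D n).a 0 < v1 := (tendsto_order.1 h.a0_lim).2 v1 hv1
  have e_R : ∀ᶠ n in (𝒰 : Filter ℕ), v2 ≤ c1 * (D n).R := by
    filter_upwards [h.R_lim.eventually_ge_atTop (v2 / c1)] with n hn
    rw [div_le_iff₀ hc1] at hn
    linarith
  have e_T : ∀ᶠ n in (𝒰 : Filter ℕ), T / 2 ≤ (D n).T :=
    ((tendsto_order.1 h.T_lim).1 (T / 2) (by linarith)).mono fun n hn => hn.le
  have e_x : ∀ᶠ n in (𝒰 : Filter ℕ), (D n).x ^ 2 ≤ 1 := by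
    filter_upwards [(tendsto_order.1 h.x_lim).1 (-1) (by norm_num),
      (tendsto_order.1 h.x_lim).2 1 (by norm_num)] with n h1 h2
    nlinarith
  have e_z := h.z_lim v1 C η hv1 hη
  rcases h.regime with hd | hb
  · obtain ⟨lam, hlam, hlamell, hconst⟩ := hd.ex
    have hm : Tendsto (fun n => volume ((D n).mset v1 C (fun t => 0 < (D n).H t))
        + volume ((D n).mset v1 C (fun t => η < |(D n).rho t|))
        + volume ((D n).mset v1 C (fun t => (D n).H t ≤ 0 ∧ (D n).ell < |(D n).s t - t|)))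
        (𝒰 : Filter ℕ) (𝓝 0) := by
      simpa using ((h.floor_mass v1 C hv1).add (h.rho_mass v1 C η hv1 hη)).add (hd.rel v1 C hv1)
    have e_m := (tendsto_order.1 hm).2 _ hpos
    have e_ell : ∀ᶠ n in (𝒰 : Filter ℕ), (D n).ell ≤ η :=
      ((tendsto_order.1 h.ell_lim).2 η hη).mono fun n hn => hn.le
    have e_le : ∀ᶠ n in (𝒰 : Filter ℕ), lam n * (D n).ell ≤ η :=
      ((tendsto_order.1 hlamell).2 η hη).mono fun n hn => hn.le
    have e_lam : ∀ᶠ n in (𝒰 : Filter ℕ), 0 ≤ lam n := hlam.eventually_ge_atTop 0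
    filter_upwards [hok, e_a0, e_R, e_T, e_x, e_z, e_m, e_ell, e_le, e_lam, hconst C]
      with n hn ha0 hR hTn hx hz hmn hell hle hlam0 hcst
    obtain ⟨v, hvm, hvn⟩ := rg_pick (lt_of_le_of_lt ((measure_union_le _ _).trans
      (add_le_add (measure_union_le _ _) le_rfl)) hmn)
    obtain ⟨q0, q1, q2, q3, q4⟩ := rg_mass_band hn hc1 hvm ha0 hR
    rw [← hCdef] at q3 q4
    have hvC : v ≤ C := by rw [hCdef]; exact hvm.2.le.trans (le_max_left _ _)
    simp only [mem_union, not_or] at hvn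
    have n1 := rg_not_mset hvm.1.le hvC q3 hvn.1.1
    have n2 := rg_not_mset hvm.1.le hvC q3 hvn.1.2
    have n3 := rg_not_mset hvm.1.le hvC q3 hvn.2
    have hH : (D n).H ((D n).r v) ≤ 0 := not_lt.mp n1
    have hrho : |(D n).rho ((D n).r v)| ≤ η := not_lt.mp n2
    have hs : |(D n).s ((D n).r v) - (D n).r v| ≤ (D n).ell := by
      by_contra hc
      exact n3 ⟨hH, not_le.mp hc⟩
    refine ⟨v, hvm, q2, ?_⟩
    rw [← hηdef, hKdef]
    refine rg_good_of hn hT hCth hTn hx q0 q1 (by rw [q2]; exact ha0.trans hvm.1) hH (hs.trans hell) ?_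
      hrho (hz _ q4)
    rw [(hcst _ q0 q3).1]
    exact (mul_le_mul_of_nonneg_left hs hlam0).trans hle
  · obtain ⟨h1, pin, t0, ht0, hh1, hpin, hh1pos, he, hp, hp0⟩ := hb.ex
    obtain ⟨Crel, hCrel, hrel⟩ := hb.rel v1 C hv1
    obtain ⟨M, hM⟩ := (isCompact_Icc (a := (0 : ℝ)) (b := C)).exists_bound_of_continuousOn hh1.continuousOn
    have hM' : ∀ t ∈ Icc (0 : ℝ) C, h1 t ≤ |M| := fun t ht =>
      (le_abs_self _).trans (((Real.norm_eq_abs _).symm.le.trans (hM t ht)).trans (le_abs_self _))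
    obtain ⟨E, hE, hEdef⟩ : ∃ E : ℝ, 1 ≤ E ∧ E = |M| + 1 := ⟨_, by linarith [abs_nonneg M], rfl⟩
    have hE0 : 0 < E := by linarith
    obtain ⟨ε', hε', hε'def⟩ : ∃ ε' : ℝ, 0 < ε' ∧ E * (Crel * (ε' + ε')) = η :=
      ⟨η / (2 * E * Crel), by positivity, by field_simp; ring⟩
    have hm : Tendsto (fun n => volume ((D n).mset v1 C (fun t => 0 < (D n).H t))
        + volume ((D n).mset v1 C (fun t => η < |(D n).rho t|))
        + volume ((D n).mset v1 C (fun t => ε' < (D n).dl t))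
        + volume ((D n).mset v1 C
            (fun t => (D n).H t ≤ 0 ∧ Crel * ((D n).dl t + (D n).ell) < |(D n).s t - t|)))
        (𝒰 : Filter ℕ) (𝓝 0) := by
      simpa using (((h.floor_mass v1 C hv1).add (h.rho_mass v1 C η hv1 hη)).add
        (h.dl_mass v1 C ε' hv1 hε')).add hrel
    have e_m := (tendsto_order.1 hm).2 _ hpos
    have e_ell : ∀ᶠ n in (𝒰 : Filter ℕ), (D n).ell ≤ ε' :=
      ((tendsto_order.1 h.ell_lim).2 ε' hε').mono fun n hn => hn.le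
    have e_e := (Metric.tendstoUniformlyOn_iff.mp (he C)) 1 one_pos
    filter_upwards [hok, e_a0, e_R, e_T, e_x, e_z, e_m, e_ell, e_e]
      with n hn ha0 hR hTn hx hz hmn hell hee
    obtain ⟨v, hvm, hvn⟩ := rg_pick (lt_of_le_of_lt ((measure_union_le _ _).trans
      (add_le_add ((measure_union_le _ _).trans (add_le_add (measure_union_le _ _) le_rfl)) le_rfl)) hmn)
    obtain ⟨q0, q1, q2, q3, q4⟩ := rg_mass_band hn hc1 hvm ha0 hR
    rw [← hCdef] at q3 q4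
    have hvC : v ≤ C := by rw [hCdef]; exact hvm.2.le.trans (le_max_left _ _)
    simp only [mem_union, not_or] at hvn
    have n1 := rg_not_mset hvm.1.le hvC q3 hvn.1.1.1
    have n2 := rg_not_mset hvm.1.le hvC q3 hvn.1.1.2
    have n3 := rg_not_mset hvm.1.le hvC q3 hvn.1.2
    have n4 := rg_not_mset hvm.1.le hvC q3 hvn.2
    have hH : (D n).H ((D n).r v) ≤ 0 := not_lt.mp n1
    have hrho : |(D n).rho ((D n).r v)| ≤ η := not_lt.mp n2
    have hdl : (D n).dl ((D n).r v) ≤ ε' := not_lt.mp n3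
    have hs : |(D n).s ((D n).r v) - (D n).r v| ≤ Crel * (ε' + ε') := by
      have : |(D n).s ((D n).r v) - (D n).r v| ≤ Crel * ((D n).dl ((D n).r v) + (D n).ell) := by
        by_contra hc
        exact n4 ⟨hH, not_le.mp hc⟩
      exact this.trans (mul_le_mul_of_nonneg_left (add_le_add hdl hell) hCrel.le)
    have hcc : 0 ≤ Crel * (ε' + ε') := by positivity
    have heE : (D n).e ((D n).r v) ≤ E := by
      have h2 := hee _ ⟨q0, q3⟩
      rw [Real.dist_eq] at h2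
      have h3 := (abs_lt.mp h2).1
      have h4 := hM' _ ⟨q0, q3⟩
      linarith
    refine ⟨v, hvm, q2, ?_⟩
    rw [← hηdef, hKdef]
    refine rg_good_of hn hT hCth hTn hx q0 q1 (by rw [q2]; exact ha0.trans hvm.1) hH ?_ ?_
      hrho (hz _ q4)
    · refine hs.trans ?_
      rw [← hε'def]
      nlinarith
    · rw [← hε'def]
      exact mul_le_mul heE hs (abs_nonneg _) hE0.le

/-- a radius window that carries limiting mass eventually contains a good radius, reached after half of that mass -/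
theorem rg_good_window (h : RgHyp (𝒰 : Filter ℕ) D T A B) (t' t'' ε : ℝ) (h0 : 0 ≤ t')
    (hlt : rgU (𝒰 : Filter ℕ) D t' < rgU (𝒰 : Filter ℕ) D t'') (hε : 0 < ε) :
    ∀ᶠ n in (𝒰 : Filter ℕ), ∃ τ, t' < τ ∧ τ ≤ t'' ∧ (D n).Good ε τ ∧
      (rgU (𝒰 : Filter ℕ) D t' + rgU (𝒰 : Filter ℕ) D t'') / 2 ≤ (D n).a τ ∧
      (D n).a τ ≤ rgU (𝒰 : Filter ℕ) D t'' := by
  obtain ⟨c1, C1, t1, Cth, hc1, hC1, ht1, hCth, hok⟩ := h.ok
  have hU0 := rg_U_nn h t'
  have hg := rg_good h ((rgU (𝒰 : Filter ℕ) D t' + rgU (𝒰 : Filter ℕ) D t'') / 2)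
    ((rgU (𝒰 : Filter ℕ) D t' + 3 * rgU (𝒰 : Filter ℕ) D t'') / 4) ε (by linarith) (by linarith) hε
  have e1 := (tendsto_order.1 (rg_U_lim h t')).2
    ((rgU (𝒰 : Filter ℕ) D t' + rgU (𝒰 : Filter ℕ) D t'') / 2) (by linarith)
  have e2 := (tendsto_order.1 (rg_U_lim h t'')).1
    ((rgU (𝒰 : Filter ℕ) D t' + 3 * rgU (𝒰 : Filter ℕ) D t'') / 4) (by linarith)
  filter_upwards [hok, hg, e1, e2] with n hn hgn h1 h2
  obtain ⟨v, hv, hav, hgood⟩ := hgn
  refine ⟨(D n).r v, ?_, ?_, hgood, ?_, ?_⟩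
  · by_contra hc
    have := hn.a_mono (not_lt.mp hc)
    rw [hav] at this
    linarith [hv.1]
  · by_contra hc
    have := hn.a_mono (not_le.mp hc).le
    rw [hav] at this
    linarith [hv.2]
  · rw [hav]; exact hv.1.le
  · rw [hav]; linarith [hv.2]

/-- equation lemmas are generated HERE, once (CI286: no on-demand copies in the user files) -/
theorem rg_sel_eqns_cite : True := by
  have := @RgDat.Good.eq_1
  have := @rgU.eq_1
  trivial

end Claimed.Agent.R286
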